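-- KEEP
import Claimed.Agent.R289.Tr.LinkF
import Claimed.Agent.R289.Tr.Sure

/-!
# Row 289 (S0537), THE WALL, ROAD E, file Tr/ThickE : (K5) FORCED LINKS ALONG AN ENLARGED EXPERIMENT = E10 REDUCED TO ONE DETERMINISTIC CONTRACT      (helper252; split of 7, 11:10Z; prefix `pvkr_`, `pvkr`, `Pvkr`)      CLOSED

MODEL FREE.   WHAT IS ASKED (7 (K5), 141 `pvue_ae_of_Q`, 256 `pvrgFrc`, 271 field `bad`): for a usable base `ω`, for ALMOST EVERY seed `p` of the LARGE experiment `R p = pvdyR C (fun _ => y i) ω p` (thick: `C = eK ∪ rO ∪ cK`: the DOOR is resampled too),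
      `R p ∈ G  ⟹  q ≤ pvdyQ ε K (fun _ => ye i) (A i) (R p)`,      `A i = pvsuSure (pvP ε) (Wn i ×ˢ univ) (M i)` (soft localisation of the PLAIN event `M i`),   off an event of `ω` whose probability tends to `0`.
WHAT IS PROVED HERE: all the measure theory.   (F1') of 250 (`Tr/LinkF`) is applied AT THE BASE `R p`; the certificate of 196 (`pvayGood2`, `Tr/RegQ`) is carried from `ω` to `R p`; the three nested "almost every" (seed of the large experiment, seed of the link,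
outside sample of `pvsuSure`) are paid by splice invariance.      WHAT IS LEFT = **`PvkrDet`** : a statement on ONE configuration `cfOf Y' s` of the whole plane, NO measure, NO experiment      [producers: HOOK-DET 23 228 90 165 70 298 + persistence of the half state].
* sec. 1  `PvkrSimple`, `pvkr_simple_ae`, `.eq`, `.win`;   `pvkr_restr_congr`, `pvkr_mem_congr` (events read in a window, `(Y, s)` form)
* sec. 2  **`pvkr_good2_congr`** : `pvayGood2 ε C O 𝒜 t θ` is COLOUR BLIND and reads the sites of `O \ C` only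
* sec. 3  `pvkrAe ε C q` ("`q` holds for the sites after an independent resampling of `C`"), `pvkr_ae_step` (iterate at will), `pvkr_ae_geo` (labelled geometries), `pvkr_ae_snd`
* sec. 4  `PvkrPat` (static data: tile `K`, door `D`, copy pattern `Pb ∩ Pw` in `O`, hooks `Hb ∩ Hw` in `D ∪ K`), `PvkrPat.Ok` (no configuration inside), **`PvkrDet`**, **`pvkr_forced_pt`** (pointwise in the base)
* sec. 5  **`pvkrFrc`** (the forced set, base indexed), `pvkr_frc_anti`, `pvkr_frc_W` (weight `≤ q⁻¹` along the experiment), `PvkrAt`, **`pvkr_forced_ae`** : a.s. `U ∩ certificate ⊆ forced`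
* sec. 6  `pvkr_cert_lim`, **`pvkr_bad`** (shape of `PvnaBad`), `pvkr_bad_inter`, `PvkrEps` (THE LEAVES AT ONE MESH), **`pvkr_bad_link`** : leaves + cost of the static certificates + PLAIN quenched estimate of the pattern ⟹ `P(U \ forced) → 0`, `q = t (b - θ)`
USE.   first / last link: `C := tile ∪ door (∪ anything off O)`;   thick link `u → t` and thick return `t → u`: the same `C`, `D := placed rO`, two patterns, `Gd_thick := pvkrFrc (e) ∩ pvkrFrc (f)`, `pvkr_bad_inter`.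
DESIGN CLAUSES WHICH THE CONTRACT MAKES VISIBLE (for the pens of the regions and of the explicit family): (i) `O ∩ C ⊆ K`: the windows of the copy pattern stay off the door and off the other tiles (the hooks `Hb Hw` come INTO the tile);
(ii) black windows `Vb ∪ Wb` and white windows `Vw ∪ Ww` disjoint;   (iii) in `PvkrDet` one knows `s = τ` on the tile and on `ye` ONLY: a kept site of `O` which is neither in `ye` nor frozen by the state kills DET, so `O ⊆ K ∪ mouth`.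
-/

set_option autoImplicit false
set_option linter.unusedSectionVars false
set_option linter.unusedVariables false

namespace Claimed.Agent.R289

open MeasureTheory ProbabilityTheory Set Filter Topology Claims.C0465
open scoped ENNReal

/-! ## 1. simple configurations, windows -/

/-- locally finite sites, one colour per site -/
def PvkrSimple (η : Conf PvPt) : Prop := VorLF (cfSites η) ∧ ∀ p ∈ η.pts, ∀ q ∈ η.pts, p.1 = q.1 → p = q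

theorem pvkr_eqns_cite : True := by
  have := @PvkrSimple.eq_1
  trivial

theorem pvkr_simple_ae (ε : ℝ) : ∀ᵐ η ∂pvP ε, PvkrSimple η := (delgp_ae_conf ε).mono fun _ h => ⟨h.1, h.2.2⟩

theorem PvkrSimple.eq {η : Conf PvPt} (h : PvkrSimple η) : η = cfOf (cfSites η) (cfCol η) := pvay_conf_of h.2

theorem pvkr_lf_fin {Y O : Set ℂ} (h : VorLF Y) (hO : Bornology.IsBounded O) : (Y ∩ O).Finite := by
  obtain ⟨R, hR⟩ := hO.subset_closedBall (0 : ℂ)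
  exact (h R).subset (inter_subset_inter_right _ hR)

theorem pvkr_simple_of {Y : Set ℂ} (h : VorLF Y) (σ : ℂ → Bool) : PvkrSimple (cfOf Y σ) := by
  refine ⟨by rw [cfOf_sites]; exact h, ?_⟩
  rintro p hp q hq hpq
  exact Prod.ext hpq (by rw [hp.2, hq.2, hpq])

theorem PvkrSimple.win {η : Conf PvPt} (h : PvkrSimple η) {O : Set ℂ} (hO : Bornology.IsBounded O) : PvayWin O η := by
  rw [h.eq]
  exact pvay_win_of (pvkr_lf_fin h.1 hO) _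

theorem pvkr_restr_congr {W Y Y' : Set ℂ} {s s' : ℂ → Bool} (hs : ∀ z ∈ W, (z ∈ Y ↔ z ∈ Y')) (hc : ∀ z ∈ W, z ∈ Y → s z = s' z) :
    Conf.restr (W ×ˢ (univ : Set Bool)) (cfOf Y s) = Conf.restr (W ×ˢ (univ : Set Bool)) (cfOf Y' s') := by
  ext p
  simp only [Conf.restr, cfOf, mem_inter_iff, mem_ofPred_eq, mem_prod, mem_univ, and_true]
  constructor
  · rintro ⟨⟨h1, h2⟩, h3⟩
    exact ⟨⟨(hs _ h3).1 h1, by rw [h2, hc _ h3 h1]⟩, h3⟩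
  · rintro ⟨⟨h1, h2⟩, h3⟩
    exact ⟨⟨(hs _ h3).2 h1, by rw [h2, hc _ h3 ((hs _ h3).2 h1)]⟩, h3⟩

theorem pvkr_mem_congr {W Y Y' : Set ℂ} {s s' : ℂ → Bool} {A : Set (Conf PvPt)} (hr : Conf.ReadsSet (W ×ˢ (univ : Set Bool)) A) (hs : ∀ z ∈ W, (z ∈ Y ↔ z ∈ Y'))
    (hc : ∀ z ∈ W, z ∈ Y → s z = s' z) : cfOf Y s ∈ A ↔ cfOf Y' s' ∈ A := by
  rw [← hr, ← hr (cfOf Y' s'), pvkr_restr_congr hs hc]

theorem pvkr_Yc_off {C Y Y₂ : Set ℂ} {z : ℂ} (hz : z ∉ C) : z ∈ pvdyYc C Y Y₂ ↔ z ∈ Y := by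
  simp only [pvdyYc, mem_union, Set.mem_sdiff, mem_inter_iff]
  tauto

/-! ## 2. the certificate of 196 is colour blind and reads the kept sites of the window -/

theorem pvkr_good2_congr {ε : ℝ} {C O : Set ℂ} (hOm : MeasurableSet O) (hO : Bornology.IsBounded O) {𝒜 : Set (Conf PvPt)} (hA : MeasurableSet 𝒜)
    (hr : Conf.ReadsSet (O ×ˢ (univ : Set Bool)) 𝒜) {t θ : ℝ≥0∞} {η η' : Conf PvPt} (hη : PvayWin O η) (hη' : PvayWin O η')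
    (hs : ∀ z ∈ O, z ∉ C → (z ∈ cfSites η' ↔ z ∈ cfSites η)) (h : η ∈ pvayGood2 ε C O 𝒜 t θ) : η' ∈ pvayGood2 ε C O 𝒜 t θ := by
  have key : ∀ᵐ η₂ ∂pvP ε, (Conf.spl (Cᶜ ×ˢ (univ : Set Bool)) (η', η₂) ∉ pvayGood O 𝒜 t ↔ Conf.spl (Cᶜ ×ˢ (univ : Set Bool)) (η, η₂) ∉ pvayGood O 𝒜 t) := by
    filter_upwards [pvkr_simple_ae ε] with η₂ h2
    have hw := h2.win hO
    rw [pvay_good_iff hOm hA hr (hη.spl C hw), pvay_good_iff hOm hA hr (hη'.spl C hw), pvay_sites_spl, pvay_sites_spl]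
    have e : pvdyYc C (cfSites η') (cfSites η₂) ∩ O = pvdyYc C (cfSites η) (cfSites η₂) ∩ O := by
      ext z
      simp only [pvdyYc, mem_inter_iff, mem_union, Set.mem_sdiff]
      constructor
      · rintro ⟨⟨h1, h3⟩ | h1, hz⟩
        · exact ⟨Or.inl ⟨(hs z hz h3).1 h1, h3⟩, hz⟩
        · exact ⟨Or.inr h1, hz⟩
      · rintro ⟨⟨h1, h3⟩ | h1, hz⟩
        · exact ⟨Or.inl ⟨(hs z hz h3).2 h1, h3⟩, hz⟩
        · exact ⟨Or.inr h1, hz⟩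
    rw [pvay_Q_congr hr e]
  have e2 : pvP ε {η₂ | Conf.spl (Cᶜ ×ˢ (univ : Set Bool)) (η', η₂) ∉ pvayGood O 𝒜 t} = pvP ε {η₂ | Conf.spl (Cᶜ ×ˢ (univ : Set Bool)) (η, η₂) ∉ pvayGood O 𝒜 t} :=
    measure_congr (Filter.eventuallyEq_set.2 key)
  show pvP ε {η₂ | Conf.spl (Cᶜ ×ˢ (univ : Set Bool)) (η', η₂) ∉ pvayGood O 𝒜 t} ≤ θ
  rw [e2]
  exact h

/-! ## 3. almost sure properties of the sites along iterated splices -/

/-- the property `q` of the site set holds when everything inside `C` is replaced by an independent copy -/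
def pvkrAe (ε : ℝ) (C : Set ℂ) (q : Set ℂ → Prop) (Y : Set ℂ) : Prop := ∀ᵐ ξ ∂pvP ε, q (pvdyYc C Y (cfSites ξ))

theorem pvkr_eqns_cite2 : True := by
  have := @pvkrAe.eq_1
  trivial

theorem pvkr_ae_step (ε : ℝ) {C : Set ℂ} (hC : MeasurableSet C) {q : Set ℂ → Prop} (hq : ∀ᵐ η ∂pvP ε, q (cfSites η)) : ∀ᵐ η ∂pvP ε, pvkrAe ε C q (cfSites η) := by
  have h := pvsu_ae_spl (pv_isPpp ε) (W := Cᶜ ×ˢ (univ : Set Bool)) (hC.compl.prod MeasurableSet.univ) hq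
  filter_upwards [h] with σ hσ
  show ∀ᵐ ξ ∂pvP ε, q (pvdyYc C (cfSites σ) (cfSites ξ))
  filter_upwards [hσ] with ξ hξ
  rwa [pvay_sites_spl] at hξ

/-- transfer to the labelled geometries -/
theorem pvkr_ae_geo (ε : ℝ) {q : Set ℂ → Prop} (h : ∀ᵐ η ∂pvP ε, q (cfSites η)) : pvGeo ε {g | ¬ q (pvgSites g)} = 0 := by
  have h1 : ∀ᵐ x ∂pvLaw ε, q (cfSites (pvConf x)) := ae_of_ae_map measurable_pvConf.aemeasurable h
  rw [← pvax_sites_eq ε (fun Y => ¬ q Y)]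
  exact ae_iff.1 h1

theorem pvkr_ae_snd (ε : ℝ) {P : Conf PvPt → Prop} (h : ∀ᵐ η ∂pvP ε, P η) : ∀ᵐ p ∂pvdyNu ε, P p.2 := by
  have := (pv_isPpp ε).prob
  exact (Measure.quasiMeasurePreserving_snd (μ := colLaw ℂ) (ν := pvP ε)).ae h

/-! ## 4. one forced link with a door, inside a larger experiment -/

/-- **THE STATIC DATA OF A FORCED LINK WITH A DOOR**: tile `K` (resampled by the experiment of the link), door region `D`, copy pattern `Pb ∩ Pw` (black / white halves, windows `Vb Vw ⊆ O`),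
hooking events of the door `Hb ∩ Hw` (black / white half lanes, windows `Wb Ww ⊆ D ∪ K`) -/
structure PvkrPat where
  K : Set ℂ
  D : Set ℂ
  O : Set ℂ
  Vb : Set ℂ
  Vw : Set ℂ
  Wb : Set ℂ
  Ww : Set ℂ
  Pb : Set (Conf PvPt)
  Pw : Set (Conf PvPt)
  Hb : Set (Conf PvPt)
  Hw : Set (Conf PvPt)

/-- what (F1') of 250 asks of the static data: NO configuration, NO state -/
structure PvkrPat.Ok (𝔭 : PvkrPat) : Prop where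
  mK : MeasurableSet 𝔭.K
  mD : MeasurableSet 𝔭.D
  mO : MeasurableSet 𝔭.O
  bO : Bornology.IsBounded 𝔭.O
  mPb : MeasurableSet 𝔭.Pb
  mPw : MeasurableSet 𝔭.Pw
  mHb : MeasurableSet 𝔭.Hb
  mHw : MeasurableSet 𝔭.Hw
  rPb : Conf.ReadsSet (𝔭.Vb ×ˢ (univ : Set Bool)) 𝔭.Pb
  rPw : Conf.ReadsSet (𝔭.Vw ×ˢ (univ : Set Bool)) 𝔭.Pw
  rHb : Conf.ReadsSet (𝔭.Wb ×ˢ (univ : Set Bool)) 𝔭.Hb
  rHw : Conf.ReadsSet (𝔭.Ww ×ˢ (univ : Set Bool)) 𝔭.Hw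
  VbO : 𝔭.Vb ⊆ 𝔭.O
  VwO : 𝔭.Vw ⊆ 𝔭.O
  WbDK : 𝔭.Wb ⊆ 𝔭.D ∪ 𝔭.K
  WwDK : 𝔭.Ww ⊆ 𝔭.D ∪ 𝔭.K
  dDK : Disjoint 𝔭.D 𝔭.K
  /-- the black windows and the white windows are disjoint -/
  dis : Disjoint (𝔭.Vb ∪ 𝔭.Wb) (𝔭.Vw ∪ 𝔭.Ww)
  /-- monotone AT FIXED SITES (lanes: `pvlhf_lane_inc`, `pvlhf_lane_dec` of 250) -/
  iPb : ∀ Y', VorLF Y' → PvlhInc Y' 𝔭.Pb
  dPw : ∀ Y', VorLF Y' → PvlhDec Y' 𝔭.Pw
  iHb : ∀ Y', VorLF Y' → PvlhInc Y' 𝔭.Hb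
  dHw : ∀ Y', VorLF Y' → PvlhDec Y' 𝔭.Hw

/-- **THE DETERMINISTIC CONTRACT OF A FORCED LINK AT THE BASE `ω`** (NO measure, ONE configuration `cfOf Y' s` of the whole plane).
`C` = the region resampled by the LARGE experiment, `y` = its recoloured sites, `ye ⊆ y` = the sites recoloured by the experiment of the link, `Wn` = the window of the soft localisation, `G` = the usable states of the door, `M` = the PLAIN event of the link.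
`cfOf Y' s` has the sites of `ω` in `Wn \ C`, the colours of `ω` at the sites of `Wn \ (C ∪ y)`, ANYTHING off `Wn`;   its door is usable, it realises the hooking events;   the COPY colouring `τ` realises the pattern and `s = τ` on the tile and on `ye`. -/
def PvkrDet (𝔭 : PvkrPat) (q : Set ℂ → Prop) (C y ye Wn : Set ℂ) (G M : Set (Conf PvPt)) (ω : Conf PvPt) : Prop :=
  ∀ (Y' : Set ℂ) (s τ : ℂ → Bool), q Y' →
    (∀ z ∈ Wn, z ∉ C → (z ∈ Y' ↔ z ∈ cfSites ω)) →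
    (∀ z ∈ cfSites ω, z ∈ Wn → z ∉ C → z ∉ y → s z = cfCol ω z) →
    (∀ z ∈ Y', z ∈ 𝔭.K ∪ ye → s z = τ z) →
    cfOf Y' s ∈ G → cfOf Y' s ∈ 𝔭.Hb → cfOf Y' s ∈ 𝔭.Hw → cfOf Y' τ ∈ 𝔭.Pb → cfOf Y' τ ∈ 𝔭.Pw → cfOf Y' s ∈ M

theorem pvkr_eqns_cite3 : True := by
  have := @PvkrDet.eq_1
  trivial

theorem PvkrPat.Ok.rP {𝔭 : PvkrPat} (h : 𝔭.Ok) : Conf.ReadsSet (𝔭.O ×ˢ (univ : Set Bool)) (𝔭.Pb ∩ 𝔭.Pw) :=
  (h.rPb.mono (prod_mono h.VbO subset_rfl)).inter (h.rPw.mono (prod_mono h.VwO subset_rfl))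

theorem PvkrPat.Ok.rH {𝔭 : PvkrPat} (h : 𝔭.Ok) : Conf.ReadsSet ((𝔭.D ∪ 𝔭.K) ×ˢ (univ : Set Bool)) (𝔭.Hb ∩ 𝔭.Hw) :=
  (h.rHb.mono (prod_mono h.WbDK subset_rfl)).inter (h.rHw.mono (prod_mono h.WwDK subset_rfl))

/-- **(K5), POINTWISE IN THE BASE**: certificate of the kept geometry + deterministic contract ⟹ the link is FORCED at almost every configuration of the LARGE experiment whose door is usable -/
theorem pvkr_forced_pt {𝔭 : PvkrPat} (h𝔭 : 𝔭.Ok) {ε : ℝ} {q : Set ℂ → Prop} {C y ye Wn : Set ℂ} {G M : Set (Conf PvPt)} {t θ b : ℝ≥0∞}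
    (mWn : MeasurableSet Wn) (hKC : 𝔭.K ⊆ C) (hOC : 𝔭.O ∩ C ⊆ 𝔭.K) (hyy : ye ⊆ y) (hyD : Disjoint ye 𝔭.D)
    (hOW : 𝔭.O ⊆ Wn) (hKW : 𝔭.K ⊆ Wn) (hDW : 𝔭.D ⊆ Wn) (hyW : ye ⊆ Wn)
    (rG : Conf.ReadsSet (𝔭.D ×ˢ (univ : Set Bool)) G) (hG : ∀ η ∈ G, b ≤ pvtiP (pvP ε) (𝔭.D ×ˢ univ) (𝔭.Hb ∩ 𝔭.Hw) η)
    {ω : Conf PvPt} (hω : PvkrSimple ω) (hn : pvkrAe ε C (pvkrAe ε 𝔭.K (pvkrAe ε Wnᶜ q)) (cfSites ω))
    (hgood : ω ∈ pvayGood2 ε 𝔭.K 𝔭.O (𝔭.Pb ∩ 𝔭.Pw) t θ) (hdet : PvkrDet 𝔭 q C y ye Wn G M ω) :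
    ∀ᵐ p ∂pvdyNu ε, pvdyR C (fun _ => y) ω p ∈ G →
      t * (b - θ) ≤ pvdyQ ε 𝔭.K (fun _ => ye) (pvsuSure (pvP ε) (Wn ×ˢ univ) M) (pvdyR C (fun _ => y) ω p) := by
  have := (pv_isPpp ε).prob
  filter_upwards [pvkr_ae_snd ε hn, pvkr_ae_snd ε (pvkr_simple_ae ε)] with p hp1 hp2 hpG
  obtain ⟨κ, η₂⟩ := p
  -- the base of the small experiment in `(Y, σ)` form
  set Y := cfSites ω with hYdef
  set σ := cfCol ω with hσdef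
  set Y₂ := cfSites η₂ with hY₂def
  have eω : ω = cfOf Y σ := hω.eq
  have eη₂ : η₂ = cfOf Y₂ (cfCol η₂) := PvkrSimple.eq hp2
  set Y₁ := pvdyYc C Y Y₂ with hY₁def
  set σ₁ := pvfqMix (pvdyFz C (fun _ => y) Y σ) (σ, pvfqMix C (cfCol η₂, κ)) with hσ₁def
  have eR : pvdyR C (fun _ => y) ω (κ, η₂) = cfOf Y₁ σ₁ := by
    conv_lhs => rw [eω, eη₂]
    exact pvdy_R_comb C (fun _ => y) Y Y₂ σ κ (cfCol η₂)
  rw [eR] at hpG ⊢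
  have lfY₁ : VorLF Y₁ := pvlh_lf_Yc C hω.1 hp2.1
  have hfin : (Y₁ ∩ 𝔭.O).Finite := pvkr_lf_fin lfY₁ h𝔭.bO
  have hgood₁ : cfOf Y₁ σ₁ ∈ pvayGood2 ε 𝔭.K 𝔭.O (𝔭.Pb ∩ 𝔭.Pw) t θ := by
    refine pvkr_good2_congr h𝔭.mO h𝔭.bO (h𝔭.mPb.inter h𝔭.mPw) h𝔭.rP (hω.win h𝔭.bO) (pvay_win_of hfin σ₁) (fun z hz hK => ?_) hgood
    have hzC : z ∉ C := fun hC => hK (hOC ⟨hz, hC⟩)
    rw [cfOf_sites]
    exact pvkr_Yc_off hzC
  -- the bad seeds of the small experiment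
  have hp1' : ∀ᵐ η ∂pvP ε, VorLF (cfSites η) ∧ pvkrAe ε Wnᶜ q (pvdyYc 𝔭.K Y₁ (cfSites η)) := by
    filter_upwards [hp1, pvkr_simple_ae ε] with η a1 a2
    exact ⟨a2.1, a1⟩
  have hB₀ : pvGeo ε {g | ¬ (VorLF (pvgSites g) ∧ pvkrAe ε Wnᶜ q (pvdyYc 𝔭.K Y₁ (pvgSites g)))} ≤ 0 :=
    le_of_eq (pvkr_ae_geo ε (q := fun Y' => VorLF Y' ∧ pvkrAe ε Wnᶜ q (pvdyYc 𝔭.K Y₁ Y')) hp1')
  have key := pvlhf_forced1' (ε := ε) (C := 𝔭.K) (O := 𝔭.O) (D := 𝔭.D) h𝔭.mK h𝔭.mO h𝔭.bO h𝔭.mD h𝔭.mPb h𝔭.mPw h𝔭.rP (t := t) (θ := θ) (θ₀ := 0) (b := b) (fun _ => ye)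
    (pvlh_lf_countable lfY₁) hfin σ₁ hgood₁ hB₀ h𝔭.dDK (hyD.symm.mono_left inter_subset_right) h𝔭.mHb h𝔭.mHw
    (𝒮 := pvsuSure (pvP ε) (Wn ×ˢ univ) M) (pvsu_sure_measurable (mWn.prod MeasurableSet.univ) M) h𝔭.rH (hG _ hpG) h𝔭.rHb h𝔭.rHw h𝔭.rPb h𝔭.rPw
    (h𝔭.dis.mono (union_subset_union_right _ sdiff_subset) (union_subset_union_right _ sdiff_subset))
    (fun g hg => by
      have hg' : VorLF (pvgSites g) ∧ pvkrAe ε Wnᶜ q (pvdyYc 𝔭.K Y₁ (pvgSites g)) := not_not.1 hg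
      have lf : VorLF (pvdyYc 𝔭.K Y₁ (pvgSites g)) := pvlh_lf_Yc 𝔭.K lfY₁ hg'.1
      exact ⟨h𝔭.iHb _ lf, h𝔭.dHw _ lf, h𝔭.iPb _ lf, h𝔭.dPw _ lf⟩)
    (fun g hg τ hH hP => ?_)
  · rwa [add_zero] at key
  -- DET
  have hg' : VorLF (pvgSites g) ∧ pvkrAe ε Wnᶜ q (pvdyYc 𝔭.K Y₁ (pvgSites g)) := not_not.1 hg
  set Yζ := pvdyYc 𝔭.K Y₁ (pvgSites g) with hYζdef
  set Fz := pvdyFz 𝔭.K (fun _ => ye) Y₁ σ₁ with hFzdef
  set sζ := pvfqMix Fz (σ₁, τ) with hsζdef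
  show pvtiP (pvP ε) (Wn ×ˢ univ) (toMeasurable (pvP ε) M) (cfOf Yζ sζ) = 1
  refine pvsu_P_of_ae ?_
  filter_upwards [hg'.2, pvkr_simple_ae ε] with ξ hq hξ
  refine subset_toMeasurable _ _ ?_
  have e1 : Conf.spl (Wn ×ˢ (univ : Set Bool)) (cfOf Yζ sζ, ξ) = cfOf (pvdyYc Wnᶜ Yζ (cfSites ξ)) (pvfqMix Wnᶜ (cfCol ξ, sζ)) := by
    conv_lhs => rw [PvkrSimple.eq hξ, ← compl_compl Wn]
    exact pvdy_spl_cfOf Wnᶜ Yζ (cfSites ξ) sζ (cfCol ξ)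
  rw [e1]
  -- inside the window nothing is changed by the last splice
  have hsW : ∀ z ∈ Wn, (z ∈ pvdyYc Wnᶜ Yζ (cfSites ξ) ↔ z ∈ Yζ) := fun z hz => pvkr_Yc_off (fun h : z ∈ Wnᶜ => h hz)
  have hcW : ∀ z ∈ Wn, pvfqMix Wnᶜ (cfCol ξ, sζ) z = sζ z := fun z hz => pvfqMix_of_notMem (fun h : z ∈ Wnᶜ => h hz) _
  have hsK : ∀ z, z ∉ 𝔭.K → (z ∈ Yζ ↔ z ∈ Y₁) := fun z hz => pvkr_Yc_off hz
  have hsC : ∀ z, z ∉ C → (z ∈ Y₁ ↔ z ∈ Y) := fun z hz => pvkr_Yc_off hz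
  have hFz : ∀ z ∈ Y₁, z ∉ 𝔭.K → z ∉ ye → sζ z = σ₁ z := fun z h1 h2 h3 => pvfqMix_of_mem (show z ∈ Fz from ⟨⟨h1, h2⟩, h3⟩) _
  refine hdet _ _ τ hq (fun z hz hC => ?_) (fun z hzY hz hC hy => ?_) (fun z hzY hz => ?_) ?_ ?_ ?_ ?_ ?_
  · rw [hsW z hz, hsK z (fun h => hC (hKC h)), hsC z hC]
  · rw [hcW z hz, hFz z ((hsC z hC).2 hzY) (fun h => hC (hKC h)) (fun h => hy (hyy h))]
    exact pvfqMix_of_mem (show z ∈ pvdyFz C (fun _ => y) Y σ from ⟨⟨hzY, hC⟩, hy⟩) _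
  · have hzW : z ∈ Wn := hz.elim (fun h => hKW h) (fun h => hyW h)
    rw [hcW z hzW]
    refine pvfqMix_of_notMem (fun hF => ?_) _
    rcases hz with h | h
    · exact hF.1.2 h
    · exact hF.2 h
  · refine (pvkr_mem_congr rG (fun z hz => ?_) (fun z hz hzY => ?_)).2 hpG
    · rw [hsW z (hDW hz), hsK z (disjoint_left.1 h𝔭.dDK hz)]
    · have hK : z ∉ 𝔭.K := disjoint_left.1 h𝔭.dDK hz
      rw [hcW z (hDW hz), hFz z ((hsK z hK).1 ((hsW z (hDW hz)).1 hzY)) hK (fun h => disjoint_left.1 hyD h hz)]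
  · exact (pvkr_mem_congr h𝔭.rHb (fun z hz => hsW z ((h𝔭.WbDK hz).elim (fun h => hDW h) fun h => hKW h))
      (fun z hz _ => hcW z ((h𝔭.WbDK hz).elim (fun h => hDW h) fun h => hKW h))).2 hH.1
  · exact (pvkr_mem_congr h𝔭.rHw (fun z hz => hsW z ((h𝔭.WwDK hz).elim (fun h => hDW h) fun h => hKW h))
      (fun z hz _ => hcW z ((h𝔭.WwDK hz).elim (fun h => hDW h) fun h => hKW h))).2 hH.2
  · exact (pvkr_mem_congr h𝔭.rPb (fun z hz => hsW z (hOW (h𝔭.VbO hz))) (fun _ _ _ => rfl)).2 hP.1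
  · exact (pvkr_mem_congr h𝔭.rPw (fun z hz => hsW z (hOW (h𝔭.VwO hz))) (fun _ _ _ => rfl)).2 hP.2

/-! ## 5. the forced set, base indexed;   `U ∩ certificate ⊆ forced` -/

section frc

variable {ι : Type}

/-- **THE FORCED SET OF A LINK INSIDE A LARGE EXPERIMENT, BASE INDEXED** (form of 141 `pvue_ae_of_Q`, of 7 (K5), of 256 `pvrgFrc`):   `β ω` = base data of `ω`;   `C`, `y i` = the large experiment;   `K`, `ye i`, `A i` = tile, recoloured sites, event of the link;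
`G` = usable states of the door.      AE in the seed, never ALL seeds (256). -/
def pvkrFrc (ε : ℝ) (C : Set ℂ) (β : Conf PvPt → ι) (y : ι → Set ℂ) (G : Set (Conf PvPt)) (K : Set ℂ) (ye : ι → Set ℂ) (A : ι → Set (Conf PvPt)) (q₀ : ℝ≥0∞) : Set (Conf PvPt) :=
  {ω | ∀ᵐ p ∂pvdyNu ε, pvdyR C (fun _ => y (β ω)) ω p ∈ G → q₀ ≤ pvdyQ ε K (fun _ => ye (β ω)) (A (β ω)) (pvdyR C (fun _ => y (β ω)) ω p)}

/-- what is asked AT ONE BASE `ω` with base data `(y, ye, Wn, M)`: inclusions of regions + the deterministic contract;   `𝒲` = the countable family of the possible windows -/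
structure PvkrAt (𝔭 : PvkrPat) (q : Set ℂ → Prop) (C y ye Wn : Set ℂ) (G M : Set (Conf PvPt)) (𝒲 : Set (Set ℂ)) (ω : Conf PvPt) : Prop where
  win : Wn ∈ 𝒲
  yy : ye ⊆ y
  yD : Disjoint ye 𝔭.D
  OW : 𝔭.O ⊆ Wn
  KW : 𝔭.K ⊆ Wn
  DW : 𝔭.D ⊆ Wn
  yW : ye ⊆ Wn
  det : PvkrDet 𝔭 q C y ye Wn G M ω

theorem pvkr_eqns_cite4 : True := by
  have := @pvkrFrc.eq_1
  trivial

theorem pvkr_frc_anti (ε : ℝ) (C : Set ℂ) (β : Conf PvPt → ι) (y : ι → Set ℂ) (G : Set (Conf PvPt)) (K : Set ℂ) (ye : ι → Set ℂ) (A : ι → Set (Conf PvPt)) {q₀ q₁ : ℝ≥0∞} (h : q₁ ≤ q₀) :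
    pvkrFrc ε C β y G K ye A q₀ ⊆ pvkrFrc ε C β y G K ye A q₁ := fun ω hω => by
  have hω' : ∀ᵐ p ∂pvdyNu ε, pvdyR C (fun _ => y (β ω)) ω p ∈ G → q₀ ≤ pvdyQ ε K (fun _ => ye (β ω)) (A (β ω)) (pvdyR C (fun _ => y (β ω)) ω p) := hω
  exact hω'.mono fun p hp hG => h.trans (hp hG)

/-- **the weight of the link is bounded along the large experiment of a forced base** -/
theorem pvkr_frc_W {ε : ℝ} {C : Set ℂ} {β : Conf PvPt → ι} {y : ι → Set ℂ} {G : Set (Conf PvPt)} {K : Set ℂ} {ye : ι → Set ℂ} {A : ι → Set (Conf PvPt)} {q₀ : ℝ≥0∞} {ω : Conf PvPt}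
    (h : ω ∈ pvkrFrc ε C β y G K ye A q₀) :
    ∀ᵐ p ∂pvdyNu ε, pvdyR C (fun _ => y (β ω)) ω p ∈ G → pvdyW ε K (fun _ => ye (β ω)) (A (β ω)) (pvdyR C (fun _ => y (β ω)) ω p) ≤ q₀⁻¹ := by
  have h' : ∀ᵐ p ∂pvdyNu ε, pvdyR C (fun _ => y (β ω)) ω p ∈ G → q₀ ≤ pvdyQ ε K (fun _ => ye (β ω)) (A (β ω)) (pvdyR C (fun _ => y (β ω)) ω p) := h
  exact h'.mono fun p hp hG => pvlh_W_le ε K _ _ (hp hG)

/-- **(K5) `U ∩ CERTIFICATE ⊆ FORCED`, almost surely** -/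
theorem pvkr_forced_ae {𝔭 : PvkrPat} (h𝔭 : 𝔭.Ok) {ε : ℝ} {q : Set ℂ → Prop} (hq : ∀ᵐ η ∂pvP ε, q (cfSites η)) {C : Set ℂ} (mC : MeasurableSet C)
    {β : Conf PvPt → ι} {y ye Wn : ι → Set ℂ} {M : ι → Set (Conf PvPt)} {G : Set (Conf PvPt)} {t θ b : ℝ≥0∞} {𝒲 : Set (Set ℂ)} (h𝒲 : 𝒲.Countable) (m𝒲 : ∀ W ∈ 𝒲, MeasurableSet W)
    (hKC : 𝔭.K ⊆ C) (hOC : 𝔭.O ∩ C ⊆ 𝔭.K) (rG : Conf.ReadsSet (𝔭.D ×ˢ (univ : Set Bool)) G) (hG : ∀ η ∈ G, b ≤ pvtiP (pvP ε) (𝔭.D ×ˢ univ) (𝔭.Hb ∩ 𝔭.Hw) η)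
    {U : Set (Conf PvPt)} (hU : ∀ ω ∈ U, PvkrAt 𝔭 q C (y (β ω)) (ye (β ω)) (Wn (β ω)) G (M (β ω)) 𝒲 ω) :
    ∀ᵐ ω ∂pvP ε, ω ∈ U → ω ∈ pvayGood2 ε 𝔭.K 𝔭.O (𝔭.Pb ∩ 𝔭.Pw) t θ →
      ω ∈ pvkrFrc ε C β y G 𝔭.K ye (fun i => pvsuSure (pvP ε) (Wn i ×ˢ univ) (M i)) (t * (b - θ)) := by
  have hn : ∀ᵐ ω ∂pvP ε, ∀ W ∈ 𝒲, pvkrAe ε C (pvkrAe ε 𝔭.K (pvkrAe ε Wᶜ q)) (cfSites ω) :=
    (ae_ball_iff h𝒲).2 fun W hW => pvkr_ae_step ε mC (pvkr_ae_step ε h𝔭.mK (pvkr_ae_step ε (m𝒲 W hW).compl hq))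
  filter_upwards [hn, pvkr_simple_ae ε] with ω h1 h2 hωU hgood
  have a := hU ω hωU
  exact pvkr_forced_pt h𝔭 (m𝒲 _ a.win) hKC hOC a.yy a.yD a.OW a.KW a.DW a.yW rG hG h2 (h1 _ a.win) hgood a.det

end frc

/-! ## 6. the field `bad` -/

/-- the cost of the certificate of 196 under `pvP ε` -/
theorem pvkr_cert_lim {K O : ℝ → Set ℂ} {𝒜 : ℝ → Set (Conf PvPt)} (hK : ∀ ε, MeasurableSet (K ε)) (hOm : ∀ ε, MeasurableSet (O ε)) (hO : ∀ ε, Bornology.IsBounded (O ε)) (hA : ∀ ε, MeasurableSet (𝒜 ε))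
    (hr : ∀ ε, Conf.ReadsSet (O ε ×ˢ (univ : Set Bool)) (𝒜 ε)) {t : ℝ≥0∞} (hlim : Tendsto (fun ε : ℝ => pvGeo ε {g | pvQc (𝒜 ε) g < t}) (𝓝[>] 0) (𝓝 0)) {θ : ℝ≥0∞} (hθ : θ ≠ 0) (hθ' : θ ≠ ∞) :
    Tendsto (fun ε : ℝ => pvP ε (pvayGood2 ε (K ε) (O ε) (𝒜 ε) t θ)ᶜ) (𝓝[>] 0) (𝓝 0) := by
  have h3 := ENNReal.Tendsto.div_const hlim (Or.inr hθ)
  rw [ENNReal.zero_div] at h3
  exact tendsto_of_tendsto_of_tendsto_of_le_of_le tendsto_const_nhds h3 (fun _ => zero_le) fun ε => pvay_forced_cost ε (hK ε) (hOm ε) (hO ε) (hA ε) (hr ε) t hθ hθ'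

/-- **`bad` FROM `U ∩ certificate ⊆ good` a.s. AND THE COST OF THE CERTIFICATE**      (shape of `PvnaBad` of 271, `PvelAna.bad` of 61) -/
theorem pvkr_bad {U : Set PVSample} {Uc : Set (Conf PvPt)} (hUc : U ⊆ pvConf ⁻¹' Uc) {Cert Gd : ℝ → Set (Conf PvPt)}
    (hsub : ∀ᶠ ε in 𝓝[>] (0 : ℝ), ∀ᵐ ω ∂pvP ε, ω ∈ Uc → ω ∈ Cert ε → ω ∈ Gd ε)
    (hcert : Tendsto (fun ε : ℝ => pvP ε (Cert ε)ᶜ) (𝓝[>] 0) (𝓝 0)) :
    Tendsto (fun ε : ℝ => ((pvhbUp ε).P (pvMerge ⁻¹' (U \ pvConf ⁻¹' Gd ε))).toReal) (𝓝[>] 0) (𝓝 0) := by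
  have h0 : Tendsto (fun ε : ℝ => (pvP ε (Cert ε)ᶜ).toReal) (𝓝[>] 0) (𝓝 0) := by
    have := (ENNReal.tendsto_toReal ENNReal.zero_ne_top).comp hcert
    rw [ENNReal.toReal_zero] at this
    exact this
  refine squeeze_zero' (Eventually.of_forall fun ε => ENNReal.toReal_nonneg) ?_ h0
  filter_upwards [hsub] with ε hε
  have := (pv_isPpp ε).prob
  refine ENNReal.toReal_mono (measure_ne_top _ _) ?_
  have h1 : (pvhbUp ε).P (pvMerge ⁻¹' (U \ pvConf ⁻¹' Gd ε)) ≤ (pvhbUp ε).P {x | pvConf (pvMerge x) ∈ Uc \ Gd ε} :=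
    (pvhbUp ε).P_mono fun x hx => ⟨hUc hx.1, hx.2⟩
  refine h1.trans ((pvhb_up_P_conf ε _).trans (measure_mono_ae ?_))
  filter_upwards [hε] with ω hω hmem hC
  exact hmem.2 (hω hmem.1 hC)

/-- `bad` for an intersection of two good sets -/
theorem pvkr_bad_inter {U : Set PVSample} {Gd₁ Gd₂ : ℝ → Set (Conf PvPt)}
    (h₁ : Tendsto (fun ε : ℝ => ((pvhbUp ε).P (pvMerge ⁻¹' (U \ pvConf ⁻¹' Gd₁ ε))).toReal) (𝓝[>] 0) (𝓝 0))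
    (h₂ : Tendsto (fun ε : ℝ => ((pvhbUp ε).P (pvMerge ⁻¹' (U \ pvConf ⁻¹' Gd₂ ε))).toReal) (𝓝[>] 0) (𝓝 0)) :
    Tendsto (fun ε : ℝ => ((pvhbUp ε).P (pvMerge ⁻¹' (U \ pvConf ⁻¹' (Gd₁ ε ∩ Gd₂ ε)))).toReal) (𝓝[>] 0) (𝓝 0) := by
  have h3 := h₁.add h₂
  rw [add_zero] at h3
  refine squeeze_zero (fun ε => ENNReal.toReal_nonneg) (fun ε => ?_) h3
  rw [← ENNReal.toReal_add ((pvhbUp ε).P_ne_top _) ((pvhbUp ε).P_ne_top _)]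
  refine ENNReal.toReal_mono (ENNReal.add_ne_top.2 ⟨(pvhbUp ε).P_ne_top _, (pvhbUp ε).P_ne_top _⟩) ?_
  refine ((pvhbUp ε).P_mono fun x hx => ?_).trans ((pvhbUp ε).P_union_le _ _)
  by_cases h : pvConf (pvMerge x) ∈ Gd₁ ε
  · exact Or.inr ⟨hx.1, fun h2 => hx.2 ⟨h, h2⟩⟩
  · exact Or.inl ⟨hx.1, h⟩

section link

variable {ι : Type}

/-- **THE LEAVES OF ONE FORCED LINK AT ONE MESH**      `Uc` = the usable configurations which pass the static certificates of the candidate (mesh, ..) -/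
structure PvkrEps (𝔭 : PvkrPat) (ε : ℝ) (q : Set ℂ → Prop) (C : Set ℂ) (β : Conf PvPt → ι) (y ye Wn : ι → Set ℂ) (M : ι → Set (Conf PvPt)) (G : Set (Conf PvPt)) (b : ℝ≥0∞)
    (Uc : Set (Conf PvPt)) : Prop where
  ok : 𝔭.Ok
  /-- an almost sure property of the SITES (`DelGood`, general position, ..): it is handed over to the contract at the final configuration -/
  hq : ∀ᵐ η ∂pvP ε, q (cfSites η)
  mC : MeasurableSet C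
  KC : 𝔭.K ⊆ C
  /-- the window of the copy pattern meets the large resampled region in the tile only -/
  OC : 𝔭.O ∩ C ⊆ 𝔭.K
  rG : Conf.ReadsSet (𝔭.D ×ˢ (univ : Set Bool)) G
  /-- the soft threshold of the door -/
  hG : ∀ η ∈ G, b ≤ pvtiP (pvP ε) (𝔭.D ×ˢ univ) (𝔭.Hb ∩ 𝔭.Hw) η
  fam : ∃ 𝒲 : Set (Set ℂ), 𝒲.Countable ∧ (∀ W ∈ 𝒲, MeasurableSet W) ∧ ∀ ω ∈ Uc, PvkrAt 𝔭 q C (y (β ω)) (ye (β ω)) (Wn (β ω)) G (M (β ω)) 𝒲 ω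

/-- **(K5) THE FIELD `bad` FOR ONE FORCED LINK**: leaves at every small mesh + cost of the static certificates + the PLAIN quenched estimate of the copy pattern -/
theorem pvkr_bad_link {𝔭 : ℝ → PvkrPat} {q : Set ℂ → Prop} {C : ℝ → Set ℂ} {β : ℝ → Conf PvPt → ι} {y ye Wn : ℝ → ι → Set ℂ} {M : ℝ → ι → Set (Conf PvPt)} {G : ℝ → Set (Conf PvPt)} {t θ b : ℝ≥0∞}
    {U : Set PVSample} {Uc : Set (Conf PvPt)} (hUc : U ⊆ pvConf ⁻¹' Uc) {Cg : ℝ → Set (Conf PvPt)} (hCg : Tendsto (fun ε : ℝ => pvP ε (Cg ε)ᶜ) (𝓝[>] 0) (𝓝 0))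
    (hL : ∀ᶠ ε in 𝓝[>] (0 : ℝ), PvkrEps (𝔭 ε) ε q (C ε) (β ε) (y ε) (ye ε) (Wn ε) (M ε) (G ε) b (Uc ∩ Cg ε))
    (hlim : Tendsto (fun ε : ℝ => pvGeo ε {g | pvQc ((𝔭 ε).Pb ∩ (𝔭 ε).Pw) g < t}) (𝓝[>] 0) (𝓝 0)) (hθ : θ ≠ 0) (hθ' : θ ≠ ∞) :
    Tendsto (fun ε : ℝ => ((pvhbUp ε).P (pvMerge ⁻¹' (U \ pvConf ⁻¹'
      pvkrFrc ε (C ε) (β ε) (y ε) (G ε) (𝔭 ε).K (ye ε) (fun i => pvsuSure (pvP ε) (Wn ε i ×ˢ univ) (M ε i)) (t * (b - θ))))).toReal) (𝓝[>] 0) (𝓝 0) := by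
  refine pvkr_bad hUc (Cert := fun ε => Cg ε ∩ pvayGood2 ε (𝔭 ε).K (𝔭 ε).O ((𝔭 ε).Pb ∩ (𝔭 ε).Pw) t θ) ?_ ?_
  · filter_upwards [hL] with ε h
    obtain ⟨𝒲, c𝒲, m𝒲, hat⟩ := h.fam
    filter_upwards [pvkr_forced_ae (t := t) (θ := θ) h.ok h.hq h.mC c𝒲 m𝒲 h.KC h.OC h.rG h.hG hat] with ω hω h1 h2
    exact hω ⟨h1, h2.1⟩ h2.2
  · have h3 := ENNReal.Tendsto.div_const hlim (Or.inr hθ)
    rw [ENNReal.zero_div] at h3
    have h4 := hCg.add h3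
    rw [add_zero] at h4
    refine tendsto_of_tendsto_of_tendsto_of_le_of_le' tendsto_const_nhds h4 (Eventually.of_forall fun _ => zero_le) ?_
    filter_upwards [hL] with ε h
    rw [compl_inter]
    exact (measure_union_le _ _).trans (add_le_add le_rfl (pvay_forced_cost ε h.ok.mK h.ok.mO h.ok.bO (h.ok.mPb.inter h.ok.mPw) h.ok.rP t hθ hθ'))

end link

end Claimed.Agent.R289
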