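-- KEEP
import Claimed.Agent.R289.Tr.LaneDet
import Claimed.Agent.R289.Pl.Jordan
import Claimed.Agent.R289.Tr.Force

/-!
# Row 289 (S0537), wall TR, ROAD E, block Tr/Tip: THE TWO CLASSES OF FRESH SITES (R-E + G1(b) + HOLE 1 of 78)      (helper268; prefix `pvyk_`, record `PvykCl`)

ABSTRACT KIT at the level of `PvMap` (no positions, no geometry, no `PvwDat`): the instance on the datum of record is `Tr/Cls.lean` of helper39 (prefix `pvyc_`).

DESIGN = DOMAIN OF DEPENDENCE.  Input of a link experiment: a vertex region `K` (the `D`-free region of 70 / 29), the frozen sites `Fz` with their prescribed colours `col`, the two tip positions `a₀`, `a₁`.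

* `C.In`    the faces with their three vertices in `K`;
* `C.Bar`   the BARRED edges: both ends frozen with the SAME prescribed colour, and the edges of `a₀`, `a₁`;
* `C.Dom`   the faces reached from the face of `a₀` by dual steps inside `C.In` which do not cross a barred edge;
* `C.Y`     (= YCL) the FRESH vertices of `C.Dom`;   `C.X` (= XCL) all the other fresh sites;
* `C.SY`    `PvldRun T σ K a₀ a₁` of helper70.

THEOREMS
* Y1 (reads only): `pvyk_run_dom`, `pvyk_run_small`, `pvyk_SY_congr`, `pvyk_SY_iff`: on the cylinder a run in `K` only crosses faces of `C.Dom` (a strand never crosses a frozen monochromatic edge,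
  never comes back to `a₀`, never crosses `a₁` before the end), so the event, its time and ALL its positions read `Fz ∪ Y` only.  No chord lemma, no exposure of the tip.
* Y2: `pvyk_off_sub_X`: fresh sites off `K` are in `X`.
* Y3 (= G1 of 78): `pvyk_side`, `pvyk_Y_int`, `pvyk_Y_disj`, cycle forms `pvyk_cyc_left`, `pvyk_cyc_right`, ...: a face set `B ∋ a₀` all of whose boundary edges are barred or lie in a face which leaves `K`
  contains `C.Dom`; if moreover the boundary vertices are frozen or off `K`, then `Y ⊆ Int B`: NO site of `Y` in the closed other side.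
* Y4: `pvyk_fan`, `pvyk_join_dom`, `pvyk_join_Y`: every site joined to a vertex of `C.Dom` through fresh sites of the graph interior of `K` is a vertex of `C.Dom`.
* structure: `pvyk_Y_sub`, `pvyk_Y_fin`, `pvyk_Y_X`, monotone in `K` (`pvyk_dom_mono_K`), function of `(K, Fz ∩ K, col on Fz ∩ K, a₀, a₁)` only (`pvyk_dom_congr`, `pvyk_Y_congr`), two links with `K ∩ K' ⊆ Fz` have disjoint classes.
* adaptors to the engine of 193 (`Tr/Force`): `pvyk_reads_SY`, `pvyk_reads_val`, `pvyk_reads_off`, measurability of whatever reads a finite set (`pvyk_meas_of_reads`, `pvyk_smeas_of_reads`, `pvyk_meas_SY`).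
-/

set_option autoImplicit false
set_option linter.unusedSectionVars false
set_option linter.unusedVariables false

namespace Claimed.Agent.R289

open Relation

variable {V D : Type}

/-! ## 0. definitions -/

/-- the data of a link experiment: region, frozen sites, prescribed colours, the two tip positions -/
structure PvykCl (T : PvMap V D) where
  /-- the region of the experiment -/
  K : Set V
  /-- the frozen sites -/
  Fz : Set V
  /-- the prescribed colours (only the values on `Fz` matter) -/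
  col : V → Bool
  /-- the tip position from which the strand is continued -/
  a₀ : D
  /-- the tip position which it has to reach -/
  a₁ : D

namespace PvykCl

variable {T : PvMap V D} (C : PvykCl T)

/-- the faces with their three vertices in `K` -/
def In : Set D := {d | T.src d ∈ C.K ∧ T.tgt d ∈ C.K ∧ T.apex d ∈ C.K}

/-- the BARRED edges: both ends frozen with the same prescribed colour, and the edges of the two tips -/
def Bar : Set D :=
  {d | (T.src d ∈ C.Fz ∧ T.tgt d ∈ C.Fz ∧ C.col (T.src d) = C.col (T.tgt d)) ∨ d = C.a₀ ∨ d = T.opp C.a₀ ∨ d = C.a₁ ∨ d = T.opp C.a₁}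

/-- one dual step inside `In` which does not cross a barred edge (darts stand for their faces) -/
def Step (a b : D) : Prop := b = T.nxt a ∨ (b = T.opp a ∧ a ∉ C.Bar ∧ T.opp a ∈ C.In)

/-- **the DOMAIN OF DEPENDENCE** of the experiment -/
def Dom : Set D := {f | C.a₀ ∈ C.In ∧ ReflTransGen C.Step C.a₀ f}

/-- **YCL**: the fresh vertices of the domain -/
def Y : Set V := {v | v ∉ C.Fz ∧ v ∈ T.VOf C.Dom}

/-- **XCL**: all the other fresh sites -/
def X : Set V := {v | v ∉ C.Fz ∧ v ∉ T.VOf C.Dom}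

/-- the cylinder -/
def Cyl : Set (V → Bool) := pvtfCyl C.Fz C.col

/-- **SY**: the strand continued from `a₀` reaches `a₁` through faces of `K` -/
def SY : Set (V → Bool) := {s | PvldRun T s C.K C.a₀ C.a₁}

/-- the fresh sites of the graph interior of `K` -/
def Core : Set V := {v | v ∉ C.Fz ∧ v ∈ C.K ∧ ∀ w, T.Adj v w → w ∈ C.K}

/-- the tips are frozen, `a₀` is a position of the prescribed colouring -/
structure Ok : Prop where
  s0 : T.src C.a₀ ∈ C.Fz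
  t0 : T.tgt C.a₀ ∈ C.Fz
  s1 : T.src C.a₁ ∈ C.Fz
  t1 : T.tgt C.a₁ ∈ C.Fz
  b0 : C.col (T.src C.a₀) = true
  w0 : C.col (T.tgt C.a₀) = false

open Classical in
/-- a variable of the run: a function of its time and of its positions, `0` off `SY` -/
noncomputable def Val {E : Type*} [Zero E] (g : ℕ → (ℕ → D) → E) (s : V → Bool) : E :=
  if s ∈ C.SY then g (pvasHit T s C.a₀ {C.a₁}) (fun i => pvasIt T s C.a₀ (min i (pvasHit T s C.a₀ {C.a₁}))) else 0

end PvykCl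

theorem pvyk_eqns_cite : True := by
  have := @PvykCl.In.eq_1; have := @PvykCl.Bar.eq_1; have := @PvykCl.Step.eq_1; have := @PvykCl.Dom.eq_1; have := @PvykCl.Y.eq_1; have := @PvykCl.X.eq_1
  have := @PvykCl.Cyl.eq_1; have := @PvykCl.SY.eq_1; have := @PvykCl.Core.eq_1; have := @PvykCl.Val.eq_1.{0}
  trivial

variable {T : PvMap V D} (C : PvykCl T)

/-! ## 1. structure of the domain and of the classes -/

theorem pvyk_in_face : T.FaceSet C.In := by
  intro d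
  constructor
  · rintro ⟨h1, h2, h3⟩
    rw [T.src_nxt] at h1
    rw [T.tgt_nxt] at h2
    rw [T.apex_nxt] at h3
    exact ⟨h3, h1, h2⟩
  · rintro ⟨h1, h2, h3⟩
    refine ⟨?_, ?_, ?_⟩
    · rw [T.src_nxt]; exact h2
    · rw [T.tgt_nxt]; exact h3
    · rw [T.apex_nxt]; exact h1

theorem pvyk_bar_opp {d : D} : T.opp d ∈ C.Bar ↔ d ∈ C.Bar := by
  constructor
  · rintro (⟨h1, h2, h3⟩ | h | h | h | h)
    · rw [T.src_opp'] at h1 h3
      rw [T.tgt_opp] at h2 h3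
      exact Or.inl ⟨h2, h1, h3.symm⟩
    · exact Or.inr (Or.inr (Or.inl (by rw [← h, T.opp_opp])))
    · exact Or.inr (Or.inl (T.opp_injective h))
    · exact Or.inr (Or.inr (Or.inr (Or.inr (by rw [← h, T.opp_opp]))))
    · exact Or.inr (Or.inr (Or.inr (Or.inl (T.opp_injective h))))
  · rintro (⟨h1, h2, h3⟩ | h | h | h | h)
    · refine Or.inl ⟨?_, ?_, ?_⟩
      · rw [T.src_opp']; exact h2
      · rw [T.tgt_opp]; exact h1
      · rw [T.src_opp', T.tgt_opp]; exact h3.symm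
    · exact Or.inr (Or.inr (Or.inl (by rw [h])))
    · exact Or.inr (Or.inl (by rw [h, T.opp_opp]))
    · exact Or.inr (Or.inr (Or.inr (Or.inr (by rw [h]))))
    · exact Or.inr (Or.inr (Or.inr (Or.inl (by rw [h, T.opp_opp]))))

/-- the frozen monochromatic edges are barred -/
theorem pvyk_bar_of_frozen {d : D} (h1 : T.src d ∈ C.Fz) (h2 : T.tgt d ∈ C.Fz) (h3 : C.col (T.src d) = C.col (T.tgt d)) : d ∈ C.Bar := Or.inl ⟨h1, h2, h3⟩

theorem pvyk_bar_a0 : C.a₀ ∈ C.Bar := Or.inr (Or.inl rfl)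

theorem pvyk_bar_a1 : C.a₁ ∈ C.Bar := Or.inr (Or.inr (Or.inr (Or.inl rfl)))

/-- under `Ok` both ends of a barred edge are frozen -/
theorem pvyk_bar_ends (h : C.Ok) {d : D} (hd : d ∈ C.Bar) : T.src d ∈ C.Fz ∧ T.tgt d ∈ C.Fz := by
  rcases hd with ⟨h1, h2, -⟩ | rfl | rfl | rfl | rfl
  · exact ⟨h1, h2⟩
  · exact ⟨h.s0, h.t0⟩
  · exact ⟨by rw [T.src_opp']; exact h.t0, by rw [T.tgt_opp]; exact h.s0⟩
  · exact ⟨h.s1, h.t1⟩
  · exact ⟨by rw [T.src_opp']; exact h.t1, by rw [T.tgt_opp]; exact h.s1⟩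

theorem pvyk_dom_a0 (h : C.a₀ ∈ C.In) : C.a₀ ∈ C.Dom := ⟨h, ReflTransGen.refl⟩

theorem pvyk_dom_nxt {d : D} (h : d ∈ C.Dom) : T.nxt d ∈ C.Dom := ⟨h.1, h.2.tail (Or.inl rfl)⟩

theorem pvyk_dom_face : T.FaceSet C.Dom := by
  intro d
  constructor
  · intro h
    have := pvyk_dom_nxt C (pvyk_dom_nxt C h)
    rwa [T.nxt3] at this
  · exact pvyk_dom_nxt C

theorem pvyk_dom_opp {d : D} (h : d ∈ C.Dom) (hb : d ∉ C.Bar) (hi : T.opp d ∈ C.In) : T.opp d ∈ C.Dom := ⟨h.1, h.2.tail (Or.inr ⟨rfl, hb, hi⟩)⟩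

theorem pvyk_dom_sub_in : C.Dom ⊆ C.In := by
  rintro f ⟨h0, hf⟩
  induction hf with
  | refl => exact h0
  | tail _ hbc ih =>
    rcases hbc with rfl | ⟨rfl, -, h⟩
    · exact (pvyk_in_face C _).2 ih
    · exact h

theorem pvyk_dom_verts : T.VOf C.Dom ⊆ C.K := by
  rintro v ⟨d, hd, rfl⟩
  exact (pvyk_dom_sub_in C hd).1

/-- the domain is empty unless the face of `a₀` lies in `K` -/
theorem pvyk_dom_empty (h : C.a₀ ∉ C.In) : C.Dom = ∅ := Set.eq_empty_of_forall_notMem fun _ hf => h hf.1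

theorem pvyk_Y_sub : C.Y ⊆ C.K \ C.Fz := fun _ hv => ⟨pvyk_dom_verts C hv.2, hv.1⟩

theorem pvyk_Y_fin (hK : C.K.Finite) : C.Y.Finite := (hK.subset Set.sdiff_subset).subset (pvyk_Y_sub C)

theorem pvyk_Y_X_disj : Disjoint C.Y C.X := Set.disjoint_left.2 fun _ hy hx => hx.2 hy.2

theorem pvyk_Y_X : C.Y ∪ C.X = C.Fzᶜ := by
  ext v
  constructor
  · rintro (h | h)
    · exact h.1
    · exact h.1
  · intro h
    by_cases hv : v ∈ T.VOf C.Dom
    · exact Or.inl ⟨h, hv⟩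
    · exact Or.inr ⟨h, hv⟩

theorem pvyk_X_compl : C.Xᶜ = C.Fz ∪ C.Y := by
  ext v
  constructor
  · intro h
    by_cases hf : v ∈ C.Fz
    · exact Or.inl hf
    · exact Or.inr ⟨hf, by_contra fun hv => h ⟨hf, hv⟩⟩
  · rintro (h | h) hx
    · exact hx.1 h
    · exact hx.2 h.2

/-- **Y2**: the fresh sites off `K` belong to `X` (the white outer path, the non-bridging paths off `Y`, ... read `Fz ∪ X`) -/
theorem pvyk_off_sub_X {W : Set V} (h1 : Disjoint W C.K) (h2 : Disjoint W C.Fz) : W ⊆ C.X :=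
  fun v hv => ⟨Set.disjoint_left.1 h2 hv, fun hd => Set.disjoint_left.1 h1 hv (pvyk_dom_verts C hd)⟩

/-- two links whose regions only share frozen sites have disjoint classes -/
theorem pvyk_Y_disj_links (C' : PvykCl T) (h : C.K ∩ C'.K ⊆ C.Fz) : Disjoint C.Y C'.Y :=
  Set.disjoint_left.2 fun _ hv hv' => (pvyk_Y_sub C hv).2 (h ⟨(pvyk_Y_sub C hv).1, (pvyk_Y_sub C' hv').1⟩)

/-- the class of another link lies in `X` -/
theorem pvyk_Y_sub_X_links (C' : PvykCl T) (h : C.K ∩ C'.K ⊆ C.Fz) (hF : C.Fz ⊆ C'.Fz) : C'.Y ⊆ C.X :=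
  fun v hv => ⟨fun hf => hv.1 (hF hf), fun hd => hv.1 (hF (h ⟨pvyk_dom_verts C hd, (pvyk_Y_sub C' hv).1⟩))⟩

/-! ## 2. monotonicity and congruence: the classes are a function of `(K, Fz ∩ K, col on Fz ∩ K, a₀, a₁)` -/

/-- general comparison of two domains -/
theorem pvyk_dom_mono (C' : PvykCl T) (h0 : C.a₀ = C'.a₀) (hIn : C.In ⊆ C'.In) (hBar : ∀ d, d ∈ C.In → T.opp d ∈ C.In → d ∈ C'.Bar → d ∈ C.Bar) : C.Dom ⊆ C'.Dom := by
  rintro f ⟨hi, hf⟩
  have key : f ∈ C.In ∧ f ∈ C'.Dom := by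
    induction hf with
    | refl => exact ⟨hi, by rw [h0]; exact pvyk_dom_a0 C' (by rw [← h0]; exact hIn hi)⟩
    | tail _ hbc ih =>
      rcases hbc with rfl | ⟨rfl, h1, h2⟩
      · exact ⟨(pvyk_in_face C _).2 ih.1, pvyk_dom_nxt C' ih.2⟩
      · exact ⟨h2, pvyk_dom_opp C' ih.2 (fun hb => h1 (hBar _ ih.1 h2 hb)) (hIn h2)⟩
  exact key.2

theorem pvyk_in_mono (C' : PvykCl T) (hK : C.K ⊆ C'.K) : C.In ⊆ C'.In := fun _ h => ⟨hK h.1, hK h.2.1, hK h.2.2⟩

/-- monotone in the region -/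
theorem pvyk_dom_mono_K (C' : PvykCl T) (hK : C.K ⊆ C'.K) (hF : C.Fz = C'.Fz) (hc : C.col = C'.col) (h0 : C.a₀ = C'.a₀) (h1 : C.a₁ = C'.a₁) : C.Dom ⊆ C'.Dom := by
  refine pvyk_dom_mono C C' h0 (pvyk_in_mono C C' hK) fun d _ _ hb => ?_
  unfold PvykCl.Bar at hb ⊢
  rw [hF, hc, h0, h1]
  exact hb

theorem pvyk_Y_mono_K (C' : PvykCl T) (hK : C.K ⊆ C'.K) (hF : C.Fz = C'.Fz) (hc : C.col = C'.col) (h0 : C.a₀ = C'.a₀) (h1 : C.a₁ = C'.a₁) : C.Y ⊆ C'.Y := by
  rintro v ⟨hv, d, hd, rfl⟩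
  exact ⟨by rw [← hF]; exact hv, d, pvyk_dom_mono_K C C' hK hF hc h0 h1 hd, rfl⟩

theorem pvyk_dom_congr_aux (C' : PvykCl T) (hK : C.K = C'.K) (hF : ∀ v ∈ C.K, v ∈ C.Fz ↔ v ∈ C'.Fz) (hc : ∀ v ∈ C.K, v ∈ C.Fz → C.col v = C'.col v)
    (h0 : C.a₀ = C'.a₀) (h1 : C.a₁ = C'.a₁) : C.Dom ⊆ C'.Dom := by
  refine pvyk_dom_mono C C' h0 (pvyk_in_mono C C' hK.le) fun d hd _ hb => ?_
  rcases hb with ⟨b1, b2, b3⟩ | h | h | h | h
  · have f1 := (hF _ hd.1).2 b1
    have f2 := (hF _ hd.2.1).2 b2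
    exact Or.inl ⟨f1, f2, by rw [hc _ hd.1 f1, hc _ hd.2.1 f2]; exact b3⟩
  · exact Or.inr (Or.inl (by rw [h0]; exact h))
  · exact Or.inr (Or.inr (Or.inl (by rw [h0]; exact h)))
  · exact Or.inr (Or.inr (Or.inr (Or.inl (by rw [h1]; exact h))))
  · exact Or.inr (Or.inr (Or.inr (Or.inr (by rw [h1]; exact h))))

/-- **the domain only depends on `(K, Fz ∩ K, col on Fz ∩ K, a₀, a₁)`** -/
theorem pvyk_dom_congr (C' : PvykCl T) (hK : C.K = C'.K) (hF : ∀ v ∈ C.K, v ∈ C.Fz ↔ v ∈ C'.Fz) (hc : ∀ v ∈ C.K, v ∈ C.Fz → C.col v = C'.col v)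
    (h0 : C.a₀ = C'.a₀) (h1 : C.a₁ = C'.a₁) : C.Dom = C'.Dom :=
  Set.Subset.antisymm (pvyk_dom_congr_aux C C' hK hF hc h0 h1)
    (pvyk_dom_congr_aux C' C hK.symm (fun v hv => (hF v (by rw [hK]; exact hv)).symm)
      (fun v hv hf => (hc v (by rw [hK]; exact hv) ((hF v (by rw [hK]; exact hv)).2 hf)).symm) h0.symm h1.symm)

/-- **the class `Y` only depends on `(K, Fz ∩ K, col on Fz ∩ K, a₀, a₁)`** -/
theorem pvyk_Y_congr (C' : PvykCl T) (hK : C.K = C'.K) (hF : ∀ v ∈ C.K, v ∈ C.Fz ↔ v ∈ C'.Fz) (hc : ∀ v ∈ C.K, v ∈ C.Fz → C.col v = C'.col v)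
    (h0 : C.a₀ = C'.a₀) (h1 : C.a₁ = C'.a₁) : C.Y = C'.Y := by
  have e := pvyk_dom_congr C C' hK hF hc h0 h1
  ext v
  constructor
  · rintro ⟨hv, hd⟩
    exact ⟨fun hf => hv ((hF v (pvyk_dom_verts C hd)).2 hf), by rw [← e]; exact hd⟩
  · rintro ⟨hv, hd⟩
    rw [← e] at hd
    exact ⟨fun hf => hv ((hF v (pvyk_dom_verts C hd)).1 hf), hd⟩

/-! ## 3. Y1: a run on the cylinder stays in the domain -/

variable {C}

theorem pvyk_bw_of_cyl (h : C.Ok) {s : V → Bool} (hs : s ∈ C.Cyl) : pvasBW T s C.a₀ :=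
  ⟨by rw [hs _ h.s0]; exact h.b0, by rw [hs _ h.t0]; exact h.w0⟩

/-- on the cylinder a position is never a frozen monochromatic edge -/
theorem pvyk_bw_not_frozen {s : V → Bool} (hs : s ∈ C.Cyl) {d : D} (hd : pvasBW T s d) :
    ¬ (T.src d ∈ C.Fz ∧ T.tgt d ∈ C.Fz ∧ C.col (T.src d) = C.col (T.tgt d)) := by
  rintro ⟨h1, h2, h3⟩
  rw [← hs _ h1, ← hs _ h2, hd.1, hd.2] at h3
  exact Bool.false_ne_true h3.symm

/-- the positions `1 ≤ i < N` of a run are not barred -/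
theorem pvyk_run_not_bar {s : V → Bool} (hs : s ∈ C.Cyl) (h0 : pvasBW T s C.a₀) {N : ℕ} (hN : pvasIt T s C.a₀ N = C.a₁) (hmin : ∀ i, i < N → pvasIt T s C.a₀ i ≠ C.a₁)
    {i : ℕ} (hi : i + 1 < N) : pvasIt T s C.a₀ (i + 1) ∉ C.Bar := by
  have hbw := pvas_it_bw h0 (i + 1)
  rintro (h | h | h | h | h)
  · exact pvyk_bw_not_frozen hs hbw h
  · have e : pvasIt T s C.a₀ ((i + 1) + (N - (i + 1))) = pvasIt T s C.a₀ (N - (i + 1)) := by rw [pvas_it_add, h]
    rw [show (i + 1) + (N - (i + 1)) = N by omega, hN] at e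
    exact hmin (N - (i + 1)) (by omega) e.symm
  · rw [h] at hbw
    exact pvas_bw_not_opp h0 hbw
  · exact hmin _ hi h
  · rw [h] at hbw
    have h1 : pvasBW T s C.a₁ := by rw [← hN]; exact pvas_it_bw h0 N
    exact pvas_bw_not_opp h1 hbw

/-- **Y1, faces**: on the cylinder all the positions `i < N` of a run in `K` lie in the domain -/
theorem pvyk_run_dom {s : V → Bool} (hs : s ∈ C.Cyl) (h0 : pvasBW T s C.a₀) {N : ℕ} (hN : pvasIt T s C.a₀ N = C.a₁) (hmin : ∀ i, i < N → pvasIt T s C.a₀ i ≠ C.a₁)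
    (hK : T.VOf (pvasFc T s C.a₀ N) ⊆ C.K) : ∀ i, i < N → pvasIt T s C.a₀ i ∈ C.Dom := by
  have hin : ∀ i, i < N → pvasIt T s C.a₀ i ∈ C.In := fun i hi =>
    ⟨hK ⟨_, ⟨i, hi, T.sf_refl _⟩, rfl⟩, hK ⟨_, ⟨i, hi, T.sf_nxt _⟩, rfl⟩, hK ⟨_, ⟨i, hi, T.sf_nxt2 _⟩, rfl⟩⟩
  intro i
  induction i with
  | zero => exact fun hi => pvyk_dom_a0 C (hin 0 hi)
  | succ i ih =>
    intro hi
    have hd := ih (by omega)
    have hnb := pvyk_run_not_bar hs h0 hN hmin hi
    have hi' := hin _ hi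
    rw [pvas_it_succ] at hnb hi' ⊢
    rcases pvas_step_cases s (pvasIt T s C.a₀ i) with ⟨-, e⟩ | ⟨-, e⟩
    · rw [e] at hnb hi' ⊢
      exact pvyk_dom_opp C (pvyk_dom_nxt C hd) (fun hb => hnb ((pvyk_bar_opp C).2 hb)) hi'
    · rw [e] at hnb hi' ⊢
      exact pvyk_dom_opp C (pvyk_dom_nxt C (pvyk_dom_nxt C hd)) (fun hb => hnb ((pvyk_bar_opp C).2 hb)) hi'

/-- **Y1, region**: on the cylinder a run in `K` is a run in `K ∩ (Fz ∪ Y)` -/
theorem pvyk_run_small {s : V → Bool} (hs : s ∈ C.Cyl) (h0 : pvasBW T s C.a₀) (h : s ∈ C.SY) : PvldRun T s (C.K ∩ (C.Fz ∪ C.Y)) C.a₀ C.a₁ := by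
  obtain ⟨N, hN, h1, h2, h3⟩ := h
  refine ⟨N, hN, h1, h2, ?_⟩
  rintro v ⟨f, ⟨i, hi, hf⟩, rfl⟩
  refine ⟨h3 ⟨f, ⟨i, hi, hf⟩, rfl⟩, ?_⟩
  have hd : f ∈ C.Dom := ((pvyk_dom_face C).sf T hf).2 (pvyk_run_dom hs h0 h1 h2 h3 i hi)
  by_cases hz : T.src f ∈ C.Fz
  · exact Or.inl hz
  · exact Or.inr ⟨hz, f, hd, rfl⟩

/-- **Y1, congruence**: the event `SY`, its time and ALL its positions read `Fz ∪ Y` only -/
theorem pvyk_SY_congr {s s' : V → Bool} (hs : s ∈ C.Cyl) (h0 : pvasBW T s C.a₀) (hs' : s' ∈ C.Cyl) (hY : ∀ v ∈ C.Y, s' v = s v) (h : s ∈ C.SY) :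
    s' ∈ C.SY ∧ pvasHit T s' C.a₀ {C.a₁} = pvasHit T s C.a₀ {C.a₁} ∧ ∀ i, i ≤ pvasHit T s C.a₀ {C.a₁} → pvasIt T s' C.a₀ i = pvasIt T s C.a₀ i := by
  have hag : ∀ v ∈ C.K ∩ (C.Fz ∪ C.Y), s' v = s v := by
    rintro v ⟨-, hv | hv⟩
    · rw [hs _ hv, hs' _ hv]
    · exact hY v hv
  obtain ⟨r1, r2, r3⟩ := pvld_run_congr hag (pvyk_run_small hs h0 h)
  exact ⟨pvld_run_mono Set.inter_subset_left r1, r2, r3⟩

theorem pvyk_SY_iff (hOk : C.Ok) {s s' : V → Bool} (hs : s ∈ C.Cyl) (hs' : s' ∈ C.Cyl) (hY : ∀ v ∈ C.Y, s v = s' v) : s ∈ C.SY ↔ s' ∈ C.SY :=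
  ⟨fun h => (pvyk_SY_congr hs (pvyk_bw_of_cyl hOk hs) hs' (fun v hv => (hY v hv).symm) h).1,
    fun h => (pvyk_SY_congr hs' (pvyk_bw_of_cyl hOk hs') hs hY h).1⟩

/-- the banks of a run on the cylinder: frozen sites and sites of `Y` -/
theorem pvyk_run_lay {s : V → Bool} (hs : s ∈ C.Cyl) (h0 : pvasBW T s C.a₀) (h : s ∈ C.SY) :
    pvasLayB T s C.a₀ (pvasHit T s C.a₀ {C.a₁}) ⊆ C.K ∩ (C.Fz ∪ C.Y) ∧ pvasLayW T s C.a₀ (pvasHit T s C.a₀ {C.a₁}) ⊆ C.K ∩ (C.Fz ∪ C.Y) :=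
  pvld_run_lay (pvyk_run_small hs h0 h)

/-- a variable of the run reads `Fz ∪ Y` only -/
theorem pvyk_val_congr {E : Type*} [Zero E] (hOk : C.Ok) (g : ℕ → (ℕ → D) → E) {s s' : V → Bool} (hs : s ∈ C.Cyl) (hs' : s' ∈ C.Cyl) (hY : ∀ v ∈ C.Y, s v = s' v) :
    C.Val g s = C.Val g s' := by
  unfold PvykCl.Val
  by_cases h : s ∈ C.SY
  · obtain ⟨r1, r2, r3⟩ := pvyk_SY_congr hs (pvyk_bw_of_cyl hOk hs) hs' (fun v hv => (hY v hv).symm) h
    rw [if_pos h, if_pos r1, r2]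
    congr 1
    funext i
    exact (r3 _ (min_le_right _ _)).symm
  · have h' : s' ∉ C.SY := fun hh => h ((pvyk_SY_iff hOk hs hs' hY).2 hh)
    rw [if_neg h, if_neg h']

/-- gluing of equal pieces of two strands (stub . run . stub) -/
theorem pvyk_it_glue {s s' : V → Bool} {b a : D} {m N : ℕ} (h1 : ∀ i, i ≤ m → pvasIt T s' b i = pvasIt T s b i) (hm : pvasIt T s b m = a)
    (h2 : ∀ i, i ≤ N → pvasIt T s' a i = pvasIt T s a i) : ∀ i, i ≤ m + N → pvasIt T s' b i = pvasIt T s b i := by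
  intro i hi
  rcases Nat.lt_or_ge i m with hlt | hge
  · exact h1 i hlt.le
  · obtain ⟨j, rfl⟩ : ∃ j, i = m + j := ⟨i - m, by omega⟩
    rw [pvas_it_add, pvas_it_add, h1 m le_rfl, hm]
    exact h2 j (by omega)

/-! ## 4. Y3 (= G1 of 78): the domain lies on one side of every admissible shield -/

/-- **Y3, faces**: a face set which contains `a₀` and whose boundary edges are barred or lie in a face which leaves `K` contains the domain -/
theorem pvyk_side {B : Set D} (hB : T.FaceSet B) (h0 : C.a₀ ∈ B) (hbd : ∀ d, T.Bd B d → d ∈ C.Bar ∨ d ∉ C.In ∨ T.opp d ∉ C.In) : C.Dom ⊆ B := by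
  rintro f ⟨hi, hf⟩
  have key : f ∈ C.In ∧ f ∈ B := by
    induction hf with
    | refl => exact ⟨hi, h0⟩
    | @tail b c _ hbc ih =>
      rcases hbc with rfl | ⟨rfl, h1, h2⟩
      · exact ⟨(pvyk_in_face C _).2 ih.1, (hB _).2 ih.2⟩
      · refine ⟨h2, by_contra fun hn => ?_⟩
        have hb : T.Bd B b := fun hiff => hn (hiff.1 ih.2)
        rcases hbd b hb with h | h | h
        · exact h1 h
        · exact h ih.1
        · exact h h2
  exact key.2

/-- an edge with an end off `K` lies in no face of `In` -/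
theorem pvyk_not_in_of_off {d : D} (h : T.src d ∉ C.K ∨ T.tgt d ∉ C.K) : d ∉ C.In := fun hd => h.elim (fun h => h hd.1) (fun h => h hd.2.1)

/-- **Y3, sites**: if moreover the boundary vertices are frozen or off `K`, every site of `Y` is interior to `B` -/
theorem pvyk_Y_int (hT : T.IsSph) {B : Set D} (hB : T.FaceSet B) (h0 : C.a₀ ∈ B) (hbd : ∀ d, T.Bd B d → d ∈ C.Bar ∨ d ∉ C.In ∨ T.opp d ∉ C.In)
    (hv : ∀ d, T.Bd B d → T.src d ∈ C.Fz ∨ T.src d ∉ C.K) : C.Y ⊆ T.Int B := by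
  rintro v ⟨hz, d, hd, rfl⟩
  have hK : T.src d ∈ C.K := (pvyk_dom_sub_in C hd).1
  have hnb : ∀ d', T.src d' = T.src d → ¬ T.Bd B d' := by
    intro d' e hb
    rcases hv d' hb with h | h
    · exact hz (e ▸ h)
    · exact h (e ▸ hK)
  rcases pl_int_or hT hB hnb with h | h
  · exact h
  · exact absurd (pvyk_side hB h0 hbd hd) (h d rfl)

/-- **Y3, closed other side**: no site of `Y` is a vertex of a face of the other side -/
theorem pvyk_Y_disj (hT : T.IsSph) {B : Set D} (hB : T.FaceSet B) (h0 : C.a₀ ∈ B) (hbd : ∀ d, T.Bd B d → d ∈ C.Bar ∨ d ∉ C.In ∨ T.opp d ∉ C.In)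
    (hv : ∀ d, T.Bd B d → T.src d ∈ C.Fz ∨ T.src d ∉ C.K) : Disjoint C.Y (T.VOf Bᶜ) := by
  refine Set.disjoint_left.2 ?_
  rintro v hy ⟨d, hd, rfl⟩
  exact hd (pvyk_Y_int hT hB h0 hbd hv hy d rfl)

/-- the admissible shields: every dart is barred or has an end off `K` -/
def PvykCl.Shield (C : PvykCl T) (c : T.Cyc) : Prop := ∀ i, c.e i ∈ C.Bar ∨ T.src (c.e i) ∉ C.K ∨ T.tgt (c.e i) ∉ C.K

theorem pvyk_shield_eqns_cite : True := by
  have := @PvykCl.Shield.eq_1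
  trivial

theorem pvyk_shield_bd (hT : T.IsSph) {c : T.Cyc} (hc : C.Shield c) {d : D} (hd : T.Bd c.Left d) : d ∈ C.Bar ∨ d ∉ C.In ∨ T.opp d ∉ C.In := by
  rcases ((pl_jordan hT c).2.2.2 d).1 hd with ⟨i, rfl⟩ | ⟨i, hi⟩
  · rcases hc i with h | h
    · exact Or.inl h
    · exact Or.inr (Or.inl (pvyk_not_in_of_off h))
  · rcases hc i with h | h
    · rw [hi] at h
      exact Or.inl ((pvyk_bar_opp C).1 h)
    · rw [hi] at h
      exact Or.inr (Or.inr (pvyk_not_in_of_off h))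

theorem pvyk_shield_vert (hOk : C.Ok) (hT : T.IsSph) {c : T.Cyc} (hc : C.Shield c) (hcv : ∀ v ∈ c.verts, v ∈ C.Fz ∨ v ∉ C.K) {d : D} (hd : T.Bd c.Left d) :
    T.src d ∈ C.Fz ∨ T.src d ∉ C.K := by
  rcases ((pl_jordan hT c).2.2.2 d).1 hd with ⟨i, rfl⟩ | ⟨i, hi⟩
  · exact hcv _ ⟨i, rfl⟩
  · refine hcv _ ⟨i + 1, ?_⟩
    rw [← c.chain i, hi, T.tgt_opp]

/-- **Y3 for a cycle, `a₀` on its left** -/
theorem pvyk_cyc_left (hT : T.IsSph) {c : T.Cyc} (hc : C.Shield c) (h0 : C.a₀ ∈ c.Left) : C.Dom ⊆ c.Left :=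
  pvyk_side (pl_left_face c) h0 fun _ hd => pvyk_shield_bd hT hc hd

/-- **Y3 for a cycle, `a₀` on its right** -/
theorem pvyk_cyc_right (hT : T.IsSph) {c : T.Cyc} (hc : C.Shield c) (h0 : C.a₀ ∈ c.Right) : C.Dom ⊆ c.Right :=
  pvyk_side (pl_right_face c) h0 fun d hd => pvyk_shield_bd hT hc (by
    rw [(pl_jordan hT c).1] at hd
    exact T.bd_compl.1 hd)

/-- **G1 of 78, left form**: the vertices of the shield are frozen or off `K`, `a₀` on the left: `Y` is interior to the left side, no site of `Y` in the closed right side -/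
theorem pvyk_cyc_left_Y (hOk : C.Ok) (hT : T.IsSph) {c : T.Cyc} (hc : C.Shield c) (hcv : ∀ v ∈ c.verts, v ∈ C.Fz ∨ v ∉ C.K) (h0 : C.a₀ ∈ c.Left) :
    C.Y ⊆ T.Int c.Left ∧ Disjoint C.Y (T.VOf c.Right) := by
  have h1 := fun d (hd : T.Bd c.Left d) => pvyk_shield_bd hT hc hd
  have h2 := fun d (hd : T.Bd c.Left d) => pvyk_shield_vert hOk hT hc hcv hd
  refine ⟨pvyk_Y_int hT (pl_left_face c) h0 h1 h2, ?_⟩
  rw [(pl_jordan hT c).1]
  exact pvyk_Y_disj hT (pl_left_face c) h0 h1 h2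

/-- **G1 of 78, right form** -/
theorem pvyk_cyc_right_Y (hOk : C.Ok) (hT : T.IsSph) {c : T.Cyc} (hc : C.Shield c) (hcv : ∀ v ∈ c.verts, v ∈ C.Fz ∨ v ∉ C.K) (h0 : C.a₀ ∈ c.Right) :
    C.Y ⊆ T.Int c.Right ∧ Disjoint C.Y (T.VOf c.Left) := by
  have hR := (pl_jordan hT c).1
  have h1 : ∀ d, T.Bd c.Right d → d ∈ C.Bar ∨ d ∉ C.In ∨ T.opp d ∉ C.In := fun d hd => pvyk_shield_bd hT hc (by rw [hR] at hd; exact T.bd_compl.1 hd)
  have h2 : ∀ d, T.Bd c.Right d → T.src d ∈ C.Fz ∨ T.src d ∉ C.K := fun d hd => pvyk_shield_vert hOk hT hc hcv (by rw [hR] at hd; exact T.bd_compl.1 hd)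
  refine ⟨pvyk_Y_int hT (pl_right_face c) h0 h1 h2, ?_⟩
  have e : c.Left = c.Rightᶜ := by rw [hR, compl_compl]
  rw [e]
  exact pvyk_Y_disj hT (pl_right_face c) h0 h1 h2

/-! ## 5. Y4: fresh connectivity inside `K` -/

/-- all the faces round a site of the core lie in `In` -/
theorem pvyk_core_in {d : D} (h : T.src d ∈ C.Core) : d ∈ C.In := by
  refine ⟨h.2.1, h.2.2 _ ⟨d, rfl, rfl⟩, h.2.2 _ ⟨T.rot d, T.src_rot d, T.tgt_rot d⟩⟩

/-- an edge at a fresh site is not barred -/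
theorem pvyk_fresh_not_bar (hOk : C.Ok) {d : D} (h : T.src d ∉ C.Fz ∨ T.tgt d ∉ C.Fz) : d ∉ C.Bar := fun hb =>
  h.elim (fun h => h (pvyk_bar_ends C hOk hb).1) (fun h => h (pvyk_bar_ends C hOk hb).2)

theorem pvyk_core_rot (hOk : C.Ok) {d : D} (h : T.src d ∈ C.Core) (hd : d ∈ C.Dom) : T.rot d ∈ C.Dom := by
  have h1 : T.nxt (T.nxt d) ∈ C.Dom := pvyk_dom_nxt C (pvyk_dom_nxt C hd)
  refine pvyk_dom_opp C h1 (pvyk_fresh_not_bar hOk (Or.inr ?_)) ?_
  · rw [T.tgt_nxt2]; exact h.1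
  · exact pvyk_core_in (d := T.rot d) (by rw [T.src_rot]; exact h)

/-- **Y4, fan**: a site of the core with one face in the domain has all its faces in the domain -/
theorem pvyk_fan (hOk : C.Ok) (hT : T.IsSph) {v : V} (h : v ∈ C.Core) (hv : v ∈ T.VOf C.Dom) : v ∈ T.Int C.Dom := by
  obtain ⟨d, hd, rfl⟩ := hv
  intro d' e
  obtain ⟨n, rfl⟩ := hT.link d d' e.symm
  clear e
  induction n with
  | zero => exact hd
  | succ n ih =>
    rw [Function.iterate_succ_apply']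
    exact pvyk_core_rot hOk (by rw [T.src_rot_iter]; exact h) ih

/-- the neighbours of an interior vertex of the domain are vertices of the domain -/
theorem pvyk_int_adj {v w : V} (hv : v ∈ T.Int C.Dom) (hvw : T.Adj v w) : w ∈ T.VOf C.Dom := by
  obtain ⟨d, rfl, rfl⟩ := hvw
  exact ⟨T.nxt d, pvyk_dom_nxt C (hv d rfl), rfl⟩

/-- **Y4, paths**: a path all of whose vertices but the last are in the core, from a vertex of the domain, ends at a vertex of the domain -/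
theorem pvyk_join_dom (hOk : C.Ok) (hT : T.IsSph) {u w : V} (hu : u ∈ T.VOf C.Dom) (h : ReflTransGen (fun x y => T.Adj x y ∧ x ∈ C.Core) u w) : w ∈ T.VOf C.Dom := by
  induction h with
  | refl => exact hu
  | tail _ hbc ih => exact pvyk_int_adj (pvyk_fan hOk hT hbc.2 ih) hbc.1

/-- **Y4, class**: the fresh end of such a path is in `Y` -/
theorem pvyk_join_Y (hOk : C.Ok) (hT : T.IsSph) {u w : V} (hu : u ∈ T.VOf C.Dom) (h : ReflTransGen (fun x y => T.Adj x y ∧ x ∈ C.Core) u w) (hw : w ∉ C.Fz) : w ∈ C.Y :=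
  ⟨hw, pvyk_join_dom hOk hT hu h⟩

/-- the three vertices of the face of `a₀` are vertices of the domain -/
theorem pvyk_tip_verts (h : C.a₀ ∈ C.In) : T.src C.a₀ ∈ T.VOf C.Dom ∧ T.tgt C.a₀ ∈ T.VOf C.Dom ∧ T.apex C.a₀ ∈ T.VOf C.Dom :=
  ⟨⟨_, pvyk_dom_a0 C h, rfl⟩, ⟨_, pvyk_dom_nxt C (pvyk_dom_a0 C h), rfl⟩, ⟨_, pvyk_dom_nxt C (pvyk_dom_nxt C (pvyk_dom_a0 C h)), rfl⟩⟩

/-- `T.Join` form: everything joined to the apex of `a₀` inside the core is in `Y` -/
theorem pvyk_join_core (hOk : C.Ok) (hT : T.IsSph) (h : C.a₀ ∈ C.In) {w : V} (hj : T.Join Set.univ C.Core (T.apex C.a₀) w) : w ∈ C.Y := by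
  obtain ⟨h1, h2⟩ := hj
  have key : w ∈ C.Core ∧ w ∈ T.VOf C.Dom := by
    induction h2 with
    | refl => exact ⟨h1, (pvyk_tip_verts h).2.2⟩
    | tail _ hbc ih =>
      obtain ⟨⟨d, -, e1, e2⟩, hc⟩ := hbc
      exact ⟨hc, pvyk_int_adj (pvyk_fan hOk hT ih.1 ih.2) ⟨d, e1, e2⟩⟩
  exact ⟨key.1.1, key.2⟩

/-! ## 6. adaptors to the engine of 193 (`Tr/Force`) -/

/-- a cylinder on more sites which prescribes `col` on `Fz` -/
theorem pvyk_cyl_of {S : Set V} {σ : V → Bool} (hS : ∀ v ∈ C.Fz, v ∈ S ∧ σ v = C.col v) {s : V → Bool} (hs : s ∈ pvtfCyl S σ) : s ∈ C.Cyl :=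
  fun v hv => by rw [hs v (hS v hv).1, (hS v hv).2]

/-- `rSY` of `PvtfDat.Ok` -/
theorem pvyk_reads_SY (hOk : C.Ok) {S R : Set V} {σ : V → Bool} (hS : ∀ v ∈ C.Fz, v ∈ S ∧ σ v = C.col v) (hR : C.Y ⊆ R) : PvtfReads S σ R C.SY :=
  fun _ _ hs hs' h => pvyk_SY_iff hOk (pvyk_cyl_of hS hs) (pvyk_cyl_of hS hs') fun v hv => h v (hR hv)

/-- `rSY` with `Xc := C.X` -/
theorem pvyk_reads_SY_X (hOk : C.Ok) : PvtfReads C.Fz C.col C.Xᶜ C.SY :=
  pvyk_reads_SY hOk (fun _ hv => ⟨hv, rfl⟩) (by rw [pvyk_X_compl]; exact Set.subset_union_right)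

/-- `rY` of `PvtfDat.Ok` -/
theorem pvyk_reads_val {E : Type*} [Zero E] (hOk : C.Ok) (g : ℕ → (ℕ → D) → E) {S Xc : Set V} {σ : V → Bool} (hS : ∀ v ∈ C.Fz, v ∈ S ∧ σ v = C.col v) (hX : Disjoint C.Y Xc)
    (s s' : V → Bool) (hs : s ∈ pvtfCyl S σ) (hs' : s' ∈ pvtfCyl S σ) (h : ∀ v, v ∉ Xc → s v = s' v) : C.Val g s = C.Val g s' :=
  pvyk_val_congr hOk g (pvyk_cyl_of hS hs) (pvyk_cyl_of hS hs') fun v hv => h v (Set.disjoint_left.1 hX hv)

/-- `rNB`, `rWO` of `PvtfDat.Ok`: an event which does not read `Y` reads `X` on the cylinder -/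
theorem pvyk_reads_off {A : Set (V → Bool)} (hA : ∀ s s' : V → Bool, (∀ v, v ∉ C.Y → s v = s' v) → (s ∈ A ↔ s' ∈ A)) : PvtfReads C.Fz C.col C.X A := by
  intro s s' hs hs' h
  refine hA s s' fun v hv => ?_
  by_cases hz : v ∈ C.Fz
  · rw [hs v hz, hs' v hz]
  · exact h v ⟨hz, fun hd => hv ⟨hz, hd⟩⟩

/-! ## 7. measurability of whatever reads a finite set -/

open MeasureTheory in
/-- a function which reads a finite set of colours is measurable, whatever the target -/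
theorem pvyk_meas_fun_of_reads {β : Type*} [MeasurableSpace β] {R : Set V} (hR : R.Finite) {f : (V → Bool) → β} (hf : ∀ s s' : V → Bool, (∀ v ∈ R, s v = s' v) → f s = f s') :
    Measurable f := by
  classical
  have : Finite R := hR
  let ext : (R → Bool) → (V → Bool) := fun y v => if h : v ∈ R then y ⟨v, h⟩ else false
  have e : f = (fun y => f (ext y)) ∘ (fun s (v : R) => s v.1) := by
    funext s
    refine hf _ _ fun v hv => ?_
    show s v = if h : v ∈ R then s v else false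
    rw [dif_pos hv]
  rw [e]
  refine Measurable.comp (measurable_of_finite _) ?_
  exact measurable_pi_lambda _ fun v => measurable_pi_apply (X := fun _ => Bool) v.1

/-- an event which reads a finite set of colours is measurable -/
theorem pvyk_meas_of_reads {R : Set V} (hR : R.Finite) {A : Set (V → Bool)} (hA : ∀ s s' : V → Bool, (∀ v ∈ R, s v = s' v) → (s ∈ A ↔ s' ∈ A)) : MeasurableSet A := by
  have h : Measurable fun s => (s ∈ A : Prop) := pvyk_meas_fun_of_reads hR fun s s' h => propext (hA s s' h)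
  exact measurableSet_setOfPred.2 h

open MeasureTheory in
/-- a function which reads a finite set of colours is strongly measurable -/
theorem pvyk_smeas_of_reads {E : Type*} [TopologicalSpace E] {R : Set V} (hR : R.Finite) {f : (V → Bool) → E} (hf : ∀ s s' : V → Bool, (∀ v ∈ R, s v = s' v) → f s = f s') :
    StronglyMeasurable f := by
  classical
  have : Finite R := hR
  let ext : (R → Bool) → (V → Bool) := fun y v => if h : v ∈ R then y ⟨v, h⟩ else false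
  have e : f = (fun y => f (ext y)) ∘ (fun s (v : R) => s v.1) := by
    funext s
    refine hf _ _ fun v hv => ?_
    show s v = if h : v ∈ R then s v else false
    rw [dif_pos hv]
  rw [e]
  refine StronglyMeasurable.comp_measurable (StronglyMeasurable.of_discrete) ?_
  exact measurable_pi_lambda _ fun v => measurable_pi_apply (X := fun _ => Bool) v.1

/-- `SY` reads `K` only (no cylinder) -/
theorem pvyk_SY_reads_K {s s' : V → Bool} (h : ∀ v ∈ C.K, s v = s' v) : s ∈ C.SY ↔ s' ∈ C.SY :=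
  ⟨fun hs => (pvld_run_congr (fun v hv => (h v hv).symm) hs).1, fun hs => (pvld_run_congr h hs).1⟩

/-- `mSY` of `PvtfDat.Ok` -/
theorem pvyk_meas_SY (hK : C.K.Finite) : MeasurableSet C.SY := pvyk_meas_of_reads hK fun _ _ h => pvyk_SY_reads_K h

/-- a variable of the run reads `K` only (no cylinder) -/
theorem pvyk_val_reads_K {E : Type*} [Zero E] (g : ℕ → (ℕ → D) → E) {s s' : V → Bool} (h : ∀ v ∈ C.K, s v = s' v) : C.Val g s = C.Val g s' := by
  unfold PvykCl.Val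
  by_cases hs : s ∈ C.SY
  · obtain ⟨r1, r2, r3⟩ := pvld_run_congr (fun v hv => (h v hv).symm) hs
    have r1' : s' ∈ C.SY := r1
    rw [if_pos hs, if_pos r1', r2]
    congr 1
    funext i
    exact (r3 _ (min_le_right _ _)).symm
  · have h' : s' ∉ C.SY := fun hh => hs ((pvyk_SY_reads_K h).2 hh)
    rw [if_neg hs, if_neg h']

/-- `mY` of `PvtfDat.Ok` -/
theorem pvyk_smeas_val {E : Type*} [Zero E] [TopologicalSpace E] (hK : C.K.Finite) (g : ℕ → (ℕ → D) → E) : MeasureTheory.StronglyMeasurable (C.Val g) :=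
  pvyk_smeas_of_reads hK fun _ _ h => pvyk_val_reads_K g h

end Claimed.Agent.R289
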