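-- KEEP
import Claimed.Agent.R289.Tr.Top

/-!
# Row 289 (S0537, Cardy for Poisson-Voronoi), THE WALL, file Tr/TopAE : THE HYBRID ENGINE OF `Tr/Top` WITH FORCING AT ALMOST EVERY SEED = SEAM (L3) OF THE ROPE OF 115      (helper139; prefix `pvl5_`, `pvl5`, `Pvl5`)

WHY: `Pvl3Sys.Forced.frc` of `Tr/Top` is POINTWISE on the class `Bs σ`; the good part of 256 (`Defs/GdReg`: `pvrgFrc pvrgFo pvrgFi pvrgFe`) gives the forcing for ALMOST EVERY SEED of the own experiment of the link, at the base itself (with `∀ seed` the set is empty).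
CURE (129, 141): NULL MODIFICATION.   On the seed space at the fixed base: `A' e := A e ∪ {adjacent plugs usable, P(A e | all but the atom) < q e}`.   `A'` is well formed, forced EVERYWHERE, and all the numbers (`Wt w2 k hat Ev`) agree off a null set of seeds.
NOTHING OF `Tr/Top` IS CHANGED; all the conclusions are VERBATIM those of `Tr/Top`.

* sec. 1  the chain engine of 218 (`Tr/Chain`): `Pvl5FrcK S P q` (a.e. forcing), `pvl5N` (bad points), `pvl5Md` (modification), `pvl5_md_wf`, `pvl5_md_ok`, `pvl5_q_le_one` (the constants are automatically `≤ 1`),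
          **`pvl5k_mass pvl5k_prob_Wt pvl5k_Wt_le pvl5k_mean pvl5k_link_sq`**.
* sec. 2  hybrid systems at ONE base `σ ∈ B`: **`Pvl5Frc S ε σ q`** = `adm`, `q0`, `frc : ∀ e, ∀ᵐ x ∂pvthSeed ε, (∀ u ∈ adj e, pvthR (Ce e) (F e) σ x ∈ G u) → q e ≤ pvl3P ε (K e) (F e) (A e) (pvthR (Ce e) (F e) σ x)`;
          `pvl5_frc_of` (pointwise ⟹ a.e.), `pvl5_frc_total`, `pvl5_frc_of_total` (own experiment ⟺ whole experiment), **`pvl5_mass pvl5_Wt_le pvl5_mean pvl5_jensen pvl5_link_sq pvl5_dom_pt pvl5_dom_fam`**.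
* sec. 3  `pvl5_sum_pat`, `pvl5_sum_cyc` (TR25: the sum of the link means; NO forcing, NO field hypothesis), **`pvl5_tr2_pat`**, **`pvl5_tr2_cyc`**.
* sec. 4  **`Pvl5CycOkF`**, **`Pvl5ThkOkF`** = the records of `Tr/Top` sec.6 with `frc : ∀ σ ∈ B, ∃ q, Pvl5Frc (..Sys..) ε σ q ∧ D ε q ≤ D` (other fields verbatim), `pvl5_cycOk_of`, `pvl5_thkOk_of` (old record ⟹ new record),
          **`pvl5_cyc_le_fam`**, **`pvl5_cyc1_fam`**, **`pvl5_thick_le_fam`** (conclusions verbatim those of `pvl3_cyc_le_fam pvl3_cyc1_fam pvl3_thick_le_fam`).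
-/

set_option autoImplicit false
set_option linter.unusedSectionVars false

namespace Claimed.Agent.R289

open MeasureTheory Filter Topology Set Claims.C0465
open scoped ENNReal

/-! ## 1. the chain engine of 218 with ALMOST SURE forcing -/

section abs

variable {Ω : Type*} [MeasurableSpace Ω] {υ ι : Type*}

/-- the plugs are admitted, the links are forced with the constants `q e` at ALMOST EVERY point -/
structure Pvl5FrcK (S : PvtkSys Ω υ ι) (P : Measure Ω) (q : ι → ℝ≥0∞) : Prop where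
  adm : ∀ u, P (S.G u) ≠ 0
  q0 : ∀ e, q e ≠ 0
  frc : ∀ e, ∀ᵐ ω ∂P, (∀ u ∈ S.adj e, ω ∈ S.G u) → q e ≤ pvtkE P (S.RL e) ((S.A e).indicator 1) ω

/-- the points at which the link `e` is not forced -/
def pvl5N (S : PvtkSys Ω υ ι) (P : Measure Ω) (q : ι → ℝ≥0∞) (e : ι) : Set Ω :=
  {ω | (∀ u ∈ S.adj e, ω ∈ S.G u) ∧ pvtkE P (S.RL e) ((S.A e).indicator 1) ω < q e}

/-- **THE NULL MODIFICATION**: a link succeeds by decree where it is not forced -/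
def pvl5Md (S : PvtkSys Ω υ ι) (P : Measure Ω) (q : ι → ℝ≥0∞) : PvtkSys Ω υ ι :=
  { S with A := fun e => S.A e ∪ pvl5N S P q e }

theorem pvl5_eqns_cite : True := by
  have := @pvl5N.eq_1.{0, 0, 0}; have := @pvl5Md.eq_1.{0, 0, 0}
  trivial

variable {S : PvtkSys Ω υ ι} {P : Measure Ω} {q : ι → ℝ≥0∞}

theorem pvl5_frcK_of (hF : S.Forced P q) : Pvl5FrcK S P q := ⟨hF.adm, hF.q0, fun e => Eventually.of_forall (hF.frc e)⟩

theorem pvl5_frcK_anti (hF : Pvl5FrcK S P q) {q' : ι → ℝ≥0∞} (h0 : ∀ e, q' e ≠ 0) (hq : ∀ e, q' e ≤ q e) : Pvl5FrcK S P q' :=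
  ⟨hF.adm, h0, fun e => (hF.frc e).mono fun _ hω hG => (hq e).trans (hω hG)⟩

theorem pvl5_N_ig {R : Ω × Ω → Ω} {e : ι} (hG : ∀ u ∈ S.adj e, PvtkIg R fun ω => ω ∈ S.G u)
    (hE : PvtkIg R (pvtkE P (S.RL e) ((S.A e).indicator 1))) : PvtkIg R fun ω => ω ∈ pvl5N S P q e := fun ω ω' => by
  show ((∀ u ∈ S.adj e, R (ω, ω') ∈ S.G u) ∧ pvtkE P (S.RL e) ((S.A e).indicator 1) (R (ω, ω')) < q e) =
    ((∀ u ∈ S.adj e, ω ∈ S.G u) ∧ pvtkE P (S.RL e) ((S.A e).indicator 1) ω < q e)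
  rw [hE ω ω']
  congr 1
  exact propext (forall₂_congr fun u hu => iff_of_eq (hG u hu ω ω'))

theorem pvl5_N_own (h : S.WF P) (e : ι) : PvtkIg (S.RL e) fun ω => ω ∈ pvl5N S P q e :=
  pvl5_N_ig (fun u _ => h.G_L u e) (pvtk_E_ig (h.rsL e) _)

theorem pvl5_N_meas [SFinite P] (h : S.WF P) (e : ι) : MeasurableSet (pvl5N S P q e) := by
  have e1 : pvl5N S P q e = (⋂ u ∈ S.adj e, S.G u) ∩ {ω | pvtkE P (S.RL e) ((S.A e).indicator 1) ω < q e} := by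
    ext ω
    simp [pvl5N]
  rw [e1]
  exact (Finset.measurableSet_biInter _ fun u _ => h.mG u).inter
    (measurableSet_lt (pvtk_E_measurable (h.rsL e) (measurable_one.indicator (h.mA e))) measurable_const)

theorem pvl5_md_wf [SFinite P] (h : S.WF P) : (pvl5Md S P q).WF P where
  rsP := h.rsP
  rsL := h.rsL
  mG := h.mG
  mA e := (h.mA e).union (pvl5_N_meas h e)
  commLL := h.commLL
  commLP := h.commLP
  G_L := h.G_L
  G_P := h.G_P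
  G_fr := h.G_fr
  A_L e e' he := (h.A_L e e' he).map₂ (pvl5_N_ig (q := q) (fun u _ => h.G_L u e') (pvtk_E_ig_of_comm (h.commLL e e' he) (h.A_L e e' he).indicator)) (· ∨ ·)
  A_P e u hu := (h.A_P e u hu).map₂ (pvl5_N_ig (q := q) (fun u' hu' => h.G_P u' u (ne_of_mem_of_not_mem hu' hu))
    (pvtk_E_ig_of_comm (h.commLP e u hu) (h.A_P e u hu).indicator)) (· ∨ ·)

theorem pvl5_ind_off {A N : Set Ω} {ω : Ω} (h : ω ∉ N) : (A ∪ N).indicator (1 : Ω → ℝ≥0∞) ω = A.indicator 1 ω := by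
  by_cases hA : ω ∈ A
  · rw [indicator_of_mem hA, indicator_of_mem (show ω ∈ A ∪ N from Or.inl hA)]
  · rw [indicator_of_notMem hA, indicator_of_notMem (show ω ∉ A ∪ N from fun hh => hh.elim hA h)]

/-- the modified system is forced EVERYWHERE -/
theorem pvl5_md_forced [IsProbabilityMeasure P] (h : S.WF P) (hF : Pvl5FrcK S P q) (h1 : ∀ e, q e ≤ 1) : (pvl5Md S P q).Forced P q where
  adm := hF.adm
  q0 := hF.q0
  frc e ω hω := by
    show q e ≤ pvtkE P (S.RL e) ((S.A e ∪ pvl5N S P q e).indicator 1) ω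
    by_cases hlt : pvtkE P (S.RL e) ((S.A e).indicator 1) ω < q e
    · have hN : ∀ ω', (S.A e ∪ pvl5N S P q e).indicator (1 : Ω → ℝ≥0∞) (S.RL e (ω, ω')) = 1 := fun ω' => by
        have e1 : (S.RL e (ω, ω') ∈ pvl5N S P q e) = (ω ∈ pvl5N S P q e) := pvl5_N_own h e ω ω'
        have h2 : S.RL e (ω, ω') ∈ pvl5N S P q e := by
          rw [e1]
          exact ⟨hω, hlt⟩
        rw [indicator_of_mem (show S.RL e (ω, ω') ∈ S.A e ∪ pvl5N S P q e from Or.inr h2)]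
        rfl
      unfold pvtkE
      simp only [hN, lintegral_one, measure_univ]
      exact h1 e
    · refine (not_lt.1 hlt).trans ?_
      exact lintegral_mono fun ω' => indicator_le_indicator_of_subset subset_union_left (fun _ => zero_le) _

theorem pvl5_md_E (h : S.WF P) {e : ι} {ω : Ω} (hω : ω ∉ pvl5N S P q e) :
    pvtkE P (S.RL e) ((S.A e ∪ pvl5N S P q e).indicator 1) ω = pvtkE P (S.RL e) ((S.A e).indicator 1) ω := by
  refine lintegral_congr fun ω' => ?_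
  have e1 : (S.RL e (ω, ω') ∈ pvl5N S P q e) = (ω ∈ pvl5N S P q e) := pvl5_N_own h e ω ω'
  exact pvl5_ind_off (e1 ▸ hω)

theorem pvl5_md_w (h : S.WF P) {e : ι} {ω : Ω} (hω : ω ∉ pvl5N S P q e) : (pvl5Md S P q).w P e ω = S.w P e ω := by
  show (S.A e ∪ pvl5N S P q e).indicator 1 ω / pvtkE P (S.RL e) ((S.A e ∪ pvl5N S P q e).indicator 1) ω = (S.A e).indicator 1 ω / pvtkE P (S.RL e) ((S.A e).indicator 1) ω
  rw [pvl5_md_E h hω, pvl5_ind_off hω]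

theorem pvl5_md_w2 (h : S.WF P) {e : ι} {ω : Ω} (hω : ω ∉ pvl5N S P q e) : (pvl5Md S P q).w2 P e ω = S.w2 P e ω := by
  show (∏ u ∈ S.adj e, S.g P u ω) * (pvl5Md S P q).w P e ω = (∏ u ∈ S.adj e, S.g P u ω) * S.w P e ω
  rw [pvl5_md_w h hω]

theorem pvl5_md_Ev {ω : Ω} (hω : ∀ e, ω ∉ pvl5N S P q e) : (ω ∈ (pvl5Md S P q).Ev) = (ω ∈ S.Ev) := by
  show ((∀ u, ω ∈ S.G u) ∧ ∀ e, ω ∈ S.A e ∪ pvl5N S P q e) = ((∀ u, ω ∈ S.G u) ∧ ∀ e, ω ∈ S.A e)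
  congr 1
  exact propext (forall_congr' fun e => ⟨fun hh => hh.elim id fun hn => absurd hn (hω e), Or.inl⟩)

theorem pvl5_N_ae [Countable ι] (hF : Pvl5FrcK S P q) : ∀ᵐ ω ∂P, ∀ e, ω ∉ pvl5N S P q e :=
  ae_all_iff.2 fun e => (hF.frc e).mono fun _ hω hN => absurd (hω hN.1) (not_le.2 hN.2)

variable [Fintype υ] [Fintype ι]

theorem pvl5_md_Wt (h : S.WF P) {ω : Ω} (hω : ∀ e, ω ∉ pvl5N S P q e) : (pvl5Md S P q).Wt P ω = S.Wt P ω := by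
  show (∏ u, S.g P u ω) * ∏ e, (pvl5Md S P q).w P e ω = (∏ u, S.g P u ω) * ∏ e, S.w P e ω
  rw [Finset.prod_congr rfl fun e _ => pvl5_md_w h (hω e)]

theorem pvl5_md_Wt_ae (h : S.WF P) (hF : Pvl5FrcK S P q) : (pvl5Md S P q).Wt P =ᵐ[P] S.Wt P := (pvl5_N_ae hF).mono fun _ hω => pvl5_md_Wt h hω

theorem pvl5_md_w2_ae (h : S.WF P) (hF : Pvl5FrcK S P q) (e : ι) : (pvl5Md S P q).w2 P e =ᵐ[P] S.w2 P e := (pvl5_N_ae hF).mono fun _ hω => pvl5_md_w2 h (hω e)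

variable [DecidableEq υ] [DecidableEq ι]

/-- the constants of an almost surely forced system are `≤ 1` -/
theorem pvl5_q_le_one [IsProbabilityMeasure P] (h : S.WF P) (hF : Pvl5FrcK S P q) (e : ι) : q e ≤ 1 := by
  by_contra hlt
  have hF' : Pvl5FrcK S P fun e => min (q e) 1 :=
    pvl5_frcK_anti hF (fun e => (lt_min (pos_iff_ne_zero.2 (hF.q0 e)) one_pos).ne') fun e => min_le_left _ _
  have hm := pvtk_mass (pvl5_md_wf h) (pvl5_md_forced h hF' fun e => min_le_right _ _)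
  have h0 : (pvl5Md S P fun e => min (q e) 1).Wt P =ᵐ[P] 0 := by
    refine (hF.frc e).mono fun ω hω => ?_
    have hn : ¬ ∀ u ∈ S.adj e, ω ∈ S.G u := fun hG => hlt ((hω hG).trans (pvtk_E_le_one _ _))
    simp only [not_forall] at hn
    obtain ⟨u, -, hu⟩ := hn
    show (∏ u, S.g P u ω) * _ = 0
    rw [Finset.prod_eq_zero (Finset.mem_univ u) (by unfold PvtkSys.g; rw [indicator_of_notMem hu, ENNReal.zero_div]), zero_mul]
  rw [lintegral_congr_ae h0] at hm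
  simp at hm

theorem pvl5_md_ok [IsProbabilityMeasure P] (h : S.WF P) (hF : Pvl5FrcK S P q) : (pvl5Md S P q).Forced P q := pvl5_md_forced h hF (pvl5_q_le_one h hF)

/-- **TR1 (mass)** -/
theorem pvl5k_mass [IsProbabilityMeasure P] (h : S.WF P) (hF : Pvl5FrcK S P q) : ∫⁻ ω, S.Wt P ω ∂P = 1 := by
  rw [← lintegral_congr_ae (pvl5_md_Wt_ae h hF)]
  exact pvtk_mass (pvl5_md_wf h) (pvl5_md_ok h hF)

theorem pvl5k_prob_Wt [IsProbabilityMeasure P] (h : S.WF P) (hF : Pvl5FrcK S P q) : IsProbabilityMeasure (P.withDensity (S.Wt P)) :=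
  ⟨by rw [withDensity_apply _ MeasurableSet.univ, Measure.restrict_univ]; exact pvl5k_mass h hF⟩

/-- **TR1 (bound)**, almost everywhere -/
theorem pvl5k_Wt_le [IsProbabilityMeasure P] (h : S.WF P) (hF : Pvl5FrcK S P q) : ∀ᵐ ω ∂P, S.Wt P ω ≤ S.D P q * S.Ev.indicator 1 ω := by
  refine (pvl5_N_ae hF).mono fun ω hω => ?_
  have h1 := pvtk_Wt_le (pvl5_md_ok h hF) ω
  rw [pvl5_md_Wt h hω] at h1
  refine h1.trans (le_of_eq ?_)
  show S.D P q * _ = _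
  congr 1
  have e1 := pvl5_md_Ev (S := S) (P := P) (q := q) hω
  by_cases hE : ω ∈ S.Ev
  · rw [indicator_of_mem hE, indicator_of_mem (e1 ▸ hE)]
  · rw [indicator_of_notMem hE, indicator_of_notMem (e1 ▸ hE)]

variable {X : ι → Ω → ℂ}

theorem pvl5_md_fld (hX : PvtkFld S X) : PvtkFld (pvl5Md S P q) X := ⟨hX.meas, hX.ig_L, hX.ig_P⟩

theorem pvl5_md_K (h : S.WF P) (hF : Pvl5FrcK S P q) (e : ι) : pvtkK (pvl5Md S P q) P X e = pvtkK S P X e := by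
  unfold pvtkK
  rw [withDensity_congr_ae (pvl5_md_w2_ae h hF e)]

/-- **TR2** -/
theorem pvl5k_mean [IsProbabilityMeasure P] (h : S.WF P) (hF : Pvl5FrcK S P q) (hX : PvtkFld S X)
    (hi : ∀ e, ∫⁻ ω, ‖X e ω‖ₑ ^ 2 * S.w2 P e ω ∂P ≠ ∞) :
    ∫ ω, ∑ e, X e ω ∂(P.withDensity (S.Wt P)) = ∑ e, pvtkK S P X e := by
  have hm := pvtk_mean (pvl5_md_wf h) (pvl5_md_ok h hF) (pvl5_md_fld hX) (fun e => by
    rw [lintegral_congr_ae ((pvl5_md_w2_ae h hF e).mono fun ω hω => congrArg (‖X e ω‖ₑ ^ 2 * ·) hω)]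
    exact hi e)
  rw [withDensity_congr_ae (pvl5_md_Wt_ae h hF)] at hm
  rw [hm]
  exact Finset.sum_congr rfl fun e _ => pvl5_md_K h hF e

/-- **TR5, chain form** -/
theorem pvl5k_link_sq [IsProbabilityMeasure P] (h : S.WF P) (hF : Pvl5FrcK S P q) (hX : PvtkFld S X) (e : ι) :
    ‖pvtkK S P X e‖ₑ ^ 2 ≤ ∫⁻ ω, ‖X e ω‖ₑ ^ 2 * S.Wt P ω ∂P := by
  have hw := pvl5_md_wf (q := q) h
  have hf := pvl5_md_ok h hF
  have hx := pvl5_md_fld (P := P) (q := q) hX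
  rw [← pvl5_md_K h hF e]
  refine (pvtk_K_sq hw hf hx e).trans (le_of_eq ?_)
  rw [← pvtk_marg_enorm hw hf hx e 2]
  exact lintegral_congr_ae ((pvl5_md_Wt_ae h hF).mono fun ω hω => congrArg (‖X e ω‖ₑ ^ 2 * ·) hω)

end abs

/-! ## 2. hybrid systems: forcing at ALMOST EVERY SEED of the experiment of the link, at ONE base configuration -/

/-- **FORCED AT THE BASE `σ`, ALMOST EVERY SEED**: for almost every seed of the OWN experiment `(Ce e, F e)` of the link `e` whose adjacent plugs are usable, the conditional probability of the link is `≥ q e` -/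
structure Pvl5Frc {υ ι : Type} (S : Pvl3Sys υ ι) (ε : ℝ) (σ : Conf PvPt) (q : ι → ℝ≥0∞) : Prop where
  adm : ∀ u, pvP ε (S.G u) ≠ 0
  q0 : ∀ e, q e ≠ 0
  frc : ∀ e, ∀ᵐ x ∂(pvthSeed ε), (∀ u ∈ S.adj e, pvthR (S.Ce e) (S.F e) σ x ∈ S.G u) →
    q e ≤ pvl3P ε (S.K e) (S.F e) (S.A e) (pvthR (S.Ce e) (S.F e) σ x)

section engine

variable {υ ι : Type} [Fintype υ] [Fintype ι] {S : Pvl3Sys υ ι} {ε : ℝ} {B : Set (Conf PvPt)} {q : ι → ℝ≥0∞} {X : ι → Conf PvPt → ℂ} {σ : Conf PvPt}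

/-- the pointwise forcing of `Tr/Top` is a special case -/
theorem pvl5_frc_of (h : S.WF B) (hF : S.Forced ε B q) (hσ : σ ∈ B) : Pvl5Frc S ε σ q :=
  ⟨hF.adm, hF.q0, fun e => Eventually.of_forall fun x hx => hF.frc e _ (pvl3k_own_B h hσ e x) hx⟩

/-- the same in the WHOLE experiment -/
theorem pvl5_frc_total (h : S.WF B) (hσ : σ ∈ B) (hF : Pvl5Frc S ε σ q) (e : ι) :
    ∀ᵐ x ∂(pvthSeed ε), (∀ u ∈ S.adj e, pvthR S.C S.Fs σ x ∈ S.G u) → q e ≤ pvl3P ε (S.K e) (S.F e) (S.A e) (pvthR S.C S.Fs σ x) :=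
  (hF.frc e).mono fun x hx hG => by
    rw [pvl3k_P_loc h hσ]
    exact hx fun u hu => (pvl3k_G_own h hσ e hu x).2 ((pvl3k_G_iff h hσ u x).1 (hG u hu))

/-- forcing along the WHOLE experiment is enough -/
theorem pvl5_frc_of_total (h : S.WF B) (hσ : σ ∈ B) (adm : ∀ u, pvP ε (S.G u) ≠ 0) (q0 : ∀ e, q e ≠ 0)
    (frc : ∀ e, ∀ᵐ x ∂(pvthSeed ε), (∀ u ∈ S.adj e, pvthR S.C S.Fs σ x ∈ S.G u) → q e ≤ pvl3P ε (S.K e) (S.F e) (S.A e) (pvthR S.C S.Fs σ x)) :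
    Pvl5Frc S ε σ q :=
  ⟨adm, q0, fun e => (frc e).mono fun x hx hG => by
    rw [← pvl3k_P_loc h hσ]
    exact hx fun u hu => (pvl3k_G_iff h hσ u x).2 ((pvl3k_G_own h hσ e hu x).1 (hG u hu))⟩

/-- on the seed space -/
theorem pvl5_frc_K (h : S.WF B) (hσ : σ ∈ B) (hF : Pvl5Frc S ε σ q) : Pvl5FrcK (S.toK σ) (pvthSeed ε) q where
  adm u := by rw [pvl3k_PG h hσ]; exact hF.adm u
  q0 := hF.q0
  frc e := (pvl5_frc_total h hσ hF e).mono fun x hx hG => by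
    rw [pvl3k_E h hσ]
    exact hx hG

theorem pvl5_D (h : S.WF B) (hσ : σ ∈ B) : (S.toK σ).D (pvthSeed ε) q = S.D ε q := by
  unfold PvtkSys.D Pvl3Sys.D
  simp only [pvl3k_PG h hσ]

theorem pvl5_q_le (h : S.WF B) (hσ : σ ∈ B) (hF : Pvl5Frc S ε σ q) (e : ι) : q e ≤ 1 := by
  classical
  exact pvl5_q_le_one (pvl3k_wf (ε := ε) h hσ) (pvl5_frc_K h hσ hF) e

/-- **TR1 (mass)** -/
theorem pvl5_mass (h : S.WF B) (hσ : σ ∈ B) (hF : Pvl5Frc S ε σ q) : ∫⁻ x, S.Wt ε (pvthR S.C S.Fs σ x) ∂(pvthSeed ε) = 1 := by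
  classical
  rw [← pvl5k_mass (pvl3k_wf (ε := ε) h hσ) (pvl5_frc_K h hσ hF)]
  exact lintegral_congr fun x => (pvl3k_Wt h hσ x).symm

/-- **TR1 (bound)**, almost every seed -/
theorem pvl5_Wt_le (h : S.WF B) (hσ : σ ∈ B) (hF : Pvl5Frc S ε σ q) :
    ∀ᵐ x ∂(pvthSeed ε), S.Wt ε (pvthR S.C S.Fs σ x) ≤ S.D ε q * S.Ev.indicator 1 (pvthR S.C S.Fs σ x) := by
  classical
  refine (pvl5k_Wt_le (pvl3k_wf (ε := ε) h hσ) (pvl5_frc_K h hσ hF)).mono fun x hx => ?_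
  rw [pvl3k_Wt h hσ, pvl5_D h hσ] at hx
  exact hx

/-- **TR2** -/
theorem pvl5_mean (h : S.WF B) (hσ : σ ∈ B) (hF : Pvl5Frc S ε σ q) (hX : S.Fld B X)
    (hint : ∀ e, ∫⁻ x, ‖X e (pvthR (S.Ce e) (S.F e) σ x)‖ₑ ^ 2 * S.w2 ε e (pvthR (S.Ce e) (S.F e) σ x) ∂(pvthSeed ε) ≠ ∞) :
    S.hat ε X σ = ∑ e, S.k ε e (X e) σ := by
  classical
  have hm := pvl5k_mean (pvl3k_wf (ε := ε) h hσ) (pvl5_frc_K h hσ hF) (pvl3k_fld h hX hσ) (fun e => by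
    simp only [pvl3k_w2 h hσ, pvl3k_w2_loc h hσ, pvl3k_X_loc h hX hσ]
    exact hint e)
  simp only [pvl3k_k h hX hσ]
  rw [← hm]
  unfold Pvl3Sys.hat pvl3Hat pvtiHat
  simp only [← pvl3k_Wt h hσ]

/-- **TR3 / TR3' (Jensen)** -/
theorem pvl5_jensen (h : S.WF B) (hσ : σ ∈ B) (hF : Pvl5Frc S ε σ q) (hX : S.Fld B X) (c : ℂ) :
    ‖c + S.hat ε X σ‖ₑ ^ 2 ≤ ∫⁻ x, ‖c + ∑ e, X e (pvthR S.C S.Fs σ x)‖ₑ ^ 2 * S.Wt ε (pvthR S.C S.Fs σ x) ∂(pvthSeed ε) := by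
  classical
  have hw := pvl3k_wf (ε := ε) h hσ
  have := pvl5k_prob_Wt hw (pvl5_frc_K h hσ hF)
  have hY : Measurable fun x => ∑ e, X e (pvthR S.C S.Fs σ x) := Finset.measurable_sum _ fun e _ => hX.meas e σ hσ
  unfold Pvl3Sys.hat pvl3Hat pvtiHat
  simp only [← pvl3k_Wt h hσ]
  refine (pvti_jensen _ c hY.aestronglyMeasurable).trans (le_of_eq ?_)
  exact pvtk_lintegral_withDensity (pvtk_Wt_measurable hw) ((measurable_const.add hY).enorm.pow_const 2)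

/-- **TR5, chain form** -/
theorem pvl5_link_sq (h : S.WF B) (hσ : σ ∈ B) (hF : Pvl5Frc S ε σ q) (hX : S.Fld B X) (e : ι) :
    ‖S.k ε e (X e) σ‖ₑ ^ 2 ≤ ∫⁻ x, ‖X e (pvthR S.C S.Fs σ x)‖ₑ ^ 2 * S.Wt ε (pvthR S.C S.Fs σ x) ∂(pvthSeed ε) := by
  classical
  rw [pvl3k_k h hX hσ]
  refine (pvl5k_link_sq (pvl3k_wf (ε := ε) h hσ) (pvl5_frc_K h hσ hF) (pvl3k_fld h hX hσ) e).trans (le_of_eq ?_)
  simp only [pvl3k_Wt h hσ]

/-- weighted mean `≤ D ×` plain mean of a majorant, at ONE base configuration -/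
theorem pvl5_dom_pt (h : S.WF B) (hσ : σ ∈ B) (hF : Pvl5Frc S ε σ q) {T Θ : Conf PvPt → ℝ≥0∞} (hD : S.D ε q ≠ ∞) (hT : ∀ ω ∈ B, ω ∈ S.Ev → T ω ≤ Θ ω) :
    ∫⁻ x, T (pvthR S.C S.Fs σ x) * S.Wt ε (pvthR S.C S.Fs σ x) ∂(pvthSeed ε) ≤ S.D ε q * ∫⁻ x, Θ (pvthR S.C S.Fs σ x) ∂(pvthSeed ε) := by
  rw [← lintegral_const_mul' _ _ hD]
  refine lintegral_mono_ae ((pvl5_Wt_le h hσ hF).mono fun x hW => ?_)
  have hB := pvl3_B_total h hσ x
  by_cases hE : pvthR S.C S.Fs σ x ∈ S.Ev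
  · rw [indicator_of_mem hE, Pi.one_apply, mul_one] at hW
    calc _ ≤ Θ (pvthR S.C S.Fs σ x) * S.D ε q := mul_le_mul' (hT _ hB hE) hW
      _ = _ := mul_comm _ _
  · rw [indicator_of_notMem hE, mul_zero] at hW
    rw [le_zero_iff.1 hW, mul_zero]
    exact zero_le

end engine

/-- **DOMINATION, U-FORM, BASE-INDEXED SYSTEMS, ALMOST SURE FORCING**.      `N` = a null set of configurations off which the model facts hold. -/
theorem pvl5_dom_fam {ε : ℝ} (hε : 0 < ε) {B : Set (Conf PvPt)} {C : Set ℂ} {F frz : Conf PvPt → Finset ℂ} (hS : Pvl3Stop B C F frz)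
    {φ Θ : Conf PvPt → ℝ≥0∞} (hΘ : AEMeasurable Θ (pvP ε)) {D : ℝ≥0∞} (hD : D ≠ ∞) {N : Set (Conf PvPt)} (hN : pvP ε N = 0)
    (hφ : ∀ σ ∈ B, ∃ (υ ι : Type) (_ : Fintype υ) (_ : Fintype ι) (S : Pvl3Sys υ ι) (Bs : Set (Conf PvPt)) (q : ι → ℝ≥0∞) (T : Conf PvPt → ℝ≥0∞),
      S.WF Bs ∧ Pvl5Frc S ε σ q ∧ σ ∈ Bs ∧ S.C = C ∧ S.Fs σ = F σ ∧ S.D ε q ≤ D ∧
      φ σ ≤ ∫⁻ x, T (pvthR S.C S.Fs σ x) * S.Wt ε (pvthR S.C S.Fs σ x) ∂(pvthSeed ε) ∧ ∀ ω ∈ Bs, ω ∈ S.Ev → ω ∉ N → T ω ≤ Θ ω) :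
    (pvl3U0 ε).E (fun o => B.indicator φ (pvl3Cf o)) ≤ D * ∫⁻ ω, Θ ω ∂(pvP ε) := by
  set N' : Set (Conf PvPt) := toMeasurable (pvP ε) (N ∪ {ω | ¬ (Θ ω = hΘ.mk Θ ω)}) with hN'
  have hN0 : pvP ε N' = 0 := by
    rw [hN', measure_toMeasurable]
    exact measure_union_null hN hΘ.ae_eq_mk
  have hNm : MeasurableSet N' := measurableSet_toMeasurable _ _
  have hsub : (N ∪ {ω | ¬ (Θ ω = hΘ.mk Θ ω)}) ⊆ N' := subset_toMeasurable _ _
  set Θ' : Conf PvPt → ℝ≥0∞ := fun ω => hΘ.mk Θ ω + N'.indicator (fun _ => (⊤ : ℝ≥0∞)) ω with hΘ'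
  have hm : Measurable Θ' := hΘ.measurable_mk.add (measurable_const.indicator hNm)
  have hint : ∫⁻ ω, Θ' ω ∂(pvP ε) = ∫⁻ ω, Θ ω ∂(pvP ε) := by
    rw [hΘ', lintegral_add_left hΘ.measurable_mk, lintegral_indicator hNm, setLIntegral_measure_zero _ _ hN0, add_zero]
    exact (lintegral_congr_ae hΘ.ae_eq_mk).symm
  have h1 : ∀ o, B.indicator φ (pvl3Cf o) ≤ D * B.indicator (fun σ => ∫⁻ x, Θ' (pvthR C F σ x) ∂(pvthSeed ε)) (pvl3Cf o) := by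
    intro o
    by_cases ho : pvl3Cf o ∈ B
    · rw [indicator_of_mem ho, indicator_of_mem ho]
      obtain ⟨υ, ι, _, _, S, Bs, q, T, hwf, hfr, hσ, hC, hFs, hDq, hle, hT⟩ := hφ _ ho
      have hT' : ∀ ω ∈ Bs, ω ∈ S.Ev → T ω ≤ Θ' ω := by
        intro ω hB hE
        by_cases hω : ω ∈ N'
        · simp [hΘ', indicator_of_mem hω]
        · have a1 : ω ∉ N := fun hc => hω (hsub (Or.inl hc))
          have a2 : Θ ω = hΘ.mk Θ ω := by
            by_contra hc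
            exact hω (hsub (Or.inr hc))
          simp only [hΘ', indicator_of_notMem hω, add_zero, ← a2]
          exact hT ω hB hE a1
      have h2 := pvl5_dom_pt hwf hσ hfr (ne_top_of_le_ne_top hD hDq) hT'
      have e : ∀ x, pvthR S.C S.Fs (pvl3Cf o) x = pvthR C F (pvl3Cf o) x := by
        intro x
        unfold pvthR
        rw [hC, hFs]
      simp only [e] at h2 hle
      exact hle.trans (h2.trans (by gcongr))
    · rw [indicator_of_notMem ho, indicator_of_notMem ho, mul_zero]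
  calc _ ≤ (pvl3U0 ε).E (fun o => D * B.indicator (fun σ => ∫⁻ x, Θ' (pvthR C F σ x) ∂(pvthSeed ε)) (pvl3Cf o)) := (pvl3U0 ε).mono h1
    _ ≤ D * (pvl3U0 ε).E (fun o => B.indicator (fun σ => ∫⁻ x, Θ' (pvthR C F σ x) ∂(pvthSeed ε)) (pvl3Cf o)) := (pvl3U0 ε).smul_le _ _ hD
    _ ≤ D * ∫⁻ ω, Θ' ω ∂(pvP ε) := by gcongr; exact pvl3_inv_up hε hS hm
    _ = _ := by rw [hint]

/-! ## 3. TR2 + TR25 with almost sure forcing -/

section tr2

variable {τ : Type} {δ : ℕ → ℝ} (E : Pvl3Exp τ δ)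

/-- **TR25 FOR A PATTERN**: the sum of the link means (no forcing is needed) -/
theorem pvl5_sum_pat {m : ℕ} {ε : ℝ} (a : ℂ) {π : PvtsPat τ} (hπ : (E.Γ m).Ok π) {B : Set (Conf PvPt)}
    (hk : (E.cells.kit m ε).WF) (hQ : (E.cells.kit m ε).Fld (E.cells.XQ m ε)) (hV : (E.cells.kit m ε).Fld (E.cells.XV m ε))
    (h : (E.patSys m ε π).WF B) (σ : Conf PvPt) :
    ∑ e, (E.patSys m ε π).k ε e (E.patX m ε a π e) σ = E.kout m ε a π.zt π.tt σ + pvtSum (E.W m ε a) ((E.Γ m).dout π.tt) π.l + E.kin m ε a π.zs π.ts σ := by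
  classical
  have hd1 : ‖(E.Γ m).dout π.tt‖ = 1 := (E.Γ m).dout1 π.tt
  have hX0 : (E.cells.kit m ε).Fld (E.X₀ m ε a) :=
    ⟨fun τ => (hQ.meas τ).sub ((hV.meas τ).const_mul a), fun τ => (hQ.reads τ).map₂ (hV.reads τ) (fun x y => x - a * y)⟩
  have hδ : (((E.cells.kit m ε).δ : ℝ) : ℂ) = (((E.Γ m).δ : ℝ) : ℂ) := by rw [E.cells.kδ, E.Γδ]
  rw [Fin.sum_univ_succ, Fin.sum_univ_castSucc]
  -- the exit link
  have e0 : (E.patSys m ε π).k ε 0 (E.patX m ε a π 0) σ = E.kout m ε a π.zt π.tt σ := by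
    have hadj : (E.patSys m ε π).adj 0 = {0} := by
      ext u
      rw [Finset.mem_singleton, Fin.ext_iff]
      show u ∈ Finset.univ.filter (fun u : Fin (π.l.length + 1) => u.val + 1 = (0 : Fin (π.l.length + 2)).val ∨ u.val = (0 : Fin (π.l.length + 2)).val) ↔ _
      rw [Finset.mem_filter]
      simp only [Finset.mem_univ, true_and, Fin.val_zero]
      omega
    rw [pvl3_aux_end ε 0 hadj]
    simp only [Pvl3Exp.patSys, Pvl3Exp.patX, Pvl3Exp.kout, Fin.val_zero, if_true, pvthx_Z_zero, pvthx_D_zero]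
  -- the entrance link
  have e1 : (E.patSys m ε π).k ε (Fin.last π.l.length).succ (E.patX m ε a π (Fin.last π.l.length).succ) σ = E.kin m ε a π.zs π.ts σ := by
    have hadj : (E.patSys m ε π).adj (Fin.last π.l.length).succ = {Fin.last π.l.length} := by
      ext u
      have := u.isLt
      simp only [Pvl3Exp.patSys, Finset.mem_filter, Finset.mem_univ, true_and, Fin.val_succ, Fin.val_last, Finset.mem_singleton, Fin.ext_iff]
      omega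
    have hZ : pvthZ (E.cells.kit m ε).δ (π.zt + (E.Γ m).pout π.tt) ((E.Γ m).dout π.tt) π.l π.l.length = π.zs + (E.Γ m).pin π.ts := by
      unfold pvthZ
      rw [List.take_length, hδ, hπ.1]
      ring
    have hD : pvthD ((E.Γ m).dout π.tt) π.l π.l.length = (E.Γ m).din π.ts := by
      unfold pvthD
      rw [List.take_length, hπ.2]
    rw [pvl3_aux_end ε _ hadj]
    have n1 : ¬ (π.l.length + 1 = 0) := by omega
    have n2 : ¬ (π.l.length + 1 ≤ π.l.length) := by omega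
    simp only [Pvl3Exp.patSys, Pvl3Exp.patX, Pvl3Exp.kin, Fin.val_succ, Fin.val_last, if_neg n1, if_neg n2, hZ, hD]
  -- the cells
  have e2 : ∀ i : Fin π.l.length, (E.patSys m ε π).k ε i.castSucc.succ (E.patX m ε a π i.castSucc.succ) σ =
      pvthD ((E.Γ m).dout π.tt) π.l i * (E.cells.kit m ε).k (pvP ε) (E.X₀ m ε a) (pvthL π.l i) := by
    intro i
    have hi := i.isLt
    have n1 : ¬ ((i : ℕ) + 1 = 0) := by omega
    have n2 : (i : ℕ) + 1 ≤ π.l.length := by omega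
    have hadj : (E.patSys m ε π).adj i.castSucc.succ = {i.castSucc, i.succ} := by
      ext u
      simp only [Pvl3Exp.patSys, Finset.mem_filter, Finset.mem_univ, true_and, Fin.val_succ, Fin.val_castSucc, Finset.mem_insert, Finset.mem_singleton, Fin.ext_iff]
      omega
    have huu : i.castSucc ≠ i.succ := by
      intro hh
      have := congrArg Fin.val hh
      simp at this
    have hXe : E.patX m ε a π i.castSucc.succ = pvthX (E.X₀ m ε a) (pvthZ (E.cells.kit m ε).δ (π.zt + (E.Γ m).pout π.tt) ((E.Γ m).dout π.tt) π.l i)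
        (pvthD ((E.Γ m).dout π.tt) π.l i) (pvthL π.l i) := by
      simp only [Pvl3Exp.patX, Fin.val_succ, Fin.val_castSucc, if_neg n1, if_pos n2, Nat.add_sub_cancel, PvthKit.Xj]
    rw [hXe]
    refine pvl3_aux_cell h hk hX0 i.castSucc.succ huu hadj _ (pvl3_aux_norm_D hd1 π.l i) _ ?_ ?_ ?_ ?_ ?_ ?_ ?_ σ
    · simp only [Pvl3Exp.patSys, Fin.val_succ, Fin.val_castSucc, if_neg n1, if_pos n2]
    · simp only [Pvl3Exp.patSys, Fin.val_succ, Fin.val_castSucc, if_neg n1, if_pos n2, Nat.add_sub_cancel]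
    · simp only [Pvl3Exp.patSys, Fin.val_succ, Fin.val_castSucc, if_neg n1, if_pos n2, Nat.add_sub_cancel]
    · simp only [Pvl3Exp.patSys, Fin.val_castSucc]
    · simp only [Pvl3Exp.patSys, Fin.val_succ, pvthx_Z_succ _ _ _ _ hi, pvthx_D_succ _ _ hi]
    · simp only [Pvl3Exp.patSys, Fin.val_castSucc]
    · simp only [Pvl3Exp.patSys, Fin.val_succ, pvthx_Z_succ _ _ _ _ hi, pvthx_D_succ _ _ hi]
  rw [e0, e1, Finset.sum_congr rfl fun i _ => e2 i,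
    Fin.sum_univ_eq_sum_range (fun j => pvthD ((E.Γ m).dout π.tt) π.l j * (E.cells.kit m ε).k (pvP ε) (E.X₀ m ε a) (pvthL π.l j)) π.l.length, pvl3_aux_sum]
  rw [add_assoc]
  rfl

/-- **TR2 + TR25 FOR A PATTERN**, almost sure forcing at the base `σ` -/
theorem pvl5_tr2_pat {m : ℕ} {ε : ℝ} (a : ℂ) {π : PvtsPat τ} (hπ : (E.Γ m).Ok π) {B : Set (Conf PvPt)} {q : Fin (π.l.length + 2) → ℝ≥0∞}
    (hk : (E.cells.kit m ε).WF) (hQ : (E.cells.kit m ε).Fld (E.cells.XQ m ε)) (hV : (E.cells.kit m ε).Fld (E.cells.XV m ε))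
    (h : (E.patSys m ε π).WF B) {σ : Conf PvPt} (hσ : σ ∈ B) (hF : Pvl5Frc (E.patSys m ε π) ε σ q) (hX : (E.patSys m ε π).Fld B (E.patX m ε a π))
    (hint : ∀ e, ∫⁻ x, ‖E.patX m ε a π e (pvthR ((E.patSys m ε π).Ce e) ((E.patSys m ε π).F e) σ x)‖ₑ ^ 2 *
      (E.patSys m ε π).w2 ε e (pvthR ((E.patSys m ε π).Ce e) ((E.patSys m ε π).F e) σ x) ∂(pvthSeed ε) ≠ ∞) :
    E.patHat m ε a π σ = E.kout m ε a π.zt π.tt σ + pvtSum (E.W m ε a) ((E.Γ m).dout π.tt) π.l + E.kin m ε a π.zs π.ts σ := by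
  unfold Pvl3Exp.patHat
  rw [pvl5_mean h hσ hF hX hint]
  exact pvl5_sum_pat E a hπ hk hQ hV h σ

/-- **TR25 FOR THE `Σ₁` CYCLE**: the sum of the link means (no forcing is needed) -/
theorem pvl5_sum_cyc {m : ℕ} {ε : ℝ} (a z : ℂ) (t : τ) {B : Set (Conf PvPt)}
    (hk : (E.cells.kit m ε).WF) (hQ : (E.cells.kit m ε).Fld (E.cells.XQ m ε)) (hV : (E.cells.kit m ε).Fld (E.cells.XV m ε))
    (rA : Conf.Reads ((E.Kr m ε ∪ pvl3Door (E.cells.kit m ε) (E.Γ m).pin0 (E.Γ m).din0 ∪ E.Ou m ε) ×ˢ (univ : Set Bool)) (fun η => η ∈ E.Ar m ε))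
    (rX : Conf.Reads ((E.Kr m ε ∪ pvl3Door (E.cells.kit m ε) (E.Γ m).pin0 (E.Γ m).din0 ∪ E.Ou m ε) ×ˢ (univ : Set Bool)) (E.Xr m ε a))
    (mAr : MeasurableSet (E.Ar m ε)) (mXr : Measurable (E.Xr m ε a)) (h : (E.cycSys m ε z t).WF B) (σ : Conf PvPt) :
    ∑ e, (E.cycSys m ε z t).k ε e (E.cycX m ε a z t e) σ =
      E.kout m ε a z t σ + pvtSum (E.W m ε a) ((E.Γ m).dout t) ((E.Γ m).l1 t) + E.kin0 m ε a + E.ke m ε a z t σ := by
  classical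
  have hd : ‖(E.Γ m).dout t‖ = 1 := (E.Γ m).dout1 t
  have hX₀ : (E.cells.kit m ε).Fld (E.X₀ m ε a) := pvcn_fld hQ hV a
  have hmem : ∀ e u, u ∈ (E.cycSys m ε z t).adj e ↔ (u.val + 1 = e.val ∨ u.val = e.val) := by
    intro e u
    show u ∈ Finset.univ.filter _ ↔ _
    simp
  rw [Fin.sum_univ_succ, Fin.sum_univ_castSucc, Fin.sum_univ_castSucc]
  -- the exit link
  have k0 : (E.cycSys m ε z t).k ε 0 (E.cycX m ε a z t 0) σ = E.kout m ε a z t σ := by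
    have hadj : (E.cycSys m ε z t).adj 0 = {0} := by
      ext u
      simp only [hmem, Finset.mem_singleton, Fin.ext_iff, Fin.val_zero]
      omega
    rw [pvl3_aux_end ε 0 hadj]
    unfold Pvl3Exp.kout
    simp only [Pvl3Exp.cycSys, Pvl3Exp.cycX, Fin.val_zero, if_true, Nat.zero_le, pvthx_Z_zero, pvthx_D_zero]
  -- the thick link
  have k3 : (E.cycSys m ε z t).k ε (Fin.last (((E.Γ m).l1 t).length + 1)).succ (E.cycX m ε a z t (Fin.last (((E.Γ m).l1 t).length + 1)).succ) σ = E.ke m ε a z t σ := by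
    have hadj : (E.cycSys m ε z t).adj (Fin.last (((E.Γ m).l1 t).length + 1)).succ = {Fin.last (((E.Γ m).l1 t).length + 1)} := by
      ext u
      have := u.2
      rw [hmem, Finset.mem_singleton, Fin.ext_iff, Fin.val_succ, Fin.val_last]
      omega
    rw [pvl3_aux_end ε _ hadj]
    unfold Pvl3Exp.ke
    have c1 : ¬ (((E.Γ m).l1 t).length + 1 + 1 = 0) := by omega
    have c2 : ¬ (((E.Γ m).l1 t).length + 1 + 1 ≤ ((E.Γ m).l1 t).length) := by omega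
    have c3 : ¬ (((E.Γ m).l1 t).length + 1 + 1 = ((E.Γ m).l1 t).length + 1) := by omega
    have c4 : ¬ (((E.Γ m).l1 t).length + 1 + 1 ≤ ((E.Γ m).l1 t).length + 1) := by omega
    have c5 : ¬ (((E.Γ m).l1 t).length + 1 ≤ ((E.Γ m).l1 t).length) := by omega
    simp only [Pvl3Exp.cycSys, Pvl3Exp.cycX, Fin.val_succ, Fin.val_last, if_neg c1, if_neg c2, if_neg c3, if_neg c4, if_neg c5]
  -- the thin link to the reference plug
  have k2 : (E.cycSys m ε z t).k ε (Fin.last ((E.Γ m).l1 t).length).castSucc.succ (E.cycX m ε a z t (Fin.last ((E.Γ m).l1 t).length).castSucc.succ) σ = E.kin0 m ε a := by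
    have hadj : (E.cycSys m ε z t).adj (Fin.last ((E.Γ m).l1 t).length).castSucc.succ = {(Fin.last ((E.Γ m).l1 t).length).castSucc, Fin.last (((E.Γ m).l1 t).length + 1)} := by
      ext u
      have := u.2
      simp only [hmem, Finset.mem_insert, Finset.mem_singleton, Fin.ext_iff, Fin.val_succ, Fin.val_castSucc, Fin.val_last]
      omega
    have huu : (Fin.last ((E.Γ m).l1 t).length).castSucc ≠ Fin.last (((E.Γ m).l1 t).length + 1) := by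
      simp [Fin.ext_iff]
    have hZ : pvthZ (E.cells.kit m ε).δ (z + (E.Γ m).pout t) ((E.Γ m).dout t) ((E.Γ m).l1 t) ((E.Γ m).l1 t).length = (z + (E.Γ m).zu t) + 1 * (E.Γ m).pin0 := by
      unfold pvthZ
      rw [List.take_length, E.cells.kδ, ← E.Γδ, (E.Γ m).l1_disp]
      ring
    have hDn : pvthD ((E.Γ m).dout t) ((E.Γ m).l1 t) ((E.Γ m).l1 t).length = 1 * (E.Γ m).din0 := by
      unfold pvthD
      rw [List.take_length, (E.Γ m).l1_dir, one_mul]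
    have c1 : ¬ (((E.Γ m).l1 t).length + 1 = 0) := by omega
    have c2 : ¬ (((E.Γ m).l1 t).length + 1 ≤ ((E.Γ m).l1 t).length) := by omega
    have hXe : E.cycX m ε a z t (Fin.last ((E.Γ m).l1 t).length).castSucc.succ = fun ω => E.Xr m ε a (cfMap (pvthInv (z + (E.Γ m).zu t) 1) ω) := by
      simp only [Pvl3Exp.cycX, Fin.val_succ, Fin.val_castSucc, Fin.val_last, if_neg c1, if_neg c2, if_true]
    rw [hXe]
    unfold Pvl3Exp.kin0
    refine pvl3_aux_ref h _ huu hadj (z + (E.Γ m).zu t) mAr mXr rA rX ?_ ?_ ?_ ?_ ?_ ?_ ?_ σ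
    · simp only [Pvl3Exp.cycSys, Fin.val_succ, Fin.val_castSucc, Fin.val_last, if_neg c1, le_refl, if_true]
    · simp only [Pvl3Exp.cycSys, Fin.val_succ, Fin.val_castSucc, Fin.val_last, if_neg c1, if_neg c2, if_true]
    · simp only [Pvl3Exp.cycSys, Fin.val_succ, Fin.val_castSucc, Fin.val_last, if_neg c1, if_neg c2, if_true]
    · simp only [Pvl3Exp.cycSys, Fin.val_castSucc, Fin.val_last, le_refl, if_true, hZ, hDn]
      unfold pvl3Door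
      rw [image_image]
      refine image_congr fun w _ => ?_
      unfold pvthSim
      ring
    · simp only [Pvl3Exp.cycSys, Fin.val_last, if_neg c2]
    · simp only [Pvl3Exp.cycSys, Fin.val_castSucc, Fin.val_last, le_refl, if_true, hZ, hDn]
      exact pvth_G_comp _ _ 1 _ _ one_ne_zero
    · simp only [Pvl3Exp.cycSys, Fin.val_last, if_neg c2]
  -- the cells
  have k1 : ∀ i : Fin ((E.Γ m).l1 t).length, (E.cycSys m ε z t).k ε i.castSucc.castSucc.succ (E.cycX m ε a z t i.castSucc.castSucc.succ) σ =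
      pvthD ((E.Γ m).dout t) ((E.Γ m).l1 t) i * (E.cells.kit m ε).k (pvP ε) (E.X₀ m ε a) (pvthL ((E.Γ m).l1 t) i) := by
    intro i
    have hi := i.2
    have hadj : (E.cycSys m ε z t).adj i.castSucc.castSucc.succ = {i.castSucc.castSucc, i.succ.castSucc} := by
      ext u
      have := u.2
      simp only [hmem, Finset.mem_insert, Finset.mem_singleton, Fin.ext_iff, Fin.val_succ, Fin.val_castSucc]
      omega
    have huu : i.castSucc.castSucc ≠ i.succ.castSucc := by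
      simp [Fin.ext_iff]
    have c1 : ¬ ((i : ℕ) + 1 = 0) := by omega
    have c2 : (i : ℕ) + 1 ≤ ((E.Γ m).l1 t).length := by omega
    have c3 : (i : ℕ) + 1 ≤ ((E.Γ m).l1 t).length + 1 := by omega
    have c4 : (i : ℕ) ≤ ((E.Γ m).l1 t).length := by omega
    have hXe : E.cycX m ε a z t i.castSucc.castSucc.succ = pvthX (E.X₀ m ε a) (pvthZ (E.cells.kit m ε).δ (z + (E.Γ m).pout t) ((E.Γ m).dout t) ((E.Γ m).l1 t) i)
        (pvthD ((E.Γ m).dout t) ((E.Γ m).l1 t) i) (pvthL ((E.Γ m).l1 t) i) := by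
      simp only [Pvl3Exp.cycX, Fin.val_succ, Fin.val_castSucc, if_neg c1, if_pos c2, Nat.add_sub_cancel]
      rfl
    rw [hXe]
    refine pvl3_aux_cell h hk hX₀ _ huu hadj _ (pvl3_aux_norm_D hd _ _) _ ?_ ?_ ?_ ?_ ?_ ?_ ?_ σ
    · simp only [Pvl3Exp.cycSys, Fin.val_succ, Fin.val_castSucc, if_neg c1, if_pos c3]
    · simp only [Pvl3Exp.cycSys, Fin.val_succ, Fin.val_castSucc, if_neg c1, if_pos c2, Nat.add_sub_cancel]
    · simp only [Pvl3Exp.cycSys, Fin.val_succ, Fin.val_castSucc, if_neg c1, if_pos c2, Nat.add_sub_cancel]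
    · simp only [Pvl3Exp.cycSys, Fin.val_castSucc, if_pos c4]
    · simp only [Pvl3Exp.cycSys, Fin.val_succ, Fin.val_castSucc, if_pos c2, pvthx_Z_succ _ _ _ _ hi, pvthx_D_succ _ _ hi]
    · simp only [Pvl3Exp.cycSys, Fin.val_castSucc, if_pos c4]
    · simp only [Pvl3Exp.cycSys, Fin.val_succ, Fin.val_castSucc, if_pos c2, pvthx_Z_succ _ _ _ _ hi, pvthx_D_succ _ _ hi]
  rw [k0, k2, k3, Finset.sum_congr rfl (fun i _ => k1 i),
    Fin.sum_univ_eq_sum_range (fun j => pvthD ((E.Γ m).dout t) ((E.Γ m).l1 t) j * (E.cells.kit m ε).k (pvP ε) (E.X₀ m ε a) (pvthL ((E.Γ m).l1 t) j)) ((E.Γ m).l1 t).length,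
    pvl3_aux_sum]
  unfold Pvl3Exp.W Pvl3Cells.W Pvl3Exp.X₀
  ring

/-- **TR2 + TR25 FOR THE `Σ₁` CYCLE**, almost sure forcing at the base `σ` -/
theorem pvl5_tr2_cyc {m : ℕ} {ε : ℝ} (a z : ℂ) (t : τ) {B : Set (Conf PvPt)} {q : Fin (((E.Γ m).l1 t).length + 3) → ℝ≥0∞}
    (hk : (E.cells.kit m ε).WF) (hQ : (E.cells.kit m ε).Fld (E.cells.XQ m ε)) (hV : (E.cells.kit m ε).Fld (E.cells.XV m ε))
    (rA : Conf.Reads ((E.Kr m ε ∪ pvl3Door (E.cells.kit m ε) (E.Γ m).pin0 (E.Γ m).din0 ∪ E.Ou m ε) ×ˢ (univ : Set Bool)) (fun η => η ∈ E.Ar m ε))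
    (rX : Conf.Reads ((E.Kr m ε ∪ pvl3Door (E.cells.kit m ε) (E.Γ m).pin0 (E.Γ m).din0 ∪ E.Ou m ε) ×ˢ (univ : Set Bool)) (E.Xr m ε a))
    (mAr : MeasurableSet (E.Ar m ε)) (mXr : Measurable (E.Xr m ε a))
    (h : (E.cycSys m ε z t).WF B) {σ : Conf PvPt} (hσ : σ ∈ B) (hF : Pvl5Frc (E.cycSys m ε z t) ε σ q) (hX : (E.cycSys m ε z t).Fld B (E.cycX m ε a z t))
    (hint : ∀ e, ∫⁻ x, ‖E.cycX m ε a z t e (pvthR ((E.cycSys m ε z t).Ce e) ((E.cycSys m ε z t).F e) σ x)‖ₑ ^ 2 *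
      (E.cycSys m ε z t).w2 ε e (pvthR ((E.cycSys m ε z t).Ce e) ((E.cycSys m ε z t).F e) σ x) ∂(pvthSeed ε) ≠ ∞) :
    E.cycHat m ε a z t σ = E.kout m ε a z t σ + pvtSum (E.W m ε a) ((E.Γ m).dout t) ((E.Γ m).l1 t) + E.kin0 m ε a + E.ke m ε a z t σ := by
  unfold Pvl3Exp.cycHat
  rw [pvl5_mean h hσ hF hX hint]
  exact pvl5_sum_cyc E a z t hk hQ hV rA rX mAr mXr h σ

end tr2

/-! ## 4. the fields `cyc1`, `thick`, U-form, base-indexed, ALMOST SURE FORCING -/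

section fam

variable {τ : Type} {δ : ℕ → ℝ} (E : Pvl3Exp τ δ) (L : Pvl3Lk τ)

/-- `Pvl3CycOkF` of `Tr/Top` with the field `frc` at ALMOST EVERY SEED of the own experiment of each link, at the base `σ` itself      (all the other fields verbatim) -/
structure Pvl5CycOkF (a : ℂ) (m : ℕ) (ε : ℝ) (z : ℂ) (t : τ) (B : Set (Conf PvPt)) (Bs : Conf PvPt → Set (Conf PvPt)) (C : Set ℂ)
    (frz : Conf PvPt → Finset ℂ) (Θ : Conf PvPt → ℝ≥0∞) (D : ℝ≥0∞) : Prop where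
  hk : (E.cells.kit m ε).WF
  hQ : (E.cells.kit m ε).Fld (E.cells.XQ m ε)
  hV : (E.cells.kit m ε).Fld (E.cells.XV m ε)
  rA : Conf.Reads ((E.Kr m ε ∪ pvl3Door (E.cells.kit m ε) (E.Γ m).pin0 (E.Γ m).din0 ∪ E.Ou m ε) ×ˢ (univ : Set Bool)) (fun η => η ∈ E.Ar m ε)
  rX : Conf.Reads ((E.Kr m ε ∪ pvl3Door (E.cells.kit m ε) (E.Γ m).pin0 (E.Γ m).din0 ∪ E.Ou m ε) ×ˢ (univ : Set Bool)) (E.Xr m ε a)
  mAr : MeasurableSet (E.Ar m ε)
  mXr : Measurable (E.Xr m ε a)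
  mem : ∀ σ ∈ B, σ ∈ Bs σ
  reg : ∀ σ ∈ B, ((E.on L σ).cycSys m ε z t).C = C
  wf : ∀ σ ∈ B, ((E.on L σ).cycSys m ε z t).WF (Bs σ)
  /-- ALMOST EVERY SEED -/
  frc : ∀ σ ∈ B, ∃ q, Pvl5Frc ((E.on L σ).cycSys m ε z t) ε σ q ∧ ((E.on L σ).cycSys m ε z t).D ε q ≤ D
  fld : ∀ σ ∈ B, ((E.on L σ).cycSys m ε z t).Fld (Bs σ) ((E.on L σ).cycX m ε a z t)
  hint : ∀ σ ∈ B, ∀ e, ∫⁻ x, ‖(E.on L σ).cycX m ε a z t e (pvthR (((E.on L σ).cycSys m ε z t).Ce e) (((E.on L σ).cycSys m ε z t).F e) σ x)‖ₑ ^ 2 *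
      ((E.on L σ).cycSys m ε z t).w2 ε e (pvthR (((E.on L σ).cycSys m ε z t).Ce e) (((E.on L σ).cycSys m ε z t).F e) σ x) ∂(pvthSeed ε) ≠ ∞
  stop : Pvl3Stop B C (fun σ => ((E.on L σ).cycSys m ε z t).Fs σ) frz
  mΘ : AEMeasurable Θ (pvP ε)
  dom : ∀ᵐ ω ∂(pvP ε), ∀ σ ∈ B, ω ∈ Bs σ → ω ∈ ((E.on L σ).cycSys m ε z t).Ev → ‖∑ e, (E.on L σ).cycX m ε a z t e ω‖ₑ ^ 2 ≤ Θ ω

variable {E L}

/-- the record of `Tr/Top` is a special case -/
theorem pvl5_cycOk_of {a : ℂ} {m : ℕ} {ε : ℝ} {z : ℂ} {t : τ} {B : Set (Conf PvPt)} {Bs : Conf PvPt → Set (Conf PvPt)} {C : Set ℂ}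
    {frz : Conf PvPt → Finset ℂ} {Θ : Conf PvPt → ℝ≥0∞} {D : ℝ≥0∞} (H : Pvl3CycOkF E L a m ε z t B Bs C frz Θ D) : Pvl5CycOkF E L a m ε z t B Bs C frz Θ D where
  hk := H.hk
  hQ := H.hQ
  hV := H.hV
  rA := H.rA
  rX := H.rX
  mAr := H.mAr
  mXr := H.mXr
  mem := H.mem
  reg := H.reg
  wf := H.wf
  frc σ hσ := by
    obtain ⟨q, hq, hD⟩ := H.frc σ hσ
    exact ⟨q, pvl5_frc_of (H.wf σ hσ) hq (H.mem σ hσ), hD⟩
  fld := H.fld
  hint := H.hint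
  stop := H.stop
  mΘ := H.mΘ
  dom := H.dom

variable (E L)

theorem pvl5_cyc_le_fam {a : ℂ} {m : ℕ} {ε : ℝ} (hε : 0 < ε) {z : ℂ} {t : τ} {B : Set (Conf PvPt)} {Bs : Conf PvPt → Set (Conf PvPt)} {C : Set ℂ}
    {frz : Conf PvPt → Finset ℂ} {Θ : Conf PvPt → ℝ≥0∞} {D : ℝ≥0∞} (hD : D ≠ ∞) (H : Pvl5CycOkF E L a m ε z t B Bs C frz Θ D) :
    (pvl3U0 ε).E ((pvl3Cf ⁻¹' B).indicator fun o =>
      ‖E.koutD L m ε a z t (pvl3Cf o) + pvtSum (E.W m ε a) ((E.Γ m).dout t) ((E.Γ m).l1 t) + E.kin0 m ε a + E.keD L m ε a z t (pvl3Cf o)‖ₑ ^ 2)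
      ≤ D * ∫⁻ ω, Θ ω ∂(pvP ε) := by
  have h1 := pvl5_dom_fam hε H.stop (φ := fun σ => ‖(E.on L σ).cycHat m ε a z t σ‖ₑ ^ 2) H.mΘ hD (N := {ω | ¬ ∀ σ ∈ B, ω ∈ Bs σ →
      ω ∈ ((E.on L σ).cycSys m ε z t).Ev → ‖∑ e, (E.on L σ).cycX m ε a z t e ω‖ₑ ^ 2 ≤ Θ ω}) H.dom
    (fun σ hσ => by
      obtain ⟨q, hq, hqD⟩ := H.frc σ hσ
      refine ⟨_, _, inferInstance, inferInstance, (E.on L σ).cycSys m ε z t, Bs σ, q, fun ω => ‖∑ e, (E.on L σ).cycX m ε a z t e ω‖ₑ ^ 2,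
        H.wf σ hσ, hq, H.mem σ hσ, H.reg σ hσ, rfl, hqD, ?_, ?_⟩
      · have := pvl5_jensen (H.wf σ hσ) (H.mem σ hσ) hq (H.fld σ hσ) 0
        simpa [Pvl3Exp.cycHat] using this
      · intro ω hB hE hN
        exact (not_not.1 hN) σ hσ hB hE)
  refine le_trans ((pvl3U0 ε).mono fun o => ?_) h1
  by_cases ho : pvl3Cf o ∈ B
  · rw [indicator_of_mem (show o ∈ pvl3Cf ⁻¹' B from ho), indicator_of_mem ho]
    obtain ⟨q, hq, -⟩ := H.frc _ ho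
    rw [pvl5_tr2_cyc (E.on L (pvl3Cf o)) a z t H.hk H.hQ H.hV H.rA H.rX H.mAr H.mXr (H.wf _ ho) (H.mem _ ho) hq (H.fld _ ho) (H.hint _ ho)]
    exact le_rfl
  · rw [indicator_of_notMem (show o ∉ pvl3Cf ⁻¹' B from ho), indicator_of_notMem ho]

/-- **FIELD `cyc1`, U-FORM, BASE-INDEXED, ALMOST SURE FORCING** -/
theorem pvl5_cyc1_fam (a : ℂ) (m : ℕ) (z : ℂ) (t : τ) (B : ℝ → Set (Conf PvPt)) (Bs : ℝ → Conf PvPt → Set (Conf PvPt)) (C : ℝ → Set ℂ)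
    (frz : ℝ → Conf PvPt → Finset ℂ) (Θ : ℝ → Conf PvPt → ℝ≥0∞) (D : ℝ≥0∞) (hD : D ≠ ∞)
    (hok : ∀ᶠ ε in 𝓝[>] (0 : ℝ), Pvl5CycOkF E L a m ε z t (B ε) (Bs ε) (C ε) (frz ε) (Θ ε) D)
    (htail : Tendsto (fun ε => ∫⁻ ω, Θ ε ω ∂(pvP ε)) (𝓝[>] (0 : ℝ)) (𝓝 0)) :
    Tendsto (fun ε => (pvl3U0 ε).E ((pvl3Cf ⁻¹' B ε).indicator fun o =>
      ‖E.koutD L m ε a z t (pvl3Cf o) + pvtSum (E.W m ε a) ((E.Γ m).dout t) ((E.Γ m).l1 t) + E.kin0 m ε a + E.keD L m ε a z t (pvl3Cf o)‖ₑ ^ 2)) (𝓝[>] (0 : ℝ)) (𝓝 0) := by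
  have h0 : Tendsto (fun ε => D * ∫⁻ ω, Θ ε ω ∂(pvP ε)) (𝓝[>] (0 : ℝ)) (𝓝 0) := by
    have := ENNReal.Tendsto.const_mul htail (Or.inr hD)
    rwa [mul_zero] at this
  refine tendsto_of_tendsto_of_tendsto_of_le_of_le' tendsto_const_nhds h0 (Eventually.of_forall fun _ => zero_le) ?_
  filter_upwards [hok, self_mem_nhdsWithin] with ε h1 h3
  exact pvl5_cyc_le_fam E L h3 hD h1

/-- `Pvl3ThkOkF` of `Tr/Top` with the field `frc` at ALMOST EVERY SEED -/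
structure Pvl5ThkOkF (a : ℂ) (m : ℕ) (ε : ℝ) (z : ℂ) (t : τ) (B : Set (Conf PvPt)) (Bs : Conf PvPt → Set (Conf PvPt)) (C : Set ℂ)
    (frz : Conf PvPt → Finset ℂ) (Θ : Conf PvPt → ℝ≥0∞) (D : ℝ≥0∞) : Prop where
  mem : ∀ σ ∈ B, σ ∈ Bs σ
  reg : ∀ σ ∈ B, ((E.on L σ).thkSys m ε z t).C = C
  wf : ∀ σ ∈ B, ((E.on L σ).thkSys m ε z t).WF (Bs σ)
  /-- ALMOST EVERY SEED -/
  frc : ∀ σ ∈ B, ∃ q, Pvl5Frc ((E.on L σ).thkSys m ε z t) ε σ q ∧ ((E.on L σ).thkSys m ε z t).D ε q ≤ D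
  fld : ∀ σ ∈ B, ((E.on L σ).thkSys m ε z t).Fld (Bs σ) ((E.on L σ).thkX m ε a z t)
  stop : Pvl3Stop B C (fun σ => ((E.on L σ).thkSys m ε z t).Fs σ) frz
  mΘ : AEMeasurable Θ (pvP ε)
  dom : ∀ᵐ ω ∂(pvP ε), ∀ σ ∈ B, ω ∈ Bs σ → ω ∈ ((E.on L σ).thkSys m ε z t).Ev → ‖(L.thI m ε z t σ).X a ω‖ₑ ^ 2 ≤ Θ ω

variable {E L}

theorem pvl5_thkOk_of {a : ℂ} {m : ℕ} {ε : ℝ} {z : ℂ} {t : τ} {B : Set (Conf PvPt)} {Bs : Conf PvPt → Set (Conf PvPt)} {C : Set ℂ}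
    {frz : Conf PvPt → Finset ℂ} {Θ : Conf PvPt → ℝ≥0∞} {D : ℝ≥0∞} (H : Pvl3ThkOkF E L a m ε z t B Bs C frz Θ D) : Pvl5ThkOkF E L a m ε z t B Bs C frz Θ D where
  mem := H.mem
  reg := H.reg
  wf := H.wf
  frc σ hσ := by
    obtain ⟨q, hq, hD⟩ := H.frc σ hσ
    exact ⟨q, pvl5_frc_of (H.wf σ hσ) hq (H.mem σ hσ), hD⟩
  fld := H.fld
  stop := H.stop
  mΘ := H.mΘ
  dom := H.dom

variable (E L)

/-- **FIELD `thick`, U-FORM, BASE-INDEXED, ALMOST SURE FORCING**, one mesh -/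
theorem pvl5_thick_le_fam {a : ℂ} {m : ℕ} {ε : ℝ} (hε : 0 < ε) {z : ℂ} {t : τ} {B : Set (Conf PvPt)} {Bs : Conf PvPt → Set (Conf PvPt)} {C : Set ℂ}
    {frz : Conf PvPt → Finset ℂ} {Θ : Conf PvPt → ℝ≥0∞} {D : ℝ≥0∞} (hD : D ≠ ∞) (H : Pvl5ThkOkF E L a m ε z t B Bs C frz Θ D) :
    (pvl3U0 ε).E ((pvl3Cf ⁻¹' B).indicator fun o => ‖E.keD L m ε a z t (pvl3Cf o)‖ₑ ^ 2) ≤ D * ∫⁻ ω, Θ ω ∂(pvP ε) := by
  have h1 := pvl5_dom_fam hε H.stop (φ := fun σ => ‖E.keD L m ε a z t σ‖ₑ ^ 2) H.mΘ hD (N := {ω | ¬ ∀ σ ∈ B, ω ∈ Bs σ →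
      ω ∈ ((E.on L σ).thkSys m ε z t).Ev → ‖(L.thI m ε z t σ).X a ω‖ₑ ^ 2 ≤ Θ ω}) H.dom
    (fun σ hσ => by
      obtain ⟨q, hq, hqD⟩ := H.frc σ hσ
      refine ⟨_, _, inferInstance, inferInstance, (E.on L σ).thkSys m ε z t, Bs σ, q, fun ω => ‖(L.thI m ε z t σ).X a ω‖ₑ ^ 2,
        H.wf σ hσ, hq, H.mem σ hσ, H.reg σ hσ, rfl, hqD, ?_, ?_⟩
      · have := pvl5_link_sq (H.wf σ hσ) (H.mem σ hσ) hq (H.fld σ hσ) true
        rw [pvl3_ke_eq] at this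
        simpa [Pvl3Exp.thkX, Pvl3Exp.keD, Pvl3Exp.on] using this
      · intro ω hB hE hN
        exact (not_not.1 hN) σ hσ hB hE)
  refine le_trans ((pvl3U0 ε).mono fun o => ?_) h1
  by_cases ho : pvl3Cf o ∈ B
  · rw [indicator_of_mem (show o ∈ pvl3Cf ⁻¹' B from ho), indicator_of_mem ho]
  · rw [indicator_of_notMem (show o ∉ pvl3Cf ⁻¹' B from ho), indicator_of_notMem ho]

end fam

end Claimed.Agent.R289
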