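-- KEEP
import Claimed.Agent.R289.Tr.Hub
import Claimed.Agent.R289.Tr.DomY
import Claimed.Agent.R289.Tr.Hyb

/-!
# Row 289 (S0537), THE WALL, engine, file Tr/UpEx : THE UPPER-INTEGRAL EXITS OF THE ENGINE      (owner helper252, post of 24 10:08Z; trap of 129 09:53Z; prefix `pvux_`, `pvux`, `Pvux`)

WHY.  `pvti_core_fam / _cyl`, `pvti_n1_fam`, `pvti_pattern` (141, `Tr/Ind`), `pvth_inv`, `pvth_cyl` (`Tr/Hyb`), `pvdy_inv`, `pvdy_core` (193, `Tr/DomY`) bound `∫⁻` of a function which carries NO measurability: Mathlib's `∫⁻` is then the LOWER integral.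
The consumers (fields `n1 cyc1 thick` of `PvhbLocU`) need the UPPER side, over the two-level upper expectation `pvhbUp ε = PvUp.iter (pvGeo ε) pvCol` (163 `Defs/Up`, toolkit of 73 `Tr/Hub` sec. 10).      No new mathematics:
Jensen is POINTWISE in the sample, and the invariance `(inv)` holds at a.e. FIXED geometry, where everything is measurable in the colours.
* sec. 1  TOOLS on `PvUp.iter γ κ`: `PvuxAe` (a.e. colouring at a.e. geometry), `pvux_iter_mono_ae`, `pvux_iter_affine` (a quenched Harris inequality ⟹ its upper form), `pvux_cheb`, `pvux_prep` (a colour preparation with law `≤ C κ` at fixed geometry).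
* sec. 2  THE ABSTRACT CORE over a sample map `c : G × K → Ω`: **`pvux_core_pt`** (Jensen + domination at ONE sample), **`pvux_core_fam`**, **`pvux_core_cyl`**, `pvux_core_cheb`.
* sec. 3  THE MODEL: `pvuxC q = pvConf (pvMerge q)`, `pvux_ae`;   THE SPLICE: `pvux_spl_inv`, **`pvux_n1_fam`**, **`pvux_pattern`** (upper forms of `pvti_n1_fam`, `pvti_pattern` at `μ = pvP ε`), `pvux_tr23`.
* sec. 4  `Tr/Hyb`: `pvux_th_stop_q` (fixed geometry: measurable in the colours + inequality), `pvux_th_stop`, **`pvux_th_inv`**, **`pvux_th_cyl`**, `pvux_th_cheb`.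
* sec. 5  `Tr/DomY`: `pvux_stp_meas`, `pvux_dy_rec_q`, **`pvux_dy_inv`**, **`pvux_dy_core'`**, `pvux_dy_core`, **`pvux_dy_main`**, **`pvux_dy_cheb`** (= `pvdm_main_up`, `pvdm_up_cheb` of 159 at the concrete `ŷ` of 193).
-/

set_option autoImplicit false
set_option linter.unusedSectionVars false

namespace Claimed.Agent.R289

open MeasureTheory ProbabilityTheory Set Filter Topology Claims.C0465
open scoped ENNReal NNReal

/-! ## 1. tools on the iterated upper integral -/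

section tools

variable {G K : Type} [MeasurableSpace G] [MeasurableSpace K] (γ : Measure G) (κ : Measure K) [IsProbabilityMeasure γ] [IsProbabilityMeasure κ]

/-- the property `p` of the sample `c (g, k)` holds for a.e. colouring at a.e. geometry -/
def PvuxAe {Ω : Type*} (c : G × K → Ω) (p : Ω → Prop) : Prop := ∀ᵐ g ∂γ, ∀ᵐ k ∂κ, p (c (g, k))

theorem pvux_eqns_cite : True := by
  have := @PvuxAe.eq_1.{0}
  trivial

/-- the iterated upper integral sees functions up to (a.e. geometry, a.e. colouring) -/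
theorem pvux_iter_mono_ae {F F' : G × K → ℝ≥0∞} (h : ∀ᵐ g ∂γ, ∀ᵐ k ∂κ, F (g, k) ≤ F' (g, k)) : (PvUp.iter γ κ).E F ≤ (PvUp.iter γ κ).E F' :=
  pvhb_int_mono_ae γ (h.mono fun _ hg => pvhb_int_mono_ae κ hg)

/-- **a quenched affine inequality (Harris at fixed geometry, error `b g` for the bad geometries) passes to the upper expectation** -/
theorem pvux_iter_affine {F F' : G × K → ℝ≥0∞} {b : G → ℝ≥0∞} {Q : ℝ≥0∞} (hQ : Q ≠ ∞)
    (h : ∀ᵐ g ∂γ, pvUpInt κ (fun k => F (g, k)) ≤ Q * pvUpInt κ (fun k => F' (g, k)) + b g) :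
    (PvUp.iter γ κ).E F ≤ Q * (PvUp.iter γ κ).E F' + pvUpInt γ b := by
  calc (PvUp.iter γ κ).E F = pvUpInt γ fun g => pvUpInt κ fun k => F (g, k) := rfl
    _ ≤ pvUpInt γ fun g => Q * pvUpInt κ (fun k => F' (g, k)) + b g := pvhb_int_mono_ae γ h
    _ ≤ pvUpInt γ (fun g => Q * pvUpInt κ (fun k => F' (g, k))) + pvUpInt γ b := pvup_int_add γ _ _
    _ ≤ Q * (PvUp.iter γ κ).E F' + pvUpInt γ b := add_le_add (pvup_int_smul γ Q _ hQ) le_rfl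

/-- Chebyshev for ANY event -/
theorem pvux_cheb {Ω : Type} (U : PvUp Ω) {F : Ω → ℝ≥0∞} {B : Set Ω} {u : ℝ≥0∞} (hu : u ≠ ∞) (hB : ∀ p ∈ B, u ≤ F p) : u * U.P B ≤ U.E F := by
  by_cases h0 : u = 0
  · simp [h0]
  have h1 : U.P B ≤ U.E F / u := (U.P_mono fun p hp => hB p hp).trans (U.markov F h0 hu)
  calc u * U.P B ≤ u * (U.E F / u) := by gcongr
    _ = U.E F := ENNReal.mul_div_cancel h0 hu

/-- **a preparation of the colours** (seeds `σ`): at a.e. fixed geometry the law of the prepared colouring is `≤ C κ` -/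
theorem pvux_prep {Sd : Type} [MeasurableSpace Sd] (σ : Measure Sd) [IsProbabilityMeasure σ] {pr : G → K × Sd → K} {C : ℝ≥0∞} (hC : C ≠ ∞)
    (hm : ∀ᵐ g ∂γ, AEMeasurable (pr g) (κ.prod σ)) (hle : ∀ᵐ g ∂γ, (κ.prod σ).map (pr g) ≤ C • κ) (F : G × K → ℝ≥0∞) :
    (PvUp.iter γ (κ.prod σ)).E (fun o => F (o.1, pr o.1 o.2)) ≤ C * (PvUp.iter γ κ).E F := by
  have key : ∀ᵐ g ∂γ, pvUpInt (κ.prod σ) (fun p => F (g, pr g p)) ≤ C * pvUpInt κ (fun k => F (g, k)) := by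
    filter_upwards [hm, hle] with g h1 h2
    have step : ∀ φ : {φ : K → ℝ≥0∞ // Measurable φ ∧ ∀ k, F (g, k) ≤ φ k},
        pvUpInt (κ.prod σ) (fun p => F (g, pr g p)) ≤ C * ∫⁻ k, φ.1 k ∂κ := by
      intro φ
      refine (pvhb_int_ae (κ.prod σ) (φ := fun p => φ.1 (pr g p)) (φ.2.1.comp_aemeasurable h1) (Eventually.of_forall fun p => φ.2.2 _)).trans ?_
      rw [← lintegral_map' φ.2.1.aemeasurable h1]
      refine (lintegral_mono' h2 le_rfl).trans (le_of_eq ?_)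
      rw [lintegral_smul_measure]
      rfl
    by_cases h0 : C = 0
    · have := step ⟨fun _ => ⊤, measurable_const, fun _ => le_top⟩
      simpa [h0] using this
    · have e : pvUpInt κ (fun k => F (g, k)) = ⨅ φ : {φ : K → ℝ≥0∞ // Measurable φ ∧ ∀ k, F (g, k) ≤ φ k}, ∫⁻ k, φ.1 k ∂κ := rfl
      rw [e, ENNReal.mul_iInf_of_ne h0 hC]
      exact le_iInf step
  calc (PvUp.iter γ (κ.prod σ)).E (fun o => F (o.1, pr o.1 o.2)) = pvUpInt γ fun g => pvUpInt (κ.prod σ) fun p => F (g, pr g p) := rfl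
    _ ≤ pvUpInt γ fun g => C * pvUpInt κ fun k => F (g, k) := pvhb_int_mono_ae γ key
    _ ≤ C * pvUpInt γ fun g => pvUpInt κ fun k => F (g, k) := pvup_int_smul γ C _ hC

end tools

/-! ## 2. the abstract core over a sample map -/

section core

variable {G K : Type} [MeasurableSpace G] [MeasurableSpace K] {γ : Measure G} {κ : Measure K} [IsProbabilityMeasure γ] [IsProbabilityMeasure κ]
variable {Ω Ω' : Type*} [MeasurableSpace Ω] [MeasurableSpace Ω'] {ν : Ω → Measure Ω'} {r : Ω → Ω' → Ω} {ι : Type*}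

/-- **THE CORE AT ONE SAMPLE** `σ` (Jensen with the weight `w`, domination by `H`): the pointwise content of `pvti_core_fam` -/
theorem pvux_core_pt {X : ι → Ω → ℂ} {a : ι → Ω → ℝ≥0∞} {Y : Ω → ℂ} {w H : Ω → ℝ≥0∞} {σ : Ω}
    (hfix : ∀ᵐ η ∂(ν σ), ∀ i, X i (r σ η) = X i σ ∧ a i (r σ η) = a i σ)
    (hY : AEMeasurable (fun η => Y (r σ η)) (ν σ)) (hw : AEMeasurable (fun η => w (r σ η)) (ν σ))
    (hnorm : (∃ i, a i σ ≠ 0) → ∫⁻ η, w (r σ η) ∂(ν σ) = 1)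
    (hdom : ∀ᵐ η ∂(ν σ), ∑' i, ‖X i (r σ η) + Y (r σ η)‖ₑ ^ 2 * a i (r σ η) * w (r σ η) ≤ H (r σ η)) :
    ∑' i, ‖X i σ + pvtiHat ν r w Y σ‖ₑ ^ 2 * a i σ ≤ ∫⁻ η, H (r σ η) ∂(ν σ) := by
  have hJ : ∀ i, ‖X i σ + pvtiHat ν r w Y σ‖ₑ ^ 2 * a i σ ≤ ∫⁻ η, ‖X i σ + Y (r σ η)‖ₑ ^ 2 * a i σ * w (r σ η) ∂(ν σ) := by
    intro i
    by_cases hz : a i σ = 0
    · simp [hz]
    have hP : IsProbabilityMeasure ((ν σ).withDensity fun η => w (r σ η)) := ⟨by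
      rw [withDensity_apply _ MeasurableSet.univ, Measure.restrict_univ]; exact hnorm ⟨i, hz⟩⟩
    have hac : ((ν σ).withDensity fun η => w (r σ η)) ≪ ν σ := withDensity_absolutelyContinuous _ _
    have j := pvti_jensen ((ν σ).withDensity fun η => w (r σ η)) (X i σ) (Y := fun η => Y (r σ η)) (hY.mono_ac hac).aestronglyMeasurable
    have hm2 : AEMeasurable (fun η => ‖X i σ + Y (r σ η)‖ₑ ^ 2) (ν σ) := (aemeasurable_const.add hY).enorm.pow_const 2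
    rw [lintegral_withDensity_eq_lintegral_mul₀ hw hm2] at j
    have hm3 : AEMeasurable (fun η => w (r σ η) * ‖X i σ + Y (r σ η)‖ₑ ^ 2) (ν σ) := hw.mul hm2
    calc ‖X i σ + pvtiHat ν r w Y σ‖ₑ ^ 2 * a i σ
        ≤ (∫⁻ η, w (r σ η) * ‖X i σ + Y (r σ η)‖ₑ ^ 2 ∂(ν σ)) * a i σ := mul_le_mul_left j _
      _ = ∫⁻ η, w (r σ η) * ‖X i σ + Y (r σ η)‖ₑ ^ 2 * a i σ ∂(ν σ) := (lintegral_mul_const'' _ hm3).symm
      _ = _ := lintegral_congr fun η => by ring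
  have hm : ∀ i, AEMeasurable (fun η => ‖X i σ + Y (r σ η)‖ₑ ^ 2 * a i σ * w (r σ η)) (ν σ) := fun i =>
    (((aemeasurable_const.add hY).enorm.pow_const 2).mul_const _).mul hw
  calc ∑' i, ‖X i σ + pvtiHat ν r w Y σ‖ₑ ^ 2 * a i σ
      ≤ ∑' i, ∫⁻ η, ‖X i σ + Y (r σ η)‖ₑ ^ 2 * a i σ * w (r σ η) ∂(ν σ) := ENNReal.tsum_le_tsum hJ
    _ ≤ ∫⁻ η, ∑' i, ‖X i σ + Y (r σ η)‖ₑ ^ 2 * a i σ * w (r σ η) ∂(ν σ) := pvti_tsum_lintegral_le (ν σ) _ hm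
    _ ≤ ∫⁻ η, H (r σ η) ∂(ν σ) := by
        refine lintegral_mono_ae ?_
        filter_upwards [hfix, hdom] with η hη hη'
        refine le_trans (le_of_eq ?_) hη'
        refine tsum_congr fun i => ?_
        rw [(hη i).1, (hη i).2]

/-- **THE CORE, UPPER FORM**.   All hypotheses at a.e. colouring of a.e. geometry;   the conclusion compares two upper expectations: `(inv)` is the business of the instance. -/
theorem pvux_core_fam (c : G × K → Ω) {X : ι → Ω → ℂ} {a : ι → Ω → ℝ≥0∞} {Y : Ω → ℂ} {w H : Ω → ℝ≥0∞}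
    (hfix : PvuxAe γ κ c fun σ => ∀ᵐ η ∂(ν σ), ∀ i, X i (r σ η) = X i σ ∧ a i (r σ η) = a i σ)
    (hY : PvuxAe γ κ c fun σ => AEMeasurable (fun η => Y (r σ η)) (ν σ)) (hw : PvuxAe γ κ c fun σ => AEMeasurable (fun η => w (r σ η)) (ν σ))
    (hnorm : PvuxAe γ κ c fun σ => (∃ i, a i σ ≠ 0) → ∫⁻ η, w (r σ η) ∂(ν σ) = 1)
    (hdom : PvuxAe γ κ c fun σ => ∀ᵐ η ∂(ν σ), ∑' i, ‖X i (r σ η) + Y (r σ η)‖ₑ ^ 2 * a i (r σ η) * w (r σ η) ≤ H (r σ η)) :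
    (PvUp.iter γ κ).E (fun p => ∑' i, ‖X i (c p) + pvtiHat ν r w Y (c p)‖ₑ ^ 2 * a i (c p)) ≤ (PvUp.iter γ κ).E (fun p => ∫⁻ η, H (r (c p) η) ∂(ν (c p))) := by
  refine pvux_iter_mono_ae γ κ ?_
  filter_upwards [hfix, hY, hw, hnorm, hdom] with g g0 g1 g2 g3 g4
  filter_upwards [g0, g1, g2, g3, g4] with k k0 k1 k2 k3 k4
  exact pvux_core_pt k0 k1 k2 k3 k4

/-- **N1' (CYLINDER DOMINATION), MODEL FREE, UPPER FORM** (`pvti_core_cyl`).   `hC3` (Harris) in upper form: get it from a quenched inequality by `pvux_iter_affine`;   `hinv` = invariance + tail, upper form. -/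
theorem pvux_core_cyl (c : G × K → Ω) {X : ι → Ω → ℂ} {act cn cnw : ι → Ω → ℝ≥0∞} {Y : Ω → ℂ} {w Θ : Ω → ℝ≥0∞} {S : Set Ω} {D q bad θ : ℝ≥0∞} (hD : D ≠ ∞)
    (hfix : PvuxAe γ κ c fun σ => ∀ᵐ η ∂(ν σ), ∀ i, X i (r σ η) = X i σ ∧ cnw i (r σ η) = cnw i σ)
    (hY : PvuxAe γ κ c fun σ => AEMeasurable (fun η => Y (r σ η)) (ν σ)) (hw : PvuxAe γ κ c fun σ => AEMeasurable (fun η => w (r σ η)) (ν σ))
    (hnorm : PvuxAe γ κ c fun σ => (∃ i, cnw i σ ≠ 0) → ∫⁻ η, w (r σ η) ∂(ν σ) = 1)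
    (hwD : PvuxAe γ κ c fun σ => ∀ᵐ η ∂(ν σ), w (r σ η) ≤ D * S.indicator 1 (r σ η))
    (hC1 : PvuxAe γ κ c fun σ => ∀ i, act i σ ≤ cn i σ)
    (hC3 : (PvUp.iter γ κ).E (fun p => ∑' i, ‖X i (c p) + pvtiHat ν r w Y (c p)‖ₑ ^ 2 * cn i (c p))
      ≤ q⁻¹ * (PvUp.iter γ κ).E (fun p => ∑' i, ‖X i (c p) + pvtiHat ν r w Y (c p)‖ₑ ^ 2 * cnw i (c p)) + bad)
    (hC2 : PvuxAe γ κ c fun σ => ∀ᵐ η ∂(ν σ), ∑' i, ‖X i (r σ η) + Y (r σ η)‖ₑ ^ 2 * cnw i (r σ η) * S.indicator 1 (r σ η) ≤ Θ (r σ η))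
    (hinv : (PvUp.iter γ κ).E (fun p => ∫⁻ η, Θ (r (c p) η) ∂(ν (c p))) ≤ θ) :
    (PvUp.iter γ κ).E (fun p => ∑' i, ‖X i (c p) + pvtiHat ν r w Y (c p)‖ₑ ^ 2 * act i (c p)) ≤ q⁻¹ * (D * θ) + bad := by
  have hdom : PvuxAe γ κ c fun σ => ∀ᵐ η ∂(ν σ), ∑' i, ‖X i (r σ η) + Y (r σ η)‖ₑ ^ 2 * cnw i (r σ η) * w (r σ η) ≤ D * Θ (r σ η) := by
    filter_upwards [hwD, hC2] with g g1 g2
    filter_upwards [g1, g2] with k k1 k2
    filter_upwards [k1, k2] with η h1 h2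
    calc ∑' i, ‖X i (r (c (g, k)) η) + Y (r (c (g, k)) η)‖ₑ ^ 2 * cnw i (r (c (g, k)) η) * w (r (c (g, k)) η)
        ≤ ∑' i, D * (‖X i (r (c (g, k)) η) + Y (r (c (g, k)) η)‖ₑ ^ 2 * cnw i (r (c (g, k)) η) * S.indicator 1 (r (c (g, k)) η)) :=
          ENNReal.tsum_le_tsum fun i => (mul_le_mul_right h1 _).trans (le_of_eq (by ring))
      _ = D * ∑' i, ‖X i (r (c (g, k)) η) + Y (r (c (g, k)) η)‖ₑ ^ 2 * cnw i (r (c (g, k)) η) * S.indicator 1 (r (c (g, k)) η) := ENNReal.tsum_mul_left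
      _ ≤ D * Θ (r (c (g, k)) η) := mul_le_mul_right h2 _
  have k := pvux_core_fam (γ := γ) (κ := κ) c (H := fun ω => D * Θ ω) hfix hY hw hnorm hdom
  have k2 : (PvUp.iter γ κ).E (fun p => ∫⁻ η, D * Θ (r (c p) η) ∂(ν (c p))) ≤ D * θ := by
    simp_rw [lintegral_const_mul' D _ hD]
    exact ((PvUp.iter γ κ).smul_le D _ hD).trans (mul_le_mul_right hinv _)
  have h1 : (PvUp.iter γ κ).E (fun p => ∑' i, ‖X i (c p) + pvtiHat ν r w Y (c p)‖ₑ ^ 2 * act i (c p))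
      ≤ (PvUp.iter γ κ).E (fun p => ∑' i, ‖X i (c p) + pvtiHat ν r w Y (c p)‖ₑ ^ 2 * cn i (c p)) := by
    refine pvux_iter_mono_ae γ κ ?_
    filter_upwards [hC1] with g hg
    filter_upwards [hg] with k hk
    exact ENNReal.tsum_le_tsum fun i => mul_le_mul_right (hk i) _
  refine h1.trans (hC3.trans ?_)
  gcongr
  exact k.trans k2

/-- Chebyshev after the core: `B` = ANY event on which some actual datum has `|X + ŷ| ≥ u` -/
theorem pvux_core_cheb (c : G × K → Ω) {X : ι → Ω → ℂ} {act : ι → Ω → ℝ≥0∞} {y : Ω → ℂ} {B : Set (G × K)} {u M : ℝ≥0∞}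
    (hB : ∀ p ∈ B, ∃ i, 1 ≤ act i (c p) ∧ u ≤ ‖X i (c p) + y (c p)‖ₑ)
    (hM : (PvUp.iter γ κ).E (fun p => ∑' i, ‖X i (c p) + y (c p)‖ₑ ^ 2 * act i (c p)) ≤ M) :
    u ^ 2 * (PvUp.iter γ κ).P B ≤ M := by
  by_cases hu : u = ∞
  · have hBe : B = ∅ := by
      refine Set.eq_empty_iff_forall_notMem.2 fun p hp => ?_
      obtain ⟨i, -, h2⟩ := hB p hp
      rw [hu, top_le_iff] at h2
      exact enorm_ne_top h2
    rw [hBe, PvUp.P_empty, mul_zero]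
    exact zero_le
  · refine (pvux_cheb (PvUp.iter γ κ) (ENNReal.pow_ne_top hu) fun p hp => ?_).trans hM
    obtain ⟨i, h1, h2⟩ := hB p hp
    calc u ^ 2 = u ^ 2 * 1 := (mul_one _).symm
      _ ≤ ‖X i (c p) + y (c p)‖ₑ ^ 2 * act i (c p) := mul_le_mul' (pow_le_pow_left' h2 2) h1
      _ ≤ ∑' i, ‖X i (c p) + y (c p)‖ₑ ^ 2 * act i (c p) := ENNReal.le_tsum i

end core

/-! ## 3. the model; the splice -/

section model

/-- the configuration of (geometry, colours) -/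
def pvuxC (q : PvGeoT × PvColT) : Conf PvPt := pvConf (pvMerge q)

theorem pvux_eqns_cite2 : True := by
  have := @pvuxC.eq_1
  trivial

theorem measurable_pvuxC : Measurable pvuxC := measurable_pvConf.comp measurable_pvMerge

/-- an a.s. property of the configuration holds for a.e. colouring at a.e. geometry -/
theorem pvux_ae (ε : ℝ) {p : Conf PvPt → Prop} (h : ∀ᵐ σ ∂(pvP ε), p σ) : PvuxAe (pvGeo ε) pvCol pvuxC p := pvqu_Qc_ae ε h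

/-- quenched Fubini -/
theorem pvux_lintegral (ε : ℝ) {f : Conf PvPt → ℝ≥0∞} (hf : Measurable f) : ∫⁻ g, ∫⁻ c, f (pvuxC (g, c)) ∂pvCol ∂(pvGeo ε) = ∫⁻ σ, f σ ∂(pvP ε) := by
  have h := pvqu_lintegral ε (hf.comp measurable_pvConf)
  unfold pvP
  rw [lintegral_map hf measurable_pvConf]
  exact h.symm

variable {ι : Type*}

/-- (inv) for the splice, upper form -/
theorem pvux_spl_inv (ε : ℝ) {U : Set PvPt} (hU : MeasurableSet U) {H : Conf PvPt → ℝ≥0∞} (hH : AEMeasurable H (pvP ε)) :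
    (pvhbUp ε).E (fun q => ∫⁻ η, H (Conf.spl U (pvuxC q, η)) ∂(pvP ε)) ≤ ∫⁻ ω, H ω ∂(pvP ε) := by
  have h := pv_isPpp ε
  have := h.prob
  have hm : AEMeasurable (fun σ => ∫⁻ η, H (Conf.spl U (σ, η)) ∂(pvP ε)) (pvP ε) := by
    have hf' : AEMeasurable H (((pvP ε).prod (pvP ε)).map (Conf.spl U)) := by
      have e : ((pvP ε).prod (pvP ε)).map (Conf.spl U) = pvP ε := h.splice hU
      rw [e]
      exact hH
    exact (hf'.comp_aemeasurable (Conf.measurable_spl hU).aemeasurable).lintegral_prod_right'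
  refine (pvhb_up_E_conf ε hm (Eventually.of_forall fun _ => le_rfl)).trans (le_of_eq ?_)
  exact (h.lintegral_splice hU hH).symm

/-- **(N1), FAMILY FORM, UPPER FORM** (`pvti_n1_fam` at `μ = pvP ε`) -/
theorem pvux_n1_fam (ε : ℝ) {O C0 : Set PvPt} (hC : MeasurableSet C0) (hOC : Disjoint O C0)
    {X : ι → Conf PvPt → ℂ} {a : ι → Conf PvPt → ℝ≥0∞} {Y : Conf PvPt → ℂ} {w H : Conf PvPt → ℝ≥0∞}
    (hXr : ∀ i, Conf.Reads C0ᶜ (X i)) (har : ∀ i, Conf.Reads C0ᶜ (a i)) (hY : AEMeasurable Y (pvP ε)) (hw : AEMeasurable w (pvP ε)) (hH : AEMeasurable H (pvP ε))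
    (hYr : Conf.Reads (O ∪ C0) Y) (hwr : Conf.Reads (O ∪ C0) w)
    (hnorm : ∀ᵐ σ ∂(pvP ε), (∃ i, a i σ ≠ 0) → ∫⁻ η, w (Conf.spl O (σ, η)) ∂(pvP ε) = 1)
    (hdom : ∀ᵐ η ∂(pvP ε), ∑' i, ‖X i η + Y η‖ₑ ^ 2 * a i η * w η ≤ H η) :
    (pvhbUp ε).E (fun q => ∑' i, ‖X i (pvuxC q) + pvtiMean (pvP ε) O w Y (pvuxC q)‖ₑ ^ 2 * a i (pvuxC q)) ≤ ∫⁻ η, H η ∂(pvP ε) := by
  have h := pv_isPpp ε
  have hU : MeasurableSet C0ᶜ := hC.compl
  have hOU : O ⊆ C0ᶜ := Set.subset_compl_iff_disjoint_right.2 hOC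
  have hCU : Disjoint C0 C0ᶜ := disjoint_compl_right
  have eY : ∀ σ, (fun η => Y (Conf.spl C0ᶜ (σ, η))) = fun η => Y (Conf.spl O (σ, η)) := fun σ => funext fun η => hYr.spl_change hOU hCU σ η
  have ew : ∀ σ, (fun η => w (Conf.spl C0ᶜ (σ, η))) = fun η => w (Conf.spl O (σ, η)) := fun σ => funext fun η => hwr.spl_change hOU hCU σ η
  have eM : ∀ σ, pvtiMean (pvP ε) O w Y σ = pvtiHat (fun _ => pvP ε) (fun σ η => Conf.spl C0ᶜ (σ, η)) w Y σ := by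
    intro σ
    unfold pvtiMean pvtiHat
    rw [eY σ, ew σ]
  simp only [eM]
  refine (pvux_core_fam (γ := pvGeo ε) (κ := pvCol) (ν := fun _ => pvP ε) (r := fun σ η => Conf.spl C0ᶜ (σ, η)) pvuxC (H := H) ?_ ?_ ?_ ?_ ?_).trans
    (pvux_spl_inv ε hU hH)
  · exact pvux_ae ε (Eventually.of_forall fun σ => Eventually.of_forall fun η i => ⟨(hXr i).spl_left subset_rfl σ η, (har i).spl_left subset_rfl σ η⟩)
  · exact pvux_ae ε (h.ae_aemeasurable_spl hU hY)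
  · exact pvux_ae ε (h.ae_aemeasurable_spl hU hw)
  · refine pvux_ae ε (hnorm.mono fun σ hσ hi => ?_)
    rw [ew σ]
    exact hσ hi
  · exact pvux_ae ε (h.ae_ae_splice hU hdom)

/-- **TR23 FOR A PATTERN, FIXED SPLICE, UPPER FORM** (`pvti_pattern` at `μ = pvP ε`) -/
theorem pvux_pattern (ε : ℝ) {O C0 : Set PvPt} (hC : MeasurableSet C0) (hOC : Disjoint O C0)
    {X : ι → Conf PvPt → ℂ} {a a' : ι → Conf PvPt → ℝ≥0∞} {Y : Conf PvPt → ℂ} {w Θ : Conf PvPt → ℝ≥0∞} {S : Set (Conf PvPt)} {D q bad θ : ℝ≥0∞}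
    (hXr : ∀ i, Conf.Reads C0ᶜ (X i)) (har : ∀ i, Conf.Reads C0ᶜ (a' i)) (hY : AEMeasurable Y (pvP ε)) (hw : AEMeasurable w (pvP ε)) (hΘ : AEMeasurable Θ (pvP ε))
    (hYr : Conf.Reads (O ∪ C0) Y) (hwr : Conf.Reads (O ∪ C0) w)
    (hnorm : ∀ᵐ σ ∂(pvP ε), (∃ i, a' i σ ≠ 0) → ∫⁻ η, w (Conf.spl O (σ, η)) ∂(pvP ε) = 1)
    (hwD : ∀ᵐ η ∂(pvP ε), w η ≤ D * S.indicator 1 η)
    (hharris : (pvhbUp ε).E (fun p => ∑' i, ‖X i (pvuxC p) + pvtiMean (pvP ε) O w Y (pvuxC p)‖ₑ ^ 2 * a i (pvuxC p))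
      ≤ q⁻¹ * (pvhbUp ε).E (fun p => ∑' i, ‖X i (pvuxC p) + pvtiMean (pvP ε) O w Y (pvuxC p)‖ₑ ^ 2 * a' i (pvuxC p)) + bad)
    (hrec : ∀ᵐ η ∂(pvP ε), ∑' i, ‖X i η + Y η‖ₑ ^ 2 * a' i η * S.indicator 1 η ≤ Θ η)
    (hθ : ∫⁻ η, Θ η ∂(pvP ε) ≤ θ) :
    (pvhbUp ε).E (fun p => ∑' i, ‖X i (pvuxC p) + pvtiMean (pvP ε) O w Y (pvuxC p)‖ₑ ^ 2 * a i (pvuxC p)) ≤ q⁻¹ * (D * θ) + bad := by
  have hH : AEMeasurable (fun η => D * Θ η) (pvP ε) := hΘ.const_mul D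
  have hdom : ∀ᵐ η ∂(pvP ε), ∑' i, ‖X i η + Y η‖ₑ ^ 2 * a' i η * w η ≤ D * Θ η := by
    filter_upwards [hwD, hrec] with η h1 h2
    calc ∑' i, ‖X i η + Y η‖ₑ ^ 2 * a' i η * w η ≤ ∑' i, D * (‖X i η + Y η‖ₑ ^ 2 * a' i η * S.indicator 1 η) :=
          ENNReal.tsum_le_tsum fun i => (mul_le_mul_right h1 _).trans (le_of_eq (by ring))
      _ = D * ∑' i, ‖X i η + Y η‖ₑ ^ 2 * a' i η * S.indicator 1 η := ENNReal.tsum_mul_left
      _ ≤ D * Θ η := mul_le_mul_right h2 _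
  have k := pvux_n1_fam ε hC hOC hXr har hY hw hH hYr hwr hnorm hdom
  rw [lintegral_const_mul'' _ hΘ] at k
  refine hharris.trans ?_
  gcongr
  exact k.trans (mul_le_mul_right hθ _)

/-- **TR23 ON ROAD P, UPPER FORM** (`pvti_tr23`): the preparation acts on the colours at fixed geometry, with seeds `σs`;   `B` = ANY event of (geometry, colours, seeds). -/
theorem pvux_tr23 (ε : ℝ) {Sd : Type} [MeasurableSpace Sd] (σs : Measure Sd) [IsProbabilityMeasure σs] {pr : PvGeoT → PvColT × Sd → PvColT} {C : ℝ≥0∞} (hC : C ≠ ∞)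
    (hm : ∀ᵐ g ∂(pvGeo ε), AEMeasurable (pr g) (pvCol.prod σs)) (hle : ∀ᵐ g ∂(pvGeo ε), (pvCol.prod σs).map (pr g) ≤ C • pvCol)
    {X : ι → Conf PvPt → ℂ} {a : ι → Conf PvPt → ℝ≥0∞} {y : Conf PvPt → ℂ} {B : Set (PvGeoT × (PvColT × Sd))} {u M : ℝ≥0∞}
    (hB : ∀ o ∈ B, ∃ i, 1 ≤ a i (pvuxC (o.1, pr o.1 o.2)) ∧ u ≤ ‖X i (pvuxC (o.1, pr o.1 o.2)) + y (pvuxC (o.1, pr o.1 o.2))‖ₑ)
    (hM : (pvhbUp ε).E (fun p => ∑' i, ‖X i (pvuxC p) + y (pvuxC p)‖ₑ ^ 2 * a i (pvuxC p)) ≤ M) :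
    u ^ 2 * (PvUp.iter (pvGeo ε) (pvCol.prod σs)).P B ≤ C * M := by
  have h1 := pvux_prep (pvGeo ε) pvCol σs hC hm hle (fun p => ∑' i, ‖X i (pvuxC p) + y (pvuxC p)‖ₑ ^ 2 * a i (pvuxC p))
  have h2 : (PvUp.iter (pvGeo ε) (pvCol.prod σs)).E
      (fun o => ∑' i, ‖X i (pvuxC (o.1, pr o.1 o.2)) + y (pvuxC (o.1, pr o.1 o.2))‖ₑ ^ 2 * a i (pvuxC (o.1, pr o.1 o.2))) ≤ C * M :=
    h1.trans (mul_le_mul_right hM C)
  exact pvux_core_cheb (γ := pvGeo ε) (κ := pvCol.prod σs) (fun o : PvGeoT × (PvColT × Sd) => pvuxC (o.1, pr o.1 o.2)) hB h2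

end model

/-! ## 4. the hybrid law of `Tr/Hyb` -/

section hyb

variable {ε : ℝ} {C₀ : Set ℂ} {A : Conf PvPt → Finset ℂ} {ι : Type*}

/-- **colour stopping sets at a fixed geometry**: measurable in the colours, and the mean does not increase -/
theorem pvux_th_stop_q (h : PvthOk ε C₀ A) {f : Conf PvPt → ℝ≥0∞} (hf : Measurable f) : ∀ᵐ g ∂(pvGeo ε),
    Measurable (fun c : PvColT => ∫⁻ u, f (pvthRec (A (pvuxC (g, c))) u (pvuxC (g, c))) ∂pvthBit) ∧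
    ∫⁻ c, ∫⁻ u, f (pvthRec (A (pvuxC (g, c))) u (pvuxC (g, c))) ∂pvthBit ∂pvCol ≤ ∫⁻ c, f (pvuxC (g, c)) ∂pvCol := by
  classical
  obtain ⟨M, hMb, hMr⟩ := h.loc
  filter_upwards [pvqu_ok_ae ε, pvqu_Qc_ae ε h.stop] with g hg hstop
  simp only [pvuxC]
  set J : PvColT → Finset PvIx := fun c => (A (pvConf (pvMerge (g, c)))).preimage (pvgSite g) hg.inj.injOn with hJ
  have hFm : Measurable fun c : PvColT => f (pvConf (pvMerge (g, c))) := hf.comp (pvqu_Qm_meas g)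
  have hfin : (pvgIn g (Prod.fst ⁻¹' M : Set PvPt)).Finite := hg.in_finite (hMb.subset (by rintro _ ⟨p, hp, rfl⟩; exact hp))
  have hAdep : ∀ c c' : PvColT, (∀ i ∈ pvgIn g (Prod.fst ⁻¹' M : Set PvPt), c i = c' i) → A (pvConf (pvMerge (g, c))) = A (pvConf (pvMerge (g, c'))) := by
    intro c c' hcc
    rw [← hMr (pvConf (pvMerge (g, c))), ← hMr (pvConf (pvMerge (g, c'))), pvqu_restr_congr hcc]
  have hm : ∀ j, MeasurableSet {c | J c = j} := by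
    intro j
    have hdep : PvDep (↑hfin.toFinset : Set PvIx) {c | J c = j} := by
      intro c c' hcc hc
      have e : A (pvConf (pvMerge (g, c))) = A (pvConf (pvMerge (g, c'))) := hAdep c c' fun i hi => hcc i (by simpa using hi)
      show J c' = j
      rw [← (show J c = j from hc)]
      simp only [hJ]
      simp only [e]
    exact (pvqu_dep_finset hdep).1
  have hs : ∀ᵐ c ∂pvCol, ∀ v, J (pvthqMix (J c) c v) = J c := by
    filter_upwards [hstop] with c hc v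
    set u : ℂ → Bool := fun z => if hz : ∃ i, pvgSite g i = z then v hz.choose else false with hu
    have huv : (fun i => u (pvgSite g i)) = v := by
      funext i
      have hz : ∃ i', pvgSite g i' = pvgSite g i := ⟨i, rfl⟩
      simp only [hu]
      rw [dif_pos hz, hg.inj hz.choose_spec]
    have e1 := pvthq_rec_merge hg (A (pvConf (pvMerge (g, c)))) u c
    rw [huv] at e1
    have e2 := hc u
    rw [e1] at e2
    show (A (pvConf (pvMerge (g, pvthqMix (J c) c v)))).preimage (pvgSite g) hg.inj.injOn = (A (pvConf (pvMerge (g, c)))).preimage (pvgSite g) hg.inj.injOn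
    have e3 : A (pvConf (pvMerge (g, pvthqMix (J c) c v))) = A (pvConf (pvMerge (g, c))) := e2
    simp only [e3]
  have key : ∀ c : PvColT, ∫⁻ u, f (pvthRec (A (pvConf (pvMerge (g, c)))) u (pvConf (pvMerge (g, c)))) ∂pvthBit
      = ∫⁻ v, f (pvConf (pvMerge (g, pvthqMix (J c) c v))) ∂pvCol := by
    intro c
    have hH : Measurable fun v : PvColT => f (pvConf (pvMerge (g, pvthqMix (J c) c v))) :=
      hFm.comp ((pvthq_mix_measurable (J c)).comp (measurable_const.prodMk measurable_id))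
    rw [← pvthq_bit_map hg.inj, lintegral_map hH (by fun_prop)]
    refine lintegral_congr fun u => ?_
    rw [pvthq_rec_merge hg]
  have hmI : ∀ j : Finset PvIx, Measurable fun c : PvColT => ∫⁻ v, f (pvConf (pvMerge (g, pvthqMix j c v))) ∂pvCol :=
    fun j => (hFm.comp (pvthq_mix_measurable j)).lintegral_prod_right'
  have e1 : ∀ c, ∫⁻ v, f (pvConf (pvMerge (g, pvthqMix (J c) c v))) ∂pvCol
      = ∑' j : Finset PvIx, {c | J c = j}.indicator (fun c => ∫⁻ v, f (pvConf (pvMerge (g, pvthqMix j c v))) ∂pvCol) c := by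
    intro c
    rw [tsum_eq_single (J c)]
    · rw [indicator_of_mem (show c ∈ {c' | J c' = J c} from rfl)]
    · intro j hj
      exact indicator_of_notMem (show c ∉ {c' | J c' = j} from fun h => hj (Eq.symm h)) _
  refine ⟨?_, ?_⟩
  · have : (fun c : PvColT => ∫⁻ u, f (pvthRec (A (pvConf (pvMerge (g, c)))) u (pvConf (pvMerge (g, c)))) ∂pvthBit)
        = fun c => ∑' j : Finset PvIx, {c | J c = j}.indicator (fun c => ∫⁻ v, f (pvConf (pvMerge (g, pvthqMix j c v))) ∂pvCol) c := by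
      funext c
      rw [key c, e1 c]
    rw [this]
    exact Measurable.ennreal_tsum fun j => (hmI j).indicator (hm j)
  · rw [lintegral_congr key]
    exact pvthq_stop_core hm hs hFm

/-- colour stopping sets, upper form -/
theorem pvux_th_stop (h : PvthOk ε C₀ A) {f : Conf PvPt → ℝ≥0∞} (hf : Measurable f) :
    (pvhbUp ε).E (fun q => ∫⁻ u, f (pvthRec (A (pvuxC q)) u (pvuxC q)) ∂pvthBit) ≤ ∫⁻ σ, f σ ∂(pvP ε) := by
  rw [← pvux_lintegral ε hf]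
  have hm : Measurable (fun g => ∫⁻ c, f (pvuxC (g, c)) ∂pvCol) := (hf.comp measurable_pvuxC).lintegral_prod_right'
  refine pvhb_int_ae (pvGeo ε) hm.aemeasurable ?_
  filter_upwards [pvux_th_stop_q h hf] with g hg
  rw [pvup_int_of_meas _ hg.1]
  exact hg.2

/-- **(inv) FOR THE HYBRID LAW, UPPER FORM** -/
theorem pvux_th_inv (h : PvthOk ε C₀ A) {H : Conf PvPt → ℝ≥0∞} (hH : AEMeasurable H (pvP ε)) :
    (pvhbUp ε).E (fun q => ∫⁻ x, H (pvthR C₀ A (pvuxC q) x) ∂(pvthSeed ε)) ≤ ∫⁻ ω, H ω ∂(pvP ε) := by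
  have hP := pv_isPpp ε
  have hO : MeasurableSet ((Prod.fst ⁻¹' C₀)ᶜ : Set PvPt) := (measurable_fst h.meas).compl
  have hm : Measurable (hH.mk H) := hH.measurable_mk
  have hF : Measurable fun σ' : Conf PvPt => ∫⁻ η, hH.mk H (Conf.spl (Prod.fst ⁻¹' C₀)ᶜ (σ', η)) ∂(pvP ε) :=
    (hm.comp (Conf.measurable_spl hO)).lintegral_prod_right'
  have e1 : ∀ᵐ σ ∂(pvP ε), ∫⁻ x, H (pvthR C₀ A σ x) ∂(pvthSeed ε)
      ≤ ∫⁻ u, (fun σ' : Conf PvPt => ∫⁻ η, hH.mk H (Conf.spl (Prod.fst ⁻¹' C₀)ᶜ (σ', η)) ∂(pvP ε)) (pvthRec (A σ) u σ) ∂pvthBit := by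
    filter_upwards [pvth_ae h hH.ae_eq_mk, h.disj] with σ hσ hd
    rw [lintegral_congr_ae hσ, pvth_seed_lintegral ε h.meas A σ hm]
    rw [pvth_bit_lintegral (A σ) (φ := fun u => ∫⁻ η, hH.mk H (Conf.spl (Prod.fst ⁻¹' C₀)ᶜ (pvthRec (A σ) u σ, η)) ∂(pvP ε)) fun u u' huu => by
      show ∫⁻ η, _ ∂_ = ∫⁻ η, _ ∂_
      rw [pvth_rec_congr (A := (↑(A σ) : Set ℂ)) (fun z hz => huu z hz)]]
    refine le_of_eq ?_
    congr 1
    refine Finset.sum_congr rfl fun x _ => ?_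
    refine lintegral_congr fun η => ?_
    rw [pvth_rec_spl hd]
  have e2 : (pvhbUp ε).E (fun q => ∫⁻ x, H (pvthR C₀ A (pvuxC q) x) ∂(pvthSeed ε))
      ≤ (pvhbUp ε).E (fun q => ∫⁻ u, (fun σ' : Conf PvPt => ∫⁻ η, hH.mk H (Conf.spl (Prod.fst ⁻¹' C₀)ᶜ (σ', η)) ∂(pvP ε)) (pvthRec (A (pvuxC q)) u (pvuxC q)) ∂pvthBit) :=
    pvux_iter_mono_ae (pvGeo ε) pvCol (F := fun q => ∫⁻ x, H (pvthR C₀ A (pvuxC q) x) ∂(pvthSeed ε))
      (F' := fun q => ∫⁻ u, (fun σ' : Conf PvPt => ∫⁻ η, hH.mk H (Conf.spl (Prod.fst ⁻¹' C₀)ᶜ (σ', η)) ∂(pvP ε)) (pvthRec (A (pvuxC q)) u (pvuxC q)) ∂pvthBit) (pvux_ae ε e1)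
  refine e2.trans ?_
  refine (pvux_th_stop h hF).trans ?_
  rw [← hP.lintegral_spl hO hm]
  exact (lintegral_congr_ae hH.ae_eq_mk).ge

/-- **N1' FOR THE HYBRID LAW, UPPER FORM** (`pvth_cyl`) -/
theorem pvux_th_cyl (h : PvthOk ε C₀ A)
    {X : ι → Conf PvPt → ℂ} {act cn cnw : ι → Conf PvPt → ℝ≥0∞} {Y : Conf PvPt → ℂ} {w Θ : Conf PvPt → ℝ≥0∞} {S : Set (Conf PvPt)} {D q bad θ : ℝ≥0∞} (hD : D ≠ ∞)
    (hfix : ∀ᵐ σ ∂(pvP ε), ∀ᵐ x ∂(pvthSeed ε), ∀ i, X i (pvthR C₀ A σ x) = X i σ ∧ cnw i (pvthR C₀ A σ x) = cnw i σ)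
    (hY : AEMeasurable Y (pvP ε)) (hw : AEMeasurable w (pvP ε)) (hΘ : AEMeasurable Θ (pvP ε))
    (hnorm : ∀ᵐ σ ∂(pvP ε), (∃ i, cnw i σ ≠ 0) → ∫⁻ x, w (pvthR C₀ A σ x) ∂(pvthSeed ε) = 1)
    (hwD : ∀ᵐ ω ∂(pvP ε), w ω ≤ D * S.indicator 1 ω)
    (hC1 : ∀ᵐ σ ∂(pvP ε), ∀ i, act i σ ≤ cn i σ)
    (hC3 : (pvhbUp ε).E (fun p => ∑' i, ‖X i (pvuxC p) + pvtiHat (fun _ => pvthSeed ε) (pvthR C₀ A) w Y (pvuxC p)‖ₑ ^ 2 * cn i (pvuxC p))
      ≤ q⁻¹ * (pvhbUp ε).E (fun p => ∑' i, ‖X i (pvuxC p) + pvtiHat (fun _ => pvthSeed ε) (pvthR C₀ A) w Y (pvuxC p)‖ₑ ^ 2 * cnw i (pvuxC p)) + bad)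
    (hC2 : ∀ᵐ ω ∂(pvP ε), ∑' i, ‖X i ω + Y ω‖ₑ ^ 2 * cnw i ω * S.indicator 1 ω ≤ Θ ω)
    (hθ : ∫⁻ ω, Θ ω ∂(pvP ε) ≤ θ) :
    (pvhbUp ε).E (fun p => ∑' i, ‖X i (pvuxC p) + pvtiHat (fun _ => pvthSeed ε) (pvthR C₀ A) w Y (pvuxC p)‖ₑ ^ 2 * act i (pvuxC p)) ≤ q⁻¹ * (D * θ) + bad := by
  exact pvux_core_cyl (γ := pvGeo ε) (κ := pvCol) (ν := fun _ => pvthSeed ε) (r := pvthR C₀ A) pvuxC hD (pvux_ae ε hfix) (pvux_ae ε (pvth_aemeasurable h hY))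
    (pvux_ae ε (pvth_aemeasurable h hw)) (pvux_ae ε hnorm) (pvux_ae ε (pvth_ae h hwD)) (pvux_ae ε hC1) hC3 (pvux_ae ε (pvth_ae h hC2)) ((pvux_th_inv h hΘ).trans hθ)

end hyb

/-! ## 5. the hybrid resampling of `Tr/DomY` -/

section domy

variable {ι : Type*}

/-- at a fixed geometry the mean over the fresh colours off a finite stopping set is measurable in the kept colours -/
theorem pvux_stp_meas {V : Type} {U : Set (V → Bool)} {S : (V → Bool) → Finset V} (h : PvdyStp U S) {H : (V → Bool) → ℝ≥0∞} (mH : Measurable H) :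
    Measurable fun s => ∫⁻ κ, H (pvdyMx U S s κ) ∂colLaw V := by
  classical
  have := h.cnt.to_subtype
  have mI : ∀ T : Finset V, Measurable fun s : V → Bool => ∫⁻ κ, H (pvfqMix (↑T : Set V) (s, κ)) ∂colLaw V :=
    fun T => (mH.comp (measurable_pvfqMix _)).lintegral_prod_right'
  have e : (fun s => ∫⁻ κ, H (pvdyMx U S s κ) ∂colLaw V) = fun s => Uᶜ.indicator H s +
      ∑' T : ↥(S '' U), ({s | s ∈ U ∧ S s = (T : Finset V)} : Set (V → Bool)).indicator (fun s => ∫⁻ κ, H (pvfqMix (↑(T : Finset V) : Set V) (s, κ)) ∂colLaw V) s := by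
    funext s
    by_cases hs : s ∈ U
    · rw [indicator_of_notMem (show s ∉ Uᶜ from fun hh => hh hs), zero_add, tsum_eq_single (⟨S s, mem_image_of_mem S hs⟩ : ↥(S '' U))]
      · rw [indicator_of_mem (show s ∈ {s' | s' ∈ U ∧ S s' = S s} from ⟨hs, rfl⟩)]
        refine lintegral_congr fun κ => ?_
        unfold pvdyMx
        rw [if_pos hs]
      · intro T hT
        refine indicator_of_notMem (fun hh => hT ?_) _
        exact Subtype.ext hh.2.symm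
    · rw [indicator_of_mem (show s ∈ Uᶜ from hs)]
      have h1 : ∀ κ, pvdyMx U S s κ = s := fun κ => if_neg hs
      simp only [h1, lintegral_const, measure_univ, mul_one]
      rw [ENNReal.tsum_eq_zero.2 fun T => indicator_of_notMem (fun hh => hs hh.1) _, add_zero]
  rw [e]
  exact (mH.indicator h.meas.compl).add (Measurable.ennreal_tsum fun T => (mI T).indicator (h.level_meas T))

/-- **RECOLOURING LEMMA at a fixed geometry `g`, in the colours `c : PvColT`**: measurable, and the mean is preserved -/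
theorem pvux_dy_rec_q {yf : Conf PvPt → Set ℂ} (hS : PvdyStop yf) {g : PvGeoT} (hg : PvgOk g) {F : Conf PvPt → ℝ≥0∞} (mF : Measurable F) :
    Measurable (fun c : PvColT => ∫⁻ κ, F (pvdyRec (yf (pvuxC (g, c))) (pvuxC (g, c)) κ) ∂colLaw ℂ) ∧
    ∫⁻ c, ∫⁻ κ, F (pvdyRec (yf (pvuxC (g, c))) (pvuxC (g, c)) κ) ∂colLaw ℂ ∂pvCol = ∫⁻ c, F (pvuxC (g, c)) ∂pvCol := by
  classical
  set Y : Set ℂ := pvgSites g with hYd
  have hY : Y.Countable := (Set.to_countable (pvgAct g)).image _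
  have ea : ∀ c, pvuxC (g, c) = cfOf Y (pvgColAt g c) := fun c => hg.conf_eq c
  have eb : ∀ σ : ℂ → Bool, pvuxC (g, fun i => σ (pvgSite g i)) = cfOf Y σ := by
    intro σ
    rw [ea]
    refine pvdy_cfOf_congr fun z hz => ?_
    show σ (pvgSite g (pvgIdx g z)) = σ z
    rw [(pvqu_idx_spec hz).2]
  -- measurability at the fixed site set
  have mG2 : Measurable fun σ : ℂ → Bool => ∫⁻ κ, F (pvdyRec (yf (cfOf Y σ)) (cfOf Y σ) κ) ∂colLaw ℂ := pvdy_rec_meas hS hY mF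
  have mΨ : Measurable fun c : PvColT => pvgColAt g c := measurable_pi_lambda _ fun z => measurable_pi_apply (pvgIdx g z)
  have mΦ : Measurable fun (σ : ℂ → Bool) => σ ∘ pvgSite g := measurable_pi_lambda _ fun i => measurable_pi_apply (pvgSite g i)
  have m1 : Measurable (fun c : PvColT => ∫⁻ κ, F (pvdyRec (yf (pvuxC (g, c))) (pvuxC (g, c)) κ) ∂colLaw ℂ) := by
    simp_rw [ea]
    exact mG2.comp mΨ
  have m2 : Measurable fun c : PvColT => F (pvuxC (g, c)) := mF.comp (pvqu_Qm_meas g)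
  refine ⟨m1, ?_⟩
  have hmap : pvCol = (colLaw ℂ).map (fun σ : ℂ → Bool => σ ∘ pvgSite g) := (pvf_colLaw_comp (pvgSite g) hg.inj).symm
  rw [hmap, lintegral_map m1 mΦ, lintegral_map m2 mΦ]
  have e1 : ∀ σ : ℂ → Bool, pvuxC (g, σ ∘ pvgSite g) = cfOf Y σ := eb
  simp_rw [e1]
  exact pvdy_rec_q hS hY mF

/-- **INVARIANCE UNDER THE HYBRID RESAMPLING OF 193, UPPER FORM** (`pvdy_inv`) -/
theorem pvux_dy_inv (ε : ℝ) {C : Set ℂ} (hC : MeasurableSet C) {yf : Conf PvPt → Set ℂ} (hS : PvdyStop yf) {H : Conf PvPt → ℝ≥0∞} (mH : Measurable H) :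
    (pvhbUp ε).E (fun q => ∫⁻ p, H (pvdyR C yf (pvuxC q) p) ∂pvdyNu ε) ≤ ∫⁻ ω, H ω ∂pvP ε := by
  have := (pv_isPpp ε).prob
  have hO : MeasurableSet (Cᶜ ×ˢ (univ : Set Bool)) := hC.compl.prod MeasurableSet.univ
  let G : Conf PvPt → ℝ≥0∞ := fun ω' => ∫⁻ ω₂, H (Conf.spl (Cᶜ ×ˢ univ) (ω', ω₂)) ∂pvP ε
  have mG : Measurable G := (mH.comp (Conf.measurable_spl hO)).lintegral_prod_right'
  have e2 : ∫⁻ ω, H ω ∂pvP ε = ∫⁻ ω, G ω ∂pvP ε := (pv_isPpp ε).lintegral_spl hO mH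
  rw [e2, ← pvux_lintegral ε mG]
  have mw : Measurable fun g : PvGeoT => ∫⁻ c, G (pvuxC (g, c)) ∂pvCol := (mG.comp measurable_pvuxC).lintegral_prod_right'
  refine pvhb_iter_E_ae (pvGeo ε) pvCol mw.aemeasurable ?_
  filter_upwards [pvqu_ok_ae ε] with g hg
  obtain ⟨m1, e1⟩ := pvux_dy_rec_q hS hg mG
  have e3 : ∀ c : PvColT, ∫⁻ p, H (pvdyR C yf (pvuxC (g, c)) p) ∂pvdyNu ε = ∫⁻ κ, G (pvdyRec (yf (pvuxC (g, c))) (pvuxC (g, c)) κ) ∂colLaw ℂ := by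
    intro c
    have hc : (cfSites (pvuxC (g, c))).Countable := by
      show (cfSites (pvConf (pvMerge (g, c)))).Countable
      rw [pvqu_cfSites]
      exact (Set.to_countable (pvgAct g)).image _
    exact pvdy_lintegral_nu ε hC yf mH hc
  simp_rw [e3]
  rw [pvup_int_of_meas pvCol m1, e1]

/-- **THE JENSEN + INVARIANCE HALF OF TR23, UPPER FORM, sectionwise measurability** (`pvdy_core_ae'`) -/
theorem pvux_dy_core' (ε : ℝ) {C : Set ℂ} (hC : MeasurableSet C) {yf : Conf PvPt → Set ℂ} (hS : PvdyStop yf)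
    {X : ι → Conf PvPt → ℂ} {a : ι → Conf PvPt → ℝ≥0∞} {Y : Conf PvPt → ℂ} {w H : Conf PvPt → ℝ≥0∞} (mH : Measurable H)
    (mY : ∀ᵐ ω ∂pvP ε, AEMeasurable (fun p => Y (pvdyR C yf ω p)) (pvdyNu ε)) (mw : ∀ᵐ ω ∂pvP ε, AEMeasurable (fun p => w (pvdyR C yf ω p)) (pvdyNu ε))
    (hfix : ∀ᵐ ω ∂pvP ε, ∀ p i, a i (pvdyR C yf ω p) = a i ω ∧ (a i ω ≠ 0 → X i (pvdyR C yf ω p) = X i ω))
    (hnorm : ∀ᵐ ω ∂pvP ε, (∃ i, a i ω ≠ 0) → ∫⁻ p, w (pvdyR C yf ω p) ∂pvdyNu ε = 1)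
    (hdom : ∀ᵐ ω ∂pvP ε, ∑' i, ‖X i ω + Y ω‖ₑ ^ 2 * a i ω * w ω ≤ H ω) :
    (pvhbUp ε).E (fun q => ∑' i, ‖X i (pvuxC q) + pvdyHat ε C yf w Y (pvuxC q)‖ₑ ^ 2 * a i (pvuxC q)) ≤ ∫⁻ ω, H ω ∂pvP ε := by
  classical
  obtain ⟨N, hN, mN, h0⟩ := exists_measurable_superset_of_null hdom
  have mH' : Measurable fun ω => H ω + N.indicator (fun _ => ∞) ω := mH.add (measurable_const.indicator mN)
  have hdom' : ∀ ω, ∑' i, ‖X i ω + Y ω‖ₑ ^ 2 * a i ω * w ω ≤ H ω + N.indicator (fun _ => ∞) ω := by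
    intro ω
    by_cases hω : ω ∈ N
    · rw [indicator_of_mem hω, add_top]; exact le_top
    · rw [indicator_of_notMem hω, add_zero]
      by_contra hh
      exact hω (hN hh)
  let X' : ι → Conf PvPt → ℂ := fun i ω => if a i ω = 0 then 0 else X i ω
  have hX' : ∀ (i : ι) (ω : Conf PvPt) (y : ℂ), ‖X' i ω + y‖ₑ ^ 2 * a i ω = ‖X i ω + y‖ₑ ^ 2 * a i ω := by
    intro i ω y
    by_cases h : a i ω = 0
    · rw [h, mul_zero, mul_zero]
    · simp only [X', if_neg h]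
  have k := pvux_core_fam (γ := pvGeo ε) (κ := pvCol) (ν := fun _ => pvdyNu ε) (r := pvdyR C yf) pvuxC (X := X') (a := a) (Y := Y) (w := w)
    (H := fun ω => H ω + N.indicator (fun _ => ∞) ω) ?_ (pvux_ae ε mY) (pvux_ae ε mw) (pvux_ae ε hnorm) ?_
  · have e : (fun q => ∑' i, ‖X i (pvuxC q) + pvdyHat ε C yf w Y (pvuxC q)‖ₑ ^ 2 * a i (pvuxC q))
        = fun p => ∑' i, ‖X' i (pvuxC p) + pvtiHat (fun _ => pvdyNu ε) (pvdyR C yf) w Y (pvuxC p)‖ₑ ^ 2 * a i (pvuxC p) := by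
      funext q
      refine tsum_congr fun i => ?_
      exact (hX' i _ _).symm
    rw [e]
    refine le_trans k ((pvux_dy_inv ε hC hS mH').trans (le_of_eq ?_))
    rw [lintegral_add_left mH, lintegral_indicator mN, setLIntegral_measure_zero _ _ h0, add_zero]
  · refine pvux_ae ε ?_
    filter_upwards [hfix] with ω h
    refine ae_of_all _ fun p i => ⟨?_, (h p i).1⟩
    by_cases h0 : a i ω = 0
    · simp only [X', (h p i).1, h0, if_true]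
    · simp only [X', (h p i).1, h0, if_false]
      exact (h p i).2 h0
  · refine pvux_ae ε (ae_of_all _ fun ω => ae_of_all _ fun p => le_trans (le_of_eq ?_) (hdom' _))
    refine tsum_congr fun i => ?_
    rw [hX']

/-- the same, `Y`, `w`, `H` measurable (`pvdy_core`) -/
theorem pvux_dy_core (ε : ℝ) {C : Set ℂ} (hC : MeasurableSet C) {yf : Conf PvPt → Set ℂ} (hS : PvdyStop yf)
    {X : ι → Conf PvPt → ℂ} {a : ι → Conf PvPt → ℝ≥0∞} {Y : Conf PvPt → ℂ} {w H : Conf PvPt → ℝ≥0∞} (mY : Measurable Y) (mw : Measurable w) (mH : Measurable H)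
    (hfix : ∀ᵐ ω ∂pvP ε, ∀ p i, a i (pvdyR C yf ω p) = a i ω ∧ (a i ω ≠ 0 → X i (pvdyR C yf ω p) = X i ω))
    (hnorm : ∀ᵐ ω ∂pvP ε, (∃ i, a i ω ≠ 0) → ∫⁻ p, w (pvdyR C yf ω p) ∂pvdyNu ε = 1)
    (hdom : ∀ᵐ ω ∂pvP ε, ∑' i, ‖X i ω + Y ω‖ₑ ^ 2 * a i ω * w ω ≤ H ω) :
    (pvhbUp ε).E (fun q => ∑' i, ‖X i (pvuxC q) + pvdyHat ε C yf w Y (pvuxC q)‖ₑ ^ 2 * a i (pvuxC q)) ≤ ∫⁻ ω, H ω ∂pvP ε := by
  refine pvux_dy_core' ε hC hS mH ?_ ?_ hfix hnorm hdom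
  · filter_upwards [pvcn_LF_ae ε] with ω hω
    exact (mY.comp (pvdy_measurable_R hC yf (pvdy_countable_of_LF hω))).aemeasurable
  · filter_upwards [pvcn_LF_ae ε] with ω hω
    exact (mw.comp (pvdy_measurable_R hC yf (pvdy_countable_of_LF hω))).aemeasurable

variable {S : PvdmSys ι} {ε : ℝ} {w0 : Conf PvPt → ℝ≥0∞}

/-- **TR23 FOR THE CONCRETE `ŷ_c` OF 193, UPPER EXPECTATION FORM** (`pvdy_main`) -/
theorem pvux_dy_main (h : S.HypY ε w0) :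
    S.q * (pvhbUp ε).E (fun p => ∑' i, (S.A i).indicator (fun ω => ‖S.X i ω + pvdyHat ε S.C (S.yf i) w0 S.Y ω‖ₑ ^ 2) (pvuxC p)) ≤ ∫⁻ ω, S.H ω ∂pvP ε :=
  pvdy_main_up h

/-- **UPPER PROBABILITY FORM** (`pvdy_cheb`): `B` = ANY event of (geometry, colours) -/
theorem pvux_dy_cheb (h : S.HypY ε w0) {B : Set (PvGeoT × PvColT)} {u : ℝ≥0∞}
    (hBu : ∀ p ∈ B, ∃ i, pvuxC p ∈ S.A i ∧ u ≤ ‖S.X i (pvuxC p) + pvdyHat ε S.C (S.yf i) w0 S.Y (pvuxC p)‖ₑ) :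
    S.q * (u ^ 2 * (pvhbUp ε).P B) ≤ ∫⁻ ω, S.H ω ∂pvP ε :=
  pvdy_up_cheb h hBu

end domy

end Claimed.Agent.R289
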