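-- KEEP
import Claimed.Agent.R289.Tr.BandFit

/-!
# Row 289 (S0537), THE WALL, road E, FIT-DET, file Tr/WordLk : **`PvfeLk` (FitReg v6; the v5 form `(3 ‖d‖, pvtN8 Z)` is what the proof gives) FOR THE WORD OF THE CORRIDOR OF `pvtb_fit_mouth_pl`**      (helper210; prefix `pvlq_`; asked by 209, id 88843 (2))

The clause `cl` of `pvtb_fit_mouth_pl` EXCUSES the cells of the two whiskers: the corridor may leave its whisker and come back to it higher up.   So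
* `nt + 1` := the length of the maximal initial run of the corridor ALONG its whisker (`pvlq_run`); the cell after the run is off the whiskers, hence off `pvtwN 5 E`, hence the last cell of the run is off `pvtwN 4 E`;
* the cells of the whisker above the run are off `pvtwN 4 (cells of the own disc)` by CONVEXITY (`pvlq_conv`: `c ∈ pvtwN k (pvtCells δ A)` iff `A` meets the square of half side `(k + 1/2) δ` round the centre of `c`: `pvlq_N_cells`),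
  off `pvtwN 4 (cells of K)` by the hypotheses `wKt`, `wKs` (geometry of the doors: the late stretch lies in the box of the level, the whisker starts `3 ρ h / 8` above `y`), off the other disc by `hfar`.
**`pvlq_word_lk`** : the statement.
-/

set_option autoImplicit false

namespace Claimed.Agent.R289

open Set Metric

/-! ## 1. fattened cells = big squares, convexity -/

theorem pvlq_aux1 {δ : ℝ} (hδ : 0 < δ) {k : ℕ} {c v : ℤ} {t : ℝ} (h1 : (v : ℝ) * δ ≤ t) (h2 : t ≤ ((v : ℝ) + 1) * δ) (h3 : c ≤ v + k) (h4 : v ≤ c + k) :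
    |t - ((c : ℝ) + 1 / 2) * δ| ≤ ((k : ℝ) + 1 / 2) * δ := by
  have g3 : (c : ℝ) ≤ v + k := by exact_mod_cast h3
  have g4 : (v : ℝ) ≤ c + k := by exact_mod_cast h4
  rw [abs_le]
  constructor <;> nlinarith

theorem pvlq_aux2 {δ : ℝ} (hδ : 0 < δ) {k : ℕ} {c : ℤ} {t : ℝ} (h : |t - ((c : ℝ) + 1 / 2) * δ| ≤ ((k : ℝ) + 1 / 2) * δ) :
    ∃ v : ℤ, (v : ℝ) * δ ≤ t ∧ t ≤ ((v : ℝ) + 1) * δ ∧ c ≤ v + k ∧ v ≤ c + k := by
  rw [abs_le] at h
  obtain ⟨h1, h2⟩ := h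
  rcases le_or_gt ⌊t / δ⌋ (c + k) with hc | hc
  · refine ⟨⌊t / δ⌋, (le_div_iff₀ hδ).1 (Int.floor_le _), (div_le_iff₀ hδ).1 (Int.lt_floor_add_one _).le, ?_, hc⟩
    have : ((c - k : ℤ) : ℝ) ≤ t / δ := by
      rw [le_div_iff₀ hδ]; push_cast; nlinarith
    have := Int.le_floor.2 this
    omega
  · refine ⟨c + k, ?_, ?_, by omega, le_rfl⟩
    · have h3 : ((c + k : ℤ) : ℝ) ≤ t / δ := by
        have : ((c + k : ℤ) : ℝ) ≤ (⌊t / δ⌋ : ℝ) := by exact_mod_cast hc.le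
        exact this.trans (Int.floor_le _)
      exact (le_div_iff₀ hδ).1 h3
    · push_cast; nlinarith

/-- `c ∈ pvtwN k (pvtCells δ A)` iff `A` meets the closed square of half side `(k + 1/2) δ` round the centre of `c` -/
theorem pvlq_N_cells {δ : ℝ} (hδ : 0 < δ) {k : ℕ} {A : Set ℂ} {c : ℤ × ℤ} :
    c ∈ pvtwN k (pvtCells δ A) ↔ ∃ q ∈ A, |q.re - (pvtCtr δ c).re| ≤ ((k : ℝ) + 1 / 2) * δ ∧ |q.im - (pvtCtr δ c).im| ≤ ((k : ℝ) + 1 / 2) * δ := by
  constructor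
  · rintro ⟨v, ⟨q, ⟨k1, k2, k3, k4⟩, hqA⟩, h1, h2, h3, h4⟩
    exact ⟨q, hqA, pvlq_aux1 hδ k1 k2 h1 h2, pvlq_aux1 hδ k3 k4 h3 h4⟩
  · rintro ⟨q, hqA, h1, h2⟩
    obtain ⟨v1, a1, a2, a3, a4⟩ := pvlq_aux2 hδ h1
    obtain ⟨v2, b1, b2, b3, b4⟩ := pvlq_aux2 hδ h2
    exact ⟨(v1, v2), ⟨q, ⟨a1, a2, b1, b2⟩, hqA⟩, a3, a4, b3, b4⟩

theorem pvlq_abs_conv {t X0 X1 M : ℝ} (h0 : 0 ≤ t) (h1 : t ≤ 1) (a0 : |X0| ≤ M) (a1 : |X1| ≤ M) : |(1 - t) * X0 + t * X1| ≤ M := by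
  rw [abs_le] at *
  constructor <;> nlinarith

/-- **CONVEXITY ALONG A WHISKER** -/
theorem pvlq_conv {δ : ℝ} (hδ : 0 < δ) {k : ℕ} {A : Set ℂ} (hA : Convex ℝ A) {p d : ℤ × ℤ} {a b : ℕ} (hab : a ≤ b)
    (h0 : p ∈ pvtwN k (pvtCells δ A)) (hb : p + (b : ℤ) • d ∈ pvtwN k (pvtCells δ A)) : p + (a : ℤ) • d ∈ pvtwN k (pvtCells δ A) := by
  rcases Nat.eq_zero_or_pos b with rfl | hb0
  · have : a = 0 := by omega
    rw [this]; exact hb
  rw [pvlq_N_cells hδ] at h0 hb ⊢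
  obtain ⟨q0, hq0, x0, y0⟩ := h0
  obtain ⟨q1, hq1, x1, y1⟩ := hb
  have hbp : (0 : ℝ) < b := by exact_mod_cast hb0
  have hle : (a : ℝ) ≤ b := by exact_mod_cast hab
  have t0 : 0 ≤ (a : ℝ) / b := by positivity
  have t1 : (a : ℝ) / b ≤ 1 := (div_le_one hbp).2 hle
  have tb : (a : ℝ) / b * b = a := div_mul_cancel₀ _ hbp.ne'
  refine ⟨(1 - (a : ℝ) / b) • q0 + ((a : ℝ) / b) • q1, hA hq0 hq1 (by linarith) t0 (by ring), ?_, ?_⟩
  · have e : ((1 - (a : ℝ) / b) • q0 + ((a : ℝ) / b) • q1).re - (pvtCtr δ (p + (a : ℤ) • d)).re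
        = (1 - (a : ℝ) / b) * (q0.re - (pvtCtr δ p).re) + (a : ℝ) / b * (q1.re - (pvtCtr δ (p + (b : ℤ) • d)).re) := by
      simp only [pvtCtr, Complex.add_re, Complex.real_smul, Complex.re_ofReal_mul, Prod.fst_add, Prod.smul_fst, smul_eq_mul]
      push_cast
      have : (a : ℝ) * (d.1 : ℝ) = (a : ℝ) / b * ((b : ℝ) * (d.1 : ℝ)) := by rw [← mul_assoc, tb]
      rw [this]; ring
    rw [e]; exact pvlq_abs_conv t0 t1 x0 x1
  · have e : ((1 - (a : ℝ) / b) • q0 + ((a : ℝ) / b) • q1).im - (pvtCtr δ (p + (a : ℤ) • d)).im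
        = (1 - (a : ℝ) / b) * (q0.im - (pvtCtr δ p).im) + (a : ℝ) / b * (q1.im - (pvtCtr δ (p + (b : ℤ) • d)).im) := by
      simp only [pvtCtr, Complex.add_im, Complex.real_smul, Complex.im_ofReal_mul, Prod.snd_add, Prod.smul_snd, smul_eq_mul]
      push_cast
      have : (a : ℝ) * (d.2 : ℝ) = (a : ℝ) / b * ((b : ℝ) * (d.2 : ℝ)) := by rw [← mul_assoc, tb]
      rw [this]; ring
    rw [e]; exact pvlq_abs_conv t0 t1 y0 y1

/-- a cell off the `4`-fattening of the cells of a disc is far from the centre of the disc -/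
theorem pvlq_disc_far {δ : ℝ} (hδ : 0 < δ) {y : ℂ} {r : ℝ} (hr : 0 ≤ r) {c : ℤ × ℤ} (hc : c ∉ pvtwN 4 (pvtCells δ (closedBall y r))) : r + 4 * δ < ‖pvtCtr δ c - y‖ := by
  by_contra hcon
  rw [not_lt] at hcon
  obtain ⟨q, hq1, hq2⟩ := exists_dist_le_le (x := pvtCtr δ c) (z := y) (by positivity : 0 ≤ 4 * δ) hr (by rw [dist_eq_norm]; linarith)
  apply hc
  rw [pvlq_N_cells hδ]
  rw [dist_comm, dist_eq_norm] at hq1
  refine ⟨q, mem_closedBall.2 hq2, ?_, ?_⟩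
  · have := (Complex.abs_re_le_norm (q - pvtCtr δ c)).trans hq1
    rw [Complex.sub_re] at this
    push_cast; linarith
  · have := (Complex.abs_im_le_norm (q - pvtCtr δ c)).trans hq1
    rw [Complex.sub_im] at this
    push_cast; linarith

/-- a cell in the `4`-fattening of the cells of a disc is close to the centre of the disc -/
theorem pvlq_disc_near {δ : ℝ} (hδ : 0 < δ) {y : ℂ} {r : ℝ} {c : ℤ × ℤ} (hc : c ∈ pvtwN 4 (pvtCells δ (closedBall y r))) : ‖pvtCtr δ c - y‖ ≤ r + 9 * δ := by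
  rw [pvlq_N_cells hδ] at hc
  obtain ⟨q, hq, h1, h2⟩ := hc
  rw [mem_closedBall, dist_eq_norm] at hq
  have h3 := Complex.norm_le_abs_re_add_abs_im (q - pvtCtr δ c)
  rw [Complex.sub_re, Complex.sub_im] at h3
  push_cast at h1 h2
  have e : pvtCtr δ c - y = (q - y) - (q - pvtCtr δ c) := by ring
  rw [e]
  exact (norm_sub_le _ _).trans (by linarith)

/-- a side neighbour of a cell of `pvtwN k E` lies in `pvtwN (k + 1) E` -/
theorem pvlq_N_adj {k : ℕ} {E : Set (ℤ × ℤ)} {c u : ℤ × ℤ} (hc : c ∈ pvtwN k E) (hu : pvtbG4.Adj c u) : u ∈ pvtwN (k + 1) E := by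
  obtain ⟨z, hz, h1, h2, h3, h4⟩ := hc
  rw [pvtb_G4_adj] at hu
  exact ⟨z, hz, by push_cast; omega, by push_cast; omega, by push_cast; omega, by push_cast; omega⟩

/-- the collar of a cell off `pvtwN 4 Z` misses the fattened cells of `Z` -/
theorem pvlq_collar {δ : ℝ} (hδ : 0 < δ) {Z : Set (ℤ × ℤ)} {c : ℤ × ℤ} (hc : c ∉ pvtwN 4 Z) : Disjoint (closedBall (pvtCtr δ c) (3 * δ)) (pvtU δ (pvtN8 Z)) := by
  rw [Set.disjoint_left]
  intro w hw hZ
  rw [mem_closedBall, dist_eq_norm] at hw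
  simp only [pvtU, Set.mem_iUnion, exists_prop] at hZ
  obtain ⟨u, hu, hwu⟩ := hZ
  have h3 := pvtw_N_symm (pvtb_ball_cells hδ hw hwu)
  rw [← pvtw_N_one] at hu
  have : c ∈ pvtwN 3 (pvtwN 1 Z) := pvtw_N_iff.2 ⟨u, hu, h3⟩
  rw [pvtw_N_add] at this
  exact hc this

/-! ## 2. the maximal run along the whisker -/

/-- **THE RUN**: the corridor follows its whisker for `a2 ≥ 1` steps, the next cell is off the forbidden set `X`; later the corridor meets its whisker only above the run -/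
theorem pvlq_run {n : ℕ} {f : ℕ → ℤ × ℤ} (h : PvtbCor (n + 1) f) {p d : ℤ × ℤ} (hd : d = (1, 0) ∨ d = (-1, 0) ∨ d = (0, 1) ∨ d = (0, -1)) {l : ℕ} (hl : 1 ≤ l)
    {X W' : Set (ℤ × ℤ)} (f0 : f 0 = p) (f1 : f 1 = p + d) (cl : ∀ i, i ≤ n + 1 → f i ∈ pvtbWh p d l ∨ f i ∈ W' ∨ f i ∉ X)
    (apart : ∀ u ∈ pvtbWh p d l, ∀ v ∈ W', u ≠ v ∧ ¬ pvtbG8.Adj u v) (hend : f (n + 1) ∈ W') :
    ∃ a2, 1 ≤ a2 ∧ a2 ≤ l ∧ a2 ≤ n ∧ (∀ a, a ≤ a2 → f a = p + (a : ℤ) • d) ∧ f (a2 + 1) ∉ X ∧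
      ∀ i, a2 ≤ i → i ≤ n + 1 → f i ∈ pvtbWh p d l → ∃ a, a2 ≤ a ∧ a ≤ l ∧ f i = p + (a : ℤ) • d := by
  classical
  obtain ⟨P, hP⟩ : ∃ P : ℕ → Prop, ∀ a, P a ↔ ∀ b, b ≤ a → f b = p + (b : ℤ) • d := ⟨_, fun _ => Iff.rfl⟩
  have P1 : P 1 := by
    rw [hP]
    intro b hb
    rcases (by omega : b = 0 ∨ b = 1) with rfl | rfl
    · simpa using f0
    · simpa using f1
  obtain ⟨a2, ha2⟩ : ∃ a2, a2 = Nat.findGreatest P l := ⟨_, rfl⟩
  have Pa2 : P a2 := by rw [ha2]; exact Nat.findGreatest_spec hl P1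
  have h1a : 1 ≤ a2 := by rw [ha2]; exact Nat.le_findGreatest hl P1
  have hal : a2 ≤ l := by rw [ha2]; exact Nat.findGreatest_le l
  have great : ∀ a, a2 < a → a ≤ l → ¬ P a := fun a h1 h2 => Nat.findGreatest_is_greatest (by rw [← ha2]; exact h1) h2
  have run := (hP a2).1 Pa2
  have han : a2 ≤ n := by
    by_contra hc
    have e := run (n + 1) (by omega)
    exact (apart _ ⟨n + 1, by omega, e⟩ _ hend).1 rfl
  have mem2 : f a2 ∈ pvtbWh p d l := ⟨a2, hal, run a2 le_rfl⟩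
  have adj := h.step a2 (by omega)
  have nW : f (a2 + 1) ∉ pvtbWh p d l := by
    rintro ⟨i, hi, e⟩
    have adj' := adj
    rw [e, run a2 le_rfl, pvtb_G4_adj] at adj'
    simp only [Prod.fst_add, Prod.snd_add, Prod.smul_fst, Prod.smul_snd, smul_eq_mul] at adj'
    have hcase : (i : ℤ) = a2 + 1 ∨ (i : ℤ) + 1 = a2 := by
      rcases hd with rfl | rfl | rfl | rfl <;> simp only at adj' <;> omega
    rcases hcase with hc | hc
    · have hi' : i = a2 + 1 := by omega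
      refine great (a2 + 1) (by omega) (by omega) ((hP _).2 fun b hb => ?_)
      rcases (by omega : b ≤ a2 ∨ b = a2 + 1) with hb' | rfl
      · exact run b hb'
      · rw [e, hi']
    · have hi' : i + 1 = a2 := by omega
      have := h.nb i (by omega)
      apply this
      rw [show i + 2 = a2 + 1 by omega, e, run i (by omega)]
  have nW' : f (a2 + 1) ∉ W' := by
    intro hw
    refine (apart _ mem2 _ hw).2 ?_
    rw [pvtb_G4_adj] at adj
    rw [pvtb_G8_adj]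
    refine ⟨fun e => ?_, by omega, by omega, by omega, by omega⟩
    rw [← e] at adj
    omega
  refine ⟨a2, h1a, hal, han, run, ?_, ?_⟩
  · rcases cl (a2 + 1) (by omega) with c | c | c
    · exact absurd c nW
    · exact absurd c nW'
    · exact c
  · rintro i hi1 hi2 ⟨a, ha, e⟩
    refine ⟨a, ?_, ha, e⟩
    by_contra hc
    have := pvtb_cor_inj h (i := i) (j := a) hi2 (by omega) (by rw [e, run a (by omega)])
    omega

/-! ## 3. the statement -/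

/-- the centres of the cells of a whisker -/
theorem pvlq_wh_near {δ : ℝ} (hδ : 0 < δ) {p d : ℤ × ℤ} (hd : d = (1, 0) ∨ d = (-1, 0) ∨ d = (0, 1) ∨ d = (0, -1)) {y : ℂ} {rM : ℝ} (ft : (pvtSq δ p ∩ closedBall y rM).Nonempty)
    {l : ℕ} {c : ℤ × ℤ} (hc : c ∈ pvtbWh p d l) : ‖pvtCtr δ c - y‖ ≤ rM + (2 + (l : ℝ)) * δ := by
  obtain ⟨a, ha, rfl⟩ := hc
  obtain ⟨q, hq1, hq2⟩ := ft
  rw [mem_closedBall, dist_eq_norm] at hq2
  have h1 := pvt_sq_diam (pvt_sq_ctr hδ.le (z := p)) hq1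
  have hal : (a : ℝ) ≤ l := by exact_mod_cast ha
  rw [pvtb_ctr_wh]
  have e : pvtCtr δ p + (a : ℂ) * ((δ : ℂ) * pvtZ d) - y = (pvtCtr δ p - q) + (q - y) + (a : ℂ) * ((δ : ℂ) * pvtZ d) := by ring
  have h2 : ‖(a : ℂ) * ((δ : ℂ) * pvtZ d)‖ = a * δ := by
    rw [norm_mul, norm_mul, (pvtb_Z_unit hd).2, mul_one, Complex.norm_natCast, Complex.norm_real, Real.norm_eq_abs, abs_of_pos hδ]
  rw [e]
  refine (norm_add_le _ _).trans ?_
  have := norm_add_le (pvtCtr δ p - q) (q - y)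
  rw [h2]
  nlinarith

/-- **`PvfeLk` FOR THE WORD OF THE CORRIDOR OF `pvtb_fit_mouth_pl`** (`j = 4`).      `wKt`, `wKs`: the cells of the two whiskers are off the `4`-fattening of the cells of `K`. -/
theorem pvlq_word_lk {δ : ℝ} (hδ : 0 < δ) {K : Set ℂ} {yt ys : ℂ} {rM rL : ℝ}
    {pt dt ps ds : ℤ × ℤ} {lt ls : ℕ} (hdt : dt = (1, 0) ∨ dt = (-1, 0) ∨ dt = (0, 1) ∨ dt = (0, -1)) (hds : ds = (1, 0) ∨ ds = (-1, 0) ∨ ds = (0, 1) ∨ ds = (0, -1))
    (ft : (pvtSq δ pt ∩ closedBall yt rM).Nonempty) (fs : (pvtSq δ ps ∩ closedBall ys rM).Nonempty)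
    (hlt : 1 ≤ lt) (hls : 1 ≤ ls) (hLt : (lt : ℝ) * δ ≤ rL) (hLs : (ls : ℝ) * δ ≤ rL)
    (hfar : 2 * rM + (2 * ((lt : ℝ) + ls) + 30) * δ < ‖yt - ys‖)
    (wKt : ∀ c ∈ pvtbWh pt dt lt, c ∉ pvtwN 4 (pvtCells δ K)) (wKs : ∀ c ∈ pvtbWh ps ds ls, c ∉ pvtwN 4 (pvtCells δ K))
    {n : ℕ} {f : ℕ → ℤ × ℤ} (h : PvtbCor (n + 1) f) (f0 : f 0 = pt) (f1 : f 1 = pt + dt) (fn : f n = ps + ds) (fn1 : f (n + 1) = ps)
    (cl : ∀ i, i ≤ n + 1 → f i ∈ pvtbWh pt dt lt ∨ f i ∈ pvtbWh ps ds ls ∨ f i ∉ pvtwN 5 (pvtCells δ (K ∪ closedBall yt rM ∪ closedBall ys rM)))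
    {Z : Set (ℤ × ℤ)} (hZ : Z ⊆ pvtCells δ (K ∪ closedBall yt rM ∪ closedBall ys rM)) :
    PvfeLk δ (rM + 4 * δ) rL ys yt (pvtbDoor δ f 0) ((δ : ℂ) * pvtZ (f 1 - f 0)) (pvtbWord n f) Z := by
  have hr : 0 ≤ rM := by
    obtain ⟨q, -, hq⟩ := ft
    exact dist_nonneg.trans (mem_closedBall.1 hq)
  have l0t : (0 : ℝ) ≤ lt := Nat.cast_nonneg _
  have l0s : (0 : ℝ) ≤ ls := Nat.cast_nonneg _
  have hsymm : ‖ys - yt‖ = ‖yt - ys‖ := norm_sub_rev _ _
  have tri : ∀ w : ℂ, ‖yt - ys‖ ≤ ‖w - yt‖ + ‖w - ys‖ := by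
    intro w
    have e : yt - ys = -(w - yt) + (w - ys) := by ring
    have := norm_add_le (-(w - yt)) (w - ys)
    rwa [← e, norm_neg] at this
  -- the whiskers against the discs
  have nearT : ∀ c ∈ pvtbWh pt dt lt, ‖pvtCtr δ c - yt‖ ≤ rM + (2 + (lt : ℝ)) * δ := fun c hc => pvlq_wh_near hδ hdt ft hc
  have nearS : ∀ c ∈ pvtbWh ps ds ls, ‖pvtCtr δ c - ys‖ ≤ rM + (2 + (ls : ℝ)) * δ := fun c hc => pvlq_wh_near hδ hds fs hc
  have farT : ∀ c ∈ pvtbWh pt dt lt, rM + 9 * δ < ‖pvtCtr δ c - ys‖ := by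
    intro c hc
    have := nearT c hc; have := tri (pvtCtr δ c); nlinarith
  have farS : ∀ c ∈ pvtbWh ps ds ls, rM + 9 * δ < ‖pvtCtr δ c - yt‖ := by
    intro c hc
    have := nearS c hc; have := tri (pvtCtr δ c); nlinarith
  -- the whiskers are apart
  have apart : ∀ u ∈ pvtbWh pt dt lt, ∀ v ∈ pvtbWh ps ds ls, u ≠ v ∧ ¬ pvtbG8.Adj u v := by
    intro u hu v hv
    have key : v ∉ pvtwN 1 {u} := by
      intro huv
      have h3 := pvtc_pl_sq_close hδ huv (pvt_sq_ctr hδ.le (z := u)) (pvt_sq_ctr hδ.le (z := v))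
      have h4 := nearT u hu
      have h5 := nearS v hv
      have h6 := tri (pvtCtr δ u)
      have h7 : ‖pvtCtr δ u - ys‖ ≤ ‖pvtCtr δ u - pvtCtr δ v‖ + ‖pvtCtr δ v - ys‖ := by
        have e : pvtCtr δ u - ys = (pvtCtr δ u - pvtCtr δ v) + (pvtCtr δ v - ys) := by ring
        rw [e]; exact norm_add_le _ _
      push_cast at h3
      nlinarith
    refine ⟨fun e => key ⟨u, rfl, by rw [e]; omega, by rw [e]; omega, by rw [e]; omega, by rw [e]; omega⟩, fun e => ?_⟩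
    obtain ⟨_, e1, e2, e3, e4⟩ := e
    exact key ⟨u, rfl, by push_cast; omega, by push_cast; omega, by push_cast; omega, by push_cast; omega⟩
  have apart' : ∀ u ∈ pvtbWh ps ds ls, ∀ v ∈ pvtbWh pt dt lt, u ≠ v ∧ ¬ pvtbG8.Adj u v := fun u hu v hv =>
    ⟨fun e => (apart v hv u hu).1 e.symm, fun e => (apart v hv u hu).2 e.symm⟩
  have memT0 : pt ∈ pvtbWh pt dt lt := ⟨0, Nat.zero_le _, by simp⟩
  have memS0 : ps ∈ pvtbWh ps ds ls := ⟨0, Nat.zero_le _, by simp⟩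
  -- the two runs
  obtain ⟨a2, a21, a2l, a2n, ra, xa, wa⟩ := pvlq_run h hdt hlt f0 f1 cl apart (by rw [fn1]; exact memS0)
  have hg := pvtb_cor_rev h
  obtain ⟨b2, b21, b2l, b2n, rb, xb, wb⟩ := pvlq_run hg hds hls (W' := pvtbWh pt dt lt) (X := pvtwN 5 (pvtCells δ (K ∪ closedBall yt rM ∪ closedBall ys rM)))
    (by simpa using fn1) (by simpa using fn)
    (fun i hi => by
      rcases cl (n + 1 - i) (by omega) with c | c | c
      · exact Or.inr (Or.inl c)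
      · exact Or.inl c
      · exact Or.inr (Or.inr c))
    apart' (by simp only [Nat.sub_self, f0]; exact memT0)
  -- the runs are disjoint
  have hab : a2 + b2 ≤ n := by
    by_contra hc
    have e1 := ra a2 le_rfl
    have e2 := rb (n + 1 - a2) (by omega)
    rw [show n + 1 - (n + 1 - a2) = a2 by omega] at e2
    exact (apart _ ⟨a2, a2l, e1⟩ _ ⟨n + 1 - a2, by omega, e2⟩).1 rfl
  -- the union
  have hE : ∀ c, c ∉ pvtwN 4 (pvtCells δ K) → c ∉ pvtwN 4 (pvtCells δ (closedBall yt rM)) → c ∉ pvtwN 4 (pvtCells δ (closedBall ys rM)) →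
      c ∉ pvtwN 4 (pvtCells δ (K ∪ closedBall yt rM ∪ closedBall ys rM)) := by
    intro c h1 h2 h3 hc
    rw [pvtb_cells_union, pvtb_cells_union, pvtw_N_union, pvtw_N_union] at hc
    rcases hc with (hc | hc) | hc
    · exact h1 hc
    · exact h2 hc
    · exact h3 hc
  have subT : pvtwN 4 (pvtCells δ (closedBall yt rM)) ⊆ pvtwN 4 (pvtCells δ (K ∪ closedBall yt rM ∪ closedBall ys rM)) :=
    pvtw_N_mono le_rfl (pvt_cells_mono fun q hq => Or.inl (Or.inr hq))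
  have subS : pvtwN 4 (pvtCells δ (closedBall ys rM)) ⊆ pvtwN 4 (pvtCells δ (K ∪ closedBall yt rM ∪ closedBall ys rM)) :=
    pvtw_N_mono le_rfl (pvt_cells_mono fun q hq => Or.inr hq)
  -- the last cells of the runs
  have ya : f a2 ∉ pvtwN 4 (pvtCells δ (K ∪ closedBall yt rM ∪ closedBall ys rM)) := fun hc => xa (pvlq_N_adj hc (h.step a2 (by omega)))
  have yb : f (n + 1 - b2) ∉ pvtwN 4 (pvtCells δ (K ∪ closedBall yt rM ∪ closedBall ys rM)) := fun hc => xb (pvlq_N_adj hc (hg.step b2 (by omega)))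
  -- the whiskers above the runs
  have goodT : ∀ a, a2 ≤ a → a ≤ lt → pt + (a : ℤ) • dt ∉ pvtwN 4 (pvtCells δ (K ∪ closedBall yt rM ∪ closedBall ys rM)) := by
    intro a h1 h2
    have hm : pt + (a : ℤ) • dt ∈ pvtbWh pt dt lt := ⟨a, h2, rfl⟩
    refine hE _ (wKt _ hm) (fun hc => ya ?_) (fun hc => ?_)
    · rw [ra a2 le_rfl]
      exact subT (pvlq_conv hδ (convex_closedBall _ _) h1 (pvtw_N_sub ft) hc)
    · have := pvlq_disc_near hδ hc; have := farT _ hm; linarith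
  have goodS : ∀ a, b2 ≤ a → a ≤ ls → ps + (a : ℤ) • ds ∉ pvtwN 4 (pvtCells δ (K ∪ closedBall yt rM ∪ closedBall ys rM)) := by
    intro a h1 h2
    have hm : ps + (a : ℤ) • ds ∈ pvtbWh ps ds ls := ⟨a, h2, rfl⟩
    refine hE _ (wKs _ hm) (fun hc => ?_) (fun hc => yb ?_)
    · have := pvlq_disc_near hδ hc; have := farS _ hm; linarith
    · rw [rb b2 le_rfl]
      exact subS (pvlq_conv hδ (convex_closedBall _ _) h1 (pvtw_N_sub fs) hc)
  -- the middle cells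
  have mid : ∀ k, a2 ≤ k → k + b2 ≤ n + 1 → f k ∉ pvtwN 4 (pvtCells δ (K ∪ closedBall yt rM ∪ closedBall ys rM)) := by
    intro k h1 h2
    rcases cl k (by omega) with c | c | c
    · obtain ⟨a, g1, g2, e⟩ := wa k h1 (by omega) c
      rw [e]; exact goodT a g1 g2
    · obtain ⟨a, g1, g2, e⟩ := wb (n + 1 - k) (by omega) (by omega) (by rw [show n + 1 - (n + 1 - k) = k by omega]; exact c)
      rw [show n + 1 - (n + 1 - k) = k by omega] at e
      rw [e]; exact goodS a g1 g2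
    · exact fun hc => c (pvtw_N_mono (by norm_num) Subset.rfl hc)
  have offT : ∀ k, a2 ≤ k → k ≤ n + 1 → rM + 4 * δ < ‖pvtCtr δ (f k) - yt‖ := by
    intro k h1 h2
    rcases Nat.lt_or_ge (n + 1) (k + b2) with h3 | h3
    · have e := rb (n + 1 - k) (by omega)
      rw [show n + 1 - (n + 1 - k) = k by omega] at e
      have := farS (f k) ⟨n + 1 - k, by omega, e⟩
      linarith
    · exact pvlq_disc_far hδ hr fun hc => mid k h1 h3 (subT hc)
  have offS : ∀ k, k + b2 ≤ n + 1 → rM + 4 * δ < ‖pvtCtr δ (f k) - ys‖ := by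
    intro k h2
    rcases Nat.lt_or_ge k a2 with h3 | h3
    · have := farT (f k) ⟨k, by omega, ra k h3.le⟩
      linarith
    · exact pvlq_disc_far hδ hr fun hc => mid k h3 h2 (subS hc)
  have nd : ‖(δ : ℂ) * pvtZ (f 1 - f 0)‖ = δ := by
    rw [norm_mul, (pvtb_Z_unit (pvtb_cor_dir h (i := 0) (by omega))).2, mul_one, Complex.norm_real, Real.norm_eq_abs, abs_of_pos hδ]
  refine ⟨a2 - 1, b2 - 1, ?_, ?_, ?_, ?_, ?_, ?_, ?_, ?_⟩
  · rw [pvtb_word_length]; omega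
  · have : ((a2 - 1 : ℕ) : ℝ) ≤ lt := by exact_mod_cast (by omega : a2 - 1 ≤ lt)
    nlinarith
  · have : ((b2 - 1 : ℕ) : ℝ) ≤ ls := by exact_mod_cast (by omega : b2 - 1 ≤ ls)
    nlinarith
  · intro i hi
    rw [pvtb_word_T f (by omega), ra i (by omega), ra (i + 1) (by omega), ra (i + 2) (by omega)]
    have e : pt + ((i + 2 : ℕ) : ℤ) • dt - (pt + ((i + 1 : ℕ) : ℤ) • dt) = pt + ((i + 1 : ℕ) : ℤ) • dt - (pt + (i : ℤ) • dt) := by
      ext <;> simp <;> ring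
    rw [e, pvtbLet, if_pos rfl]
  · intro i hi1 hi2
    rw [pvtb_word_length] at hi1 hi2
    have e0 := rb (n + 1 - i) (by omega)
    have e1 := rb (n - i) (by omega)
    have e2 := rb (n - 1 - i) (by omega)
    rw [show n + 1 - (n + 1 - i) = i by omega] at e0
    rw [show n + 1 - (n - i) = i + 1 by omega] at e1
    rw [show n + 1 - (n - 1 - i) = i + 2 by omega] at e2
    rw [pvtb_word_T f hi2, e0, e1, e2]
    have c0 : ((n + 1 - i : ℕ) : ℤ) = ((n - 1 - i : ℕ) : ℤ) + 2 := by omega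
    have c1 : ((n - i : ℕ) : ℤ) = ((n - 1 - i : ℕ) : ℤ) + 1 := by omega
    rw [c0, c1]
    have e : ps + ((n - 1 - i : ℕ) : ℤ) • ds - (ps + (((n - 1 - i : ℕ) : ℤ) + 1) • ds) = ps + (((n - 1 - i : ℕ) : ℤ) + 1) • ds - (ps + (((n - 1 - i : ℕ) : ℤ) + 2) • ds) := by
      ext <;> simp <;> ring
    rw [e, pvtbLet, if_pos rfl]
  · intro i hi1 hi2
    rw [pvtb_word_length] at hi2
    rw [pvtb_word_C h δ (by omega)]
    exact offT (i + 1) (by omega) (by omega)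
  · intro i hi2
    rw [pvtb_word_length] at hi2
    rw [pvtb_word_C h δ (by omega)]
    exact offS (i + 1) (by omega)
  · intro i hi1 hi2
    rw [pvtb_word_length] at hi2
    rw [pvtb_word_C h δ (by omega), nd]
    refine (pvlq_collar hδ fun hc => mid (i + 1) (by omega) (by omega) (pvtw_N_mono le_rfl hZ hc)).mono (closedBall_subset_closedBall (by linarith)) ?_
    intro w hw
    simp only [pvtU, Set.mem_iUnion, exists_prop] at hw ⊢
    obtain ⟨u, hu, hwu⟩ := hw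
    exact ⟨u, ⟨u, hu, Or.inl rfl⟩, hwu⟩

end Claimed.Agent.R289
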